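import Vale.Agent.P366Y.J.Defs
import Vale.Agent.P366Y.C.Orth
import Vale.Agent.P366Z.GradA

/-!
# P366Y, block E, row ALG: the algebra of the matrix `g⁻¹ - c p p`
-/

open Vale.Agent.P366.Stmt Vale.Agent.P366Z Vale.Agent.P366Z.Boch Vale.Agent.P366Y.C.OrthH

noncomputable section

namespace Vale.Agent.P366Y.J

namespace AlgH

variable {n : ℕ} {g : Field n} {x : E n} {c : ℝ} {p : Vc n}

theorem sh_smul (r : ℝ) (a : Vc n) (i : Fin n) : sh g x (r • a) i = r * sh g x a i := by
  simp only [sh, Finset.mul_sum, Pi.smul_apply, smul_eq_mul]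
  exact Finset.sum_congr rfl fun j _ => by ring

theorem qq_smul (r s : ℝ) (a b : Vc n) : qq g x (r • a) (s • b) = r * s * qq g x a b := by
  simp only [qq, Finset.mul_sum, Pi.smul_apply, smul_eq_mul]
  exact Finset.sum_congr rfl fun i _ => Finset.sum_congr rfl fun j _ => by ring

theorem pa (T : Mx n) : pr2 (am g x c p) T =
    ∑ i, ∑ j, up g i j x * T i j - c * ∑ i, ∑ j, T i j * (sh g x p i * sh g x p j) := by
  simp only [pr2, Finset.mul_sum, ← Finset.sum_sub_distrib]
  refine Finset.sum_congr rfl fun i _ => Finset.sum_congr rfl fun j _ => ?_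
  show (up g i j x - c * sh g x p i * sh g x p j) * _ = _
  ring

theorem pq (ξ : Vc n) :
    pr2 (am g x c p) (fun i j => ξ i * ξ j) = qq g x ξ ξ - c * qq g x ξ p ^ 2 := by
  rw [pa, cross, pow_two]
  simp only [qq, mul_assoc]

theorem bil_pp (T : Mx n) (a : Vc n) :
    bil g x T (fun k l => a k * a l) = ∑ i, ∑ j, T i j * (sh g x a i * sh g x a j) := by
  simpa only [zero_mul, one_mul, zero_add] using bil_t (g := g) (x := x) T 0 0 1 a a

theorem bil_a (hg : Met g) (T : Mx n) :
    bil g x T (fun k l => g x k l - c * (p k * p l)) = pr2 (am g x c p) T := by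
  rw [pa, ← bil_g hg, ← bil_pp]
  simp only [bil, Finset.mul_sum, ← Finset.sum_sub_distrib]
  exact Finset.sum_congr rfl fun i _ => Finset.sum_congr rfl fun j _ =>
    Finset.sum_congr rfl fun k _ => Finset.sum_congr rfl fun l _ => by ring

theorem pg (hg : Met g) : pr2 (am g x c p) (g x) = n - c * qq g x p p := by
  rw [pa, tr_g hg, qq_eq]
  congr 2
  rw [Finset.sum_comm]
  refine Finset.sum_congr rfl fun j _ => ?_
  rw [← hg.g_up_mul x j p]
  simp only [hg.sy x j, sh, Finset.sum_mul, mul_assoc]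

end AlgH

open AlgH in
/-- **row ALG** -/
theorem alg : ALG := by
  intro n g x c p hg hc h1
  have t0 : 0 ≤ qq g x p p := hg.up_nonneg x p
  have t1 : c * qq g x p p ≤ 1 := h1
  have e1 : ∀ ξ : Vc n, ∑ i, ∑ j, am g x c p i j * ξ i * ξ j =
      qq g x ξ ξ - c * qq g x ξ p ^ 2 := fun ξ => by
    rw [← pq]
    simp only [pr2, mul_assoc]
  have lo : ∀ ξ : Vc n, (1 - c * qq g x p p) * qq g x ξ ξ ≤
      ∑ i, ∑ j, am g x c p i j * ξ i * ξ j := fun ξ => by
    have k : qq g x ξ p ^ 2 ≤ qq g x ξ ξ * qq g x p p := hg.up_cs x ξ p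
    rw [e1]
    nlinarith [mul_le_mul_of_nonneg_left k hc]
  have ps : Psd (am g x c p) := ⟨fun i j => by
    rw [am, am, hg.up_sy]
    ring, fun ξ => (mul_nonneg (sub_nonneg.2 t1) (hg.up_nonneg x ξ)).trans (lo ξ)⟩
  refine ⟨t0, ps, fun ξ => ⟨lo ξ, ?_⟩, fun q e he => ?_, pg hg, fun T hT => ⟨?_, bil_nn hg _,
    fun h => ?_, fun F e h0 he => ?_⟩⟩
  · rw [e1]
    exact sub_le_self _ (mul_nonneg hc (sq_nonneg _))
  · show _ = qq g x q q * (1 - c * qq g x p p)
    have k := qq_smul (g := g) (x := x) 1 e q q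
    rw [one_smul] at k
    rw [pq, he, k, qq_smul]
    ring
  · have k := bil_cs hg x (T x) fun k l => g x k l - c * (p k * p l)
    have k1 : pr2 (am g x c p) (fun k l => g x k l - c * (p k * p l)) =
        pr2 (am g x c p) (g x) - c * pr2 (am g x c p) fun k l => p k * p l := by
      simp only [pr2, Finset.mul_sum, ← Finset.sum_sub_distrib]
      exact Finset.sum_congr rfl fun i _ => Finset.sum_congr rfl fun j _ => by ring
    rw [bil_a hg, bil_a hg, k1, pg hg, pq, mul_comm (bil g x _ _)] at k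
    refine k.trans (mul_le_mul_of_nonneg_right ?_ (bil_nn hg _))
    nlinarith [mul_nonneg hc t0]
  · have k := Grad.pr_le (C := am g x c p) (H := fun i j => -T x i j) ps.1 ps.2 fun ξ => by
      simpa only [Grad.qf, neg_mul, Finset.sum_neg_distrib, neg_nonpos] using h ξ
    simpa only [Grad.pr, pr2, mul_neg, Finset.sum_neg_distrib, neg_nonpos] using k
  · obtain ⟨a, ha⟩ : ∃ a : Vc n, a = (gn g F x)⁻¹ • D1 F x := ⟨_, rfl⟩
    have a1 : qq g x a a = 1 := by
      rw [ha, qq_smul, show qq g x (D1 F x) (D1 F x) = gn g F x ^ 2 from (hg.gn_sq F x).symm]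
      field_simp
    have a2 : ∀ i, nrm g F i x = sh g x a i := fun i => by
      rw [ha, sh_smul, mul_comm]
      rfl
    have a3 : p = (e * gn g F x) • a := by
      rw [he, ha, smul_smul, mul_inv_cancel_right₀ h0]
    have a4 : trS g T F x = tr g T x - ∑ i, ∑ j, T x i j * (sh g x a i * sh g x a j) := by
      simp only [trS, a2, mul_assoc]
    refine ⟨_, ?_, a4, ?_⟩
    · have k := bil_cs hg x (T x) fun k l => a k * a l
      rwa [bil_pp, bil_pp, cross, a1, mul_one, mul_one] at k
    · have k : ∑ i, ∑ j, T x i j * (sh g x p i * sh g x p j) =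
          (e * gn g F x) ^ 2 * ∑ i, ∑ j, T x i j * (sh g x a i * sh g x a j) := by
        simp only [a3, sh_smul, Finset.mul_sum]
        exact Finset.sum_congr rfl fun i _ => Finset.sum_congr rfl fun j _ => by ring
      have k' : sq g x p = (e * gn g F x) ^ 2 := by
        show qq g x p p = _
        rw [a3, qq_smul, a1]
        ring
      rw [pa, a4, k, k', tr]
      ring

end Vale.Agent.P366Y.J
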