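import Vale.Agent.P366Y.J.Defs

/-!
# P366Y, block E, row GA: the gauge functions
-/

open Filter Topology Set
open scoped ContDiff
open Real (smoothTransition log)

noncomputable section

namespace Vale.Agent.P366Y.J

namespace GaH

/-- the derivative of the transition function -/
def sd (z : ℝ) : ℝ := deriv smoothTransition z

theorem sd_sm : ContDiff ℝ ∞ sd :=
  (contDiff_infty_iff_deriv.1 (smoothTransition.contDiff (n := ⊤))).2

theorem sd_nn (z : ℝ) : 0 ≤ sd z := smoothTransition.monotone.deriv_nonneg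

theorem sd_lo {z : ℝ} (h : z ≤ 0) : sd z = 0 :=
  IsLocalMin.deriv_eq_zero (.of_forall fun w => by
    rw [smoothTransition.zero_of_nonpos h]; exact smoothTransition.nonneg w)

theorem sd_hi {z : ℝ} (h : 1 ≤ z) : sd z = 0 :=
  IsLocalMax.deriv_eq_zero (.of_forall fun w => by
    rw [smoothTransition.one_of_one_le h]; exact smoothTransition.le_one w)

theorem sd_bd : ∃ c ≥ (0 : ℝ), ∀ z, sd z ≤ c := by
  obtain ⟨c, hc⟩ := (isCompact_Icc (a := (0 : ℝ)) (b := 1)).bddAbove_image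
    sd_sm.continuous.continuousOn
  have c0 : 0 ≤ c := (sd_nn 0).trans (hc ⟨0, by simp, rfl⟩)
  refine ⟨c, c0, fun z => ?_⟩
  rcases le_total z 0 with h | h
  · rwa [sd_lo h]
  rcases le_total 1 z with h' | h'
  · rwa [sd_hi h']
  · exact hc ⟨z, ⟨h, h'⟩, rfl⟩

variable (P : Pa)

/-- minus the derivative of the cut -/
def td (t : ℝ) : ℝ := sd (2 - t / P.M₀ ^ 2) / P.M₀ ^ 2

/-- the difference of the two potentials -/
def el (y t : ℝ) : ℝ := log (1 + P.L * y ^ 2 * t) - (log (1 + 4 * P.L * t) + log (y ^ 2 / 4))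

/-- the derivative of the potential -/
def F (y t : ℝ) : ℝ := -(td P t * el P y t) + P.th t * (P.L * y ^ 2 / (1 + P.L * y ^ 2 * t)) +
  (1 - P.th t) * (4 * P.L / (1 + 4 * P.L * t))

theorem th_sm : ContDiff ℝ ∞ P.th :=
  smoothTransition.contDiff.comp (contDiff_const.sub (contDiff_id.div_const _))

theorem td_sm : ContDiff ℝ ∞ (td P) :=
  (sd_sm.comp (contDiff_const.sub (contDiff_id.div_const _))).div_const _

theorem th_der (t : ℝ) : HasDerivAt P.th (-td P t) t := by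
  have h := (((smoothTransition.contDiff (n := 1)).differentiable (by simp)
    (2 - t / P.M₀ ^ 2)).hasDerivAt).comp t (((hasDerivAt_id t).div_const (P.M₀ ^ 2)).const_sub 2)
  exact h.congr_deriv (by simp [td, sd, div_eq_mul_inv])

variable {P} {y t : ℝ}

theorem der (h1 : 1 + P.L * y ^ 2 * t ≠ 0) (h2 : 1 + 4 * P.L * t ≠ 0) :
    HasDerivAt (P.G y) (F P y t) t := by
  have a1 := (((hasDerivAt_id t).const_mul (P.L * y ^ 2)).const_add 1).log h1
  have a2 := (((hasDerivAt_id t).const_mul (4 * P.L)).const_add 1).log h2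
  refine (((th_der P t).mul a1).add (((th_der P t).const_sub 1).mul
    (a2.add_const (log (y ^ 2 / 4))))).congr_deriv ?_
  simp only [F, el, id, mul_one]
  ring

theorem el_bd (hL : 0 ≤ P.L) (h0 : 0 < y) (h2 : y ≤ 2) (ht : 0 ≤ t) :
    0 ≤ el P y t ∧ el P y t * (P.L * y ^ 2 * t) ≤ 1 := by
  have a0 : 0 ≤ P.L * y ^ 2 * t := by positivity
  have y4 : y ^ 2 / 4 ≤ 1 := by nlinarith
  have y0 : 0 < y ^ 2 / 4 := by positivity
  have e : el P y t = log ((1 + P.L * y ^ 2 * t) / (y ^ 2 / 4 + P.L * y ^ 2 * t)) := by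
    rw [el, ← Real.log_mul (by positivity) y0.ne', Real.log_div (by positivity) (by positivity)]
    congr 2
    ring
  generalize P.L * y ^ 2 * t = a at *
  generalize y ^ 2 / 4 = b at *
  have ab : 0 < b + a := by positivity
  rw [e]
  refine ⟨Real.log_nonneg ((one_le_div ab).2 (by linarith)), ?_⟩
  refine (mul_le_mul_of_nonneg_right (Real.log_le_sub_one_of_pos (by positivity)) a0).trans ?_
  rw [div_sub_one ab.ne', div_mul_eq_mul_div, div_le_one ab]
  nlinarith

theorem sm (y0 : 0 < y) (a1 : 1 + P.L * y ^ 2 * t ≠ 0) (b1 : 1 + 4 * P.L * t ≠ 0)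
    (o3 : P.th t / y ^ 2 + (1 - P.th t) / 4 + t ≠ 0) :
    ContDiffAt ℝ ∞ (fun q : ℝ × ℝ => P.G q.1 q.2) (y, t) ∧
    ContDiffAt ℝ ∞ (fun q : ℝ × ℝ => P.Gs q.1 q.2) (y, t) ∧
    ContDiffAt ℝ ∞ (fun q : ℝ × ℝ => P.om q.1 q.2) (y, t) := by
  have s1 : ContDiffAt ℝ ∞ (fun q : ℝ × ℝ => P.th q.2) (y, t) :=
    ((th_sm P).comp contDiff_snd).contDiffAt
  have s2 : ContDiffAt ℝ ∞ (fun q : ℝ × ℝ => td P q.2) (y, t) :=
    ((td_sm P).comp contDiff_snd).contDiffAt
  have s3 : ContDiffAt ℝ ∞ (fun q : ℝ × ℝ => 1 + P.L * q.1 ^ 2 * q.2) (y, t) := by fun_prop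
  have s4 : ContDiffAt ℝ ∞ (fun q : ℝ × ℝ => 1 + 4 * P.L * q.2) (y, t) := by fun_prop
  have s5 : ContDiffAt ℝ ∞ (fun q : ℝ × ℝ => log (1 + 4 * P.L * q.2) + log (q.1 ^ 2 / 4)) (y, t) :=
    (s4.log b1).add (ContDiffAt.log (by fun_prop) (by positivity))
  refine ⟨(s1.mul (s3.log a1)).add ((contDiffAt_const.sub s1).mul s5), ?_, ?_⟩
  · refine ContDiffAt.congr_of_eventuallyEq (f := fun q => F P q.1 q.2)
      (((s2.mul ((s3.log a1).sub s5)).neg.add (s1.mul (ContDiffAt.div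
        (f := fun q : ℝ × ℝ => P.L * q.1 ^ 2) (by fun_prop) s3 a1))).add
        ((contDiffAt_const.sub s1).mul (contDiffAt_const.div s4 b1))) ?_
    filter_upwards [s3.continuousAt.eventually_ne a1, s4.continuousAt.eventually_ne b1]
      with q h1 h2 using (der h1 h2).deriv
  · exact ContDiffAt.sqrt (((s1.div (contDiffAt_fst.pow 2) (by positivity)).add
      ((contDiffAt_const.sub s1).div_const 4)).add contDiffAt_snd) o3

end GaH

open GaH in
theorem ga : GA := by
  obtain ⟨c, c0, hc⟩ := sd_bd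
  refine ⟨3 + 8 * c, by linarith, fun P hP hB y hy t ht => ?_⟩
  obtain ⟨-, hL, τ0, τ1, -, hM, -⟩ := hP.pos
  obtain ⟨φ0, φ1⟩ := hP.φ0
  obtain ⟨η0, η1⟩ := hP.η0
  obtain ⟨y1, y2⟩ := hy
  have y0 : 0 < y := φ0.trans_le y1
  have L0 : 0 < P.L := by linarith
  have M0 : 0 < P.M₀ ^ 2 := by positivity
  have yy : y ^ 2 ≤ 4 := by nlinarith only [y0, y2]
  have cL : 3 + 8 * c ≤ (3 + 8 * c) * P.L := le_mul_of_one_le_right (by positivity) hL
  have Lc : P.L ≤ (3 + 8 * c) * P.L := le_mul_of_one_le_left L0.le (by linarith only [c0])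
  have a0 : 0 ≤ P.L * y ^ 2 * t := by positivity
  have a1 : 0 < 1 + P.L * y ^ 2 * t := by positivity
  have b1 : 0 < 1 + 4 * P.L * t := by positivity
  have ab : 1 + P.L * y ^ 2 * t ≤ 1 + 4 * P.L * t := by
    have : P.L * y ^ 2 * t ≤ P.L * 4 * t := by gcongr
    linarith only [this]
  have hd := der a1.ne' b1.ne'
  have eG : P.Gs y t = F P y t := hd.deriv
  have t0 : 0 ≤ P.th t := smoothTransition.nonneg _
  have t1 : P.th t ≤ 1 := smoothTransition.le_one _
  have d0 : 0 ≤ td P t := div_nonneg (sd_nn _) M0.le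
  obtain ⟨l0, l1⟩ := el_bd L0.le y0 y2 ht
  have ei : io P y t = t * td P t * el P y t + P.th t / (1 + P.L * y ^ 2 * t) +
      (1 - P.th t) / (1 + 4 * P.L * t) := by
    rw [io, eG, F]
    field_simp
    ring
  have lo : t ≤ P.M₀ ^ 2 → P.th t = 1 ∧ td P t = 0 := fun h => by
    have : 1 ≤ 2 - t / P.M₀ ^ 2 := by linarith [(div_le_one M0).2 h]
    exact ⟨smoothTransition.one_of_one_le this, by rw [td, sd_hi this, zero_div]⟩
  have hi : 2 * P.M₀ ^ 2 ≤ t → P.th t = 0 ∧ td P t = 0 := fun h => by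
    have : 2 - t / P.M₀ ^ 2 ≤ 0 := by linarith [(le_div_iff₀ M0).2 h]
    exact ⟨smoothTransition.zero_of_nonpos this, by rw [td, sd_lo this, zero_div]⟩
  have k1 : t * td P t ≤ 2 * c := by
    rcases le_total (2 * P.M₀ ^ 2) t with h | h
    · rw [(hi h).2]; linarith
    · rw [td, mul_div_left_comm, mul_comm 2]
      exact mul_le_mul (hc _) ((div_le_iff₀ M0).2 h) (by positivity) c0
  have big : P.M₀ ^ 2 ≤ t → (3 + 8 * c) * P.L ≤ P.L * y ^ 2 * t := fun h => by
    refine hB.b3.trans ?_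
    calc P.η * P.τ * P.φ₀ ^ 4 * P.M₀ ≤ 1 * P.L * P.φ₀ ^ 2 * P.M₀ ^ 2 := by
          have e1 : P.φ₀ ^ 4 ≤ P.φ₀ ^ 2 := pow_le_pow_of_le_one φ0.le φ1 (by norm_num)
          have e2 : P.M₀ ≤ P.M₀ ^ 2 := le_self_pow₀ hM two_ne_zero
          have e3 : P.η ≤ 1 := by linarith only [η1]
          have e4 := τ1.trans hL
          exact mul_le_mul (mul_le_mul (by gcongr) e1 (by positivity) (by positivity)) e2
            (by positivity) (by positivity)
      _ ≤ P.L * y ^ 2 * t := by rw [one_mul]; gcongr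
  have i1 : 1 / (1 + 4 * P.L * t) ≤ io P y t := by
    have : P.th t / (1 + 4 * P.L * t) ≤ P.th t / (1 + P.L * y ^ 2 * t) := by gcongr
    have : 0 ≤ t * td P t * el P y t := by positivity
    rw [ei, sub_div]
    linarith
  have i0 : 0 ≤ io P y t := le_trans (by positivity) i1
  have i2 : io P y t * (1 + P.L * y ^ 2 * t) ≤ 1 + 4 * c := by
    have u1 : (1 - P.th t) / (1 + 4 * P.L * t) * (1 + P.L * y ^ 2 * t) ≤ 1 - P.th t := by
      rw [div_mul_eq_mul_div, div_le_iff₀ b1]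
      exact mul_le_mul_of_nonneg_left ab (by linarith)
    have u2 : t * td P t * (el P y t * (1 + P.L * y ^ 2 * t)) ≤ 2 * c * 2 := by
      rcases le_total t (P.M₀ ^ 2) with h | h
      · rw [(lo h).2]; simpa using c0
      · refine mul_le_mul k1 ?_ (by positivity) (by positivity)
        have := mul_le_mul_of_nonneg_left ((hL.trans Lc).trans (big h)) l0
        linarith only [this, l1]
    rw [ei, add_mul, add_mul, div_mul_cancel₀ _ a1.ne']
    linarith
  have g0 : 0 ≤ P.Gs y t := by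
    rcases le_total t (P.M₀ ^ 2) with h | h
    · rw [eG, F, (lo h).1, (lo h).2]
      simp only [zero_mul, neg_zero, sub_self, add_zero, zero_add]
      positivity
    · have u1 : 1 + 4 * c ≤ 1 * (1 + P.L * y ^ 2 * t) := by linarith only [big h, cL, c0]
      have u2 := le_of_mul_le_mul_right (i2.trans u1) a1
      rw [io] at u2
      exact nonneg_of_mul_nonneg_right (by linarith) (M0.trans_le h)
  have y4 : 1 / 4 ≤ 1 / y ^ 2 := by gcongr
  have o1 : 1 / 4 + t ≤ P.th t / y ^ 2 + (1 - P.th t) / 4 + t := by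
    have := mul_le_mul_of_nonneg_left y4 t0
    rw [mul_one_div, mul_one_div] at this
    linarith
  have o2 : P.th t / y ^ 2 + (1 - P.th t) / 4 + t ≤ 1 / y ^ 2 + t := by
    have := mul_le_mul_of_nonneg_left y4 (sub_nonneg.2 t1)
    rw [mul_one_div, mul_one_div, sub_div _ _ (y ^ 2)] at this
    linarith
  have o3 : 0 < P.th t / y ^ 2 + (1 - P.th t) / 4 + t := by linarith
  have o0 : 0 < P.om y t := Real.sqrt_pos.2 o3
  have eo : P.om y t ^ 2 = P.th t / y ^ 2 + (1 - P.th t) / 4 + t := Real.sq_sqrt o3.le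
  obtain ⟨s1, s2, s3⟩ := sm y0 a1.ne' b1.ne' o3.ne'
  refine ⟨s1, s2, s3, eG ▸ hd, g0, i1, by linarith only [i2, c0], o0, eo ▸ o1, eo ▸ o2, ?_,
    fun h => ?_⟩
  · have u1 : 1 ≤ 2 * P.om y t := by nlinarith only [o0, eo, o1, ht]
    have u2 : io P y t ≤ 1 := sub_le_self _ (mul_nonneg ht g0)
    have u3 : √(P.L * t) ≤ P.om y t * (1 + P.L * y ^ 2 * t) := by
      refine Real.sqrt_le_iff.2 ⟨by positivity, ?_⟩
      rw [mul_pow]
      have v : 1 + P.L * y ^ 2 * t ≤ (1 + P.L * y ^ 2 * t) ^ 2 :=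
        le_self_pow₀ (by linarith only [a0]) two_ne_zero
      rcases le_total t (P.M₀ ^ 2) with h | h
      · calc P.L * t = 1 / y ^ 2 * (P.L * y ^ 2 * t) := by field_simp
          _ ≤ _ := mul_le_mul (by rw [eo, (lo h).1]; linarith) (by linarith) a0 (by positivity)
      · rw [mul_comm]
        exact mul_le_mul (by linarith only [eo, o1]) (by linarith only [big h, Lc, v]) L0.le
          (by positivity)
    have u4 := mul_le_mul_of_nonneg_left u3 i0
    linarith only [mul_le_mul_of_nonneg_left i2 o0.le, u1, u2, u4, mul_nonneg c0 o0.le]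
  · rw [eG, F, Pa.om, (hi h).1, (hi h).2]
    simp

end Vale.Agent.P366Y.J
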