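import Vale.Agent.P366Y.J.Defs
import Vale.Agent.P366Z.GradA

/-!
# P366Y, block E: touching functions, the Hessian of a composition (rows TOUCH, HCP)
-/

open Filter Topology
open scoped ContDiff
open Vale.Agent.P366.Stmt Vale.Agent.P366Z

noncomputable section

namespace Vale.Agent.P366Y.J

/-- **row TOUCH** -/
theorem touch : TOUCH := by
  intro n f w x a hf hw hm ha
  have key := fun ξ : E n => Grad.test (ξ := ξ) (η := ξ) (α := 0) (β := 0) hw hf (by
    have c : Tendsto (fun t : ℝ => x + t • ξ) (𝓝 0) (𝓝 x) :=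
      Continuous.tendsto' (by fun_prop) _ _ (by simp)
    filter_upwards [c.eventually hm] with t ht
    linarith)
  refine ⟨funext fun i => ?_, ?_⟩
  · rw [D1, D1, pd_eq (diff2 hf), pd_eq (diff2 hw)]
    exact (sub_eq_zero.1 (key _).1).symm
  · have := Grad.pr_le (H := fun i j => D2 w x i j - D2 f x i j) ha.1 ha.2 fun ξ => by
      have k := (key (WithLp.toLp 2 ξ)).2
      rw [Grad.d2_eq hw, Grad.d2_eq hf, mul_zero] at k
      simpa only [Grad.qf, D2, sub_mul, Finset.sum_sub_distrib] using k
    simpa only [Grad.pr, pr2, mul_sub, Finset.sum_sub_distrib, sub_nonpos] using this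

/-- **row HCP** -/
theorem hcp : HCP := by
  intro n g b F x hb hF
  have b1 : ContDiff ℝ ∞ (deriv b) := hb.iterate_deriv 1
  have d1 : ∀ t, HasDerivAt b (deriv b t) t := fun t => (hb.differentiable (by simp) t).hasDerivAt
  have d2 : ∀ t, HasDerivAt (deriv b) (deriv (deriv b) t) t := fun t =>
    (b1.differentiable (by simp) t).hasDerivAt
  have e : ∀ i, pd i (fun y => b (F y)) = fun y => deriv b (F y) * pd i F y := fun i =>
    funext fun y => pd_comp (d1 _) (hF.diff y) i
  refine ⟨funext fun i => congrFun (e i) x, fun i j => ?_, rfl⟩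
  simp only [hess, e, D1]
  rw [pd_mul ((d2 _).differentiableAt.fun_comp' x (hF.diff x)) ((hF.pd j).diff x),
    pd_comp (d2 _) (hF.diff x), mul_sub, Finset.mul_sum,
    Finset.sum_congr rfl fun k _ => mul_left_comm (chr g k i j x) _ _]
  ring

end Vale.Agent.P366Y.J
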