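import Vale.Agent.P366Y.Sk
import Vale.Agent.P366Y.H.Defs
import Vale.Agent.P366Z.Calc3

/-!
# P366Y, block E: the equation of the gauge (statements of the rows)
-/

open MeasureTheory Metric Filter Topology Set
open scoped ContDiff ENNReal
open Vale.Agent.P366.Stmt Vale.Agent.P366Z

noncomputable section

namespace Vale.Agent.P366Y.J

variable {n : ℕ}

/-- the inverse of `Γ` -/
def io (P : Pa) (y t : ℝ) : ℝ := 1 - t * P.Gs y t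

/-- the facts on the gauge functions at the point `(y, t)` -/
structure Ga (P : Pa) (C y t : ℝ) : Prop where
  sG : ContDiffAt ℝ ∞ (fun q : ℝ × ℝ => P.G q.1 q.2) (y, t)
  sGs : ContDiffAt ℝ ∞ (fun q : ℝ × ℝ => P.Gs q.1 q.2) (y, t)
  som : ContDiffAt ℝ ∞ (fun q : ℝ × ℝ => P.om q.1 q.2) (y, t)
  dG : HasDerivAt (P.G y) (P.Gs y t) t
  Gs0 : 0 ≤ P.Gs y t
  io1 : 1 / (1 + 4 * P.L * t) ≤ io P y t
  io2 : io P y t * (1 + P.L * y ^ 2 * t) ≤ C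
  om0 : 0 < P.om y t
  om1 : 1 / 4 + t ≤ P.om y t ^ 2
  om2 : P.om y t ^ 2 ≤ 1 / y ^ 2 + t
  ric : io P y t * (1 + √(P.L * t)) ≤ C * P.om y t
  cut : 2 * P.M₀ ^ 2 ≤ t → P.Gs y t = 4 * P.L / (1 + 4 * P.L * t) ∧ P.om y t = √(1 / 4 + t)

/-- **GA**: the gauge functions -/
def GA : Prop := ∃ C ≥ (1 : ℝ), ∀ P : Pa, P.Ok → P.Big C → ∀ y ∈ Icc P.φ₀ 2, ∀ t ≥ (0 : ℝ),
  Ga P C y t

/-- the data and the parameters fit -/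
structure Cx (X : Dat n) (P : Pa) (C : ℝ) : Prop where
  hX : X.Ok
  hP : P.Ok
  fo : P.For X
  big : P.Big C

/-- **PROF**: the profile of the barriers -/
def PROF : Prop := ∀ a > (0 : ℝ), ∀ d > (0 : ℝ), ∀ κ > (0 : ℝ), ∃ C ≥ (1 : ℝ), ∀ L F : ℝ, 1 ≤ F →
  C * (1 + Real.log F) ^ 2 ≤ L → ∃ b : ℝ → ℝ, ContDiff ℝ ∞ b ∧ (∀ z ≤ 0, b z = 0) ∧
    (∀ z, 0 ≤ b z ∧ 0 ≤ deriv b z ∧ deriv b z ≤ κ * F ∧ 0 ≤ deriv (deriv b) z ∧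
      deriv (deriv b) z ≤ a * (1 + √L * deriv b z)) ∧
    (∀ z ≤ 0, deriv b z = 0 ∧ deriv (deriv b) z = 0) ∧ (∀ z ≥ d, deriv b z = κ * F) ∧
    (∀ z ≥ 0, b z ≤ κ * F * z) ∧ ∀ z ≥ d, κ * F * (z - d) ≤ b z

/-- a symmetric nonnegative matrix -/
def Psd (a : Mx n) : Prop := (∀ i j, a i j = a j i) ∧ ∀ ξ : Vc n, 0 ≤ ∑ i, ∑ j, a i j * ξ i * ξ j

/-- **TOUCH**: at a local minimum of `f - w` -/
def TOUCH : Prop := ∀ (n : ℕ) (f w : E n → ℝ) (x : E n) (a : Mx n), ContDiffAt ℝ 2 f x →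
  ContDiffAt ℝ 2 w x → IsLocalMin (fun y => f y - w y) x → Psd a →
  D1 f x = D1 w x ∧ pr2 a (D2 w x) ≤ pr2 a (D2 f x)

/-- the matrix `g⁻¹ - c p p` -/
def am (g : Field n) (x : E n) (c : ℝ) (p : Vc n) : Mx n := fun i j =>
  up g i j x - c * rs g x p i * rs g x p j

/-- **ALG**: the algebra of the matrix `g⁻¹ - c p p` -/
def ALG : Prop := ∀ (n : ℕ) (g : Field n) (x : E n) (c : ℝ) (p : Vc n), Met g → 0 ≤ c →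
  c * sq g x p ≤ 1 → 0 ≤ sq g x p ∧ Psd (am g x c p) ∧
  (∀ ξ : Vc n, (1 - c * sq g x p) * sq g x ξ ≤ ∑ i, ∑ j, am g x c p i j * ξ i * ξ j ∧
    ∑ i, ∑ j, am g x c p i j * ξ i * ξ j ≤ sq g x ξ) ∧
  (∀ (q : Vc n) (e : ℝ), p = e • q →
    pr2 (am g x c p) (fun i j => q i * q j) = sq g x q * (1 - c * sq g x p)) ∧
  pr2 (am g x c p) (g x) = n - c * sq g x p ∧
  ∀ T : Field n, (∀ i j, T x i j = T x j i) →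
    pr2 (am g x c p) (T x) ^ 2 ≤ n * normSq g T x ∧ 0 ≤ normSq g T x ∧
    ((∀ ξ : Vc n, 0 ≤ ∑ i, ∑ j, T x i j * ξ i * ξ j) → 0 ≤ pr2 (am g x c p) (T x)) ∧
    ∀ (F : E n → ℝ) (e : ℝ), gn g F x ≠ 0 → p = e • D1 F x → ∃ ν : ℝ, ν ^ 2 ≤ normSq g T x ∧
      trS g T F x = tr g T x - ν ∧
      pr2 (am g x c p) (T x) = trS g T F x + (1 - c * sq g x p) * ν

/-- **HCP**: the Hessian of a composition -/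
def HCP : Prop := ∀ (n : ℕ) (g : Field n) (b : ℝ → ℝ) (F : E n → ℝ) (x : E n), ContDiff ℝ ∞ b →
  Smooth F → D1 (fun y => b (F y)) x = deriv b (F x) • D1 F x ∧
    (∀ i j, hess g (fun y => b (F y)) x i j =
      deriv (deriv b) (F x) * (D1 F x i * D1 F x j) + deriv b (F x) * hess g F x i j) ∧
    sq g x (D1 F x) = ip g F F x

/-- **JSUP**: the bound of `f` -/
def JSUP : Prop := ∀ (n : ℕ) (X : Dat n) (P : Pa) (s l σ A : ℝ) (ψ f : E n → ℝ), X.Ok → P.Ok →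
  P.For X → 0 < s → 0 < l → σ ∈ Icc (0 : ℝ) 1 → Ps X P A ψ → Jf X P s l σ ψ f →
  ∀ x, |f x| ≤ 8 * P.F₀

/-- **JGRAD**: the bound of the gradient -/
def JGRAD : Prop := ∀ (n : ℕ) (X : Dat n), X.Ok → ∃ C : ℝ, ∀ P : Pa, Cx X P C → ∃ l₀ : ℝ, ∀ l ≥ l₀,
  ∃ M ≥ (1 : ℝ), ∀ s > (0 : ℝ), ∀ σ ∈ Icc (0 : ℝ) 1, ∀ (A : ℝ) (ψ f : E n → ℝ), Ps X P A ψ →
    Jf X P s l σ ψ f → ∀ x, ‖fderiv ℝ f x‖ ≤ M

/-- **JINN**: the inner barrier -/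
def JINN : Prop := ∀ (n : ℕ) (X : Dat n), X.Ok → ∃ C : ℝ, ∀ P : Pa, Cx X P C →
  ∀ (s l A : ℝ) (ψ f : E n → ℝ), 0 < s → 0 < l → Ps X P A ψ → Jf X P s l 1 ψ f →
    ∀ x, X.F x ≤ 0 → 2 * P.F₀ ≤ f x

/-- **JOUT**: the dead core -/
def JOUT : Prop := ∀ (n : ℕ) (X : Dat n), X.Ok → ∃ C : ℝ, ∀ P : Pa, Cx X P C →
  ∀ (s l A : ℝ) (ψ f : E n → ℝ), 0 < s → 0 < l → Ps X P A ψ → Jf X P s l 1 ψ f →
    ∀ x, X.R + 1 ≤ ‖x‖ → |f x| ≤ s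

/-- the bounds of order zero and one -/
def B1 (P : Pa) (M : ℝ) (f : E n → ℝ) : Prop := ∀ x, |f x| ≤ 8 * P.F₀ ∧ ‖fderiv ℝ f x‖ ≤ M

/-- the gradient is Hölder continuous at the scale `1 / A` -/
def Hs (θ K A : ℝ) (f : E n → ℝ) : Prop := ∀ x y, ‖D1 f x - D1 f y‖ ≤ K * (A * ‖x - y‖) ^ θ

/-- **JHOL**: the Hölder estimate of the gradient -/
def JHOL : Prop := ∃ C : ℝ, ∀ (n : ℕ) (X : Dat n) (P : Pa) (l M : ℝ), Cx X P C →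
  ∃ θ ∈ Ioo (0 : ℝ) 1, ∃ K > (0 : ℝ), ∀ s > (0 : ℝ), ∀ σ ∈ Icc (0 : ℝ) 1, ∀ A ≥ (1 : ℝ),
    ∀ ψ f : E n → ℝ, Ps X P A ψ → Jf X P s l σ ψ f → B1 P M f → Hs θ K A f

/-- **COEF**: the coefficients are Lipschitz on bounded sets and elliptic -/
def COEF : Prop := ∃ C : ℝ, ∀ (n : ℕ) (X : Dat n) (P : Pa), Cx X P C → ∃ Λ₀ : ℝ,
  (∀ (A : ℝ) (ψ : E n → ℝ), Ps X P A ψ → (∀ x p i j, |aJ X P ψ x p i j| ≤ Λ₀) ∧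
    (∀ x p, X.ρ ≤ ‖x‖ → aJ X P ψ x p = eu n x) ∧
    ContDiff ℝ ∞ (fun q : E n × Vc n => aJ X P ψ q.1 q.2) ∧
    ∀ s l σ : ℝ, ContDiff ℝ ∞ fun q : E n × ℝ × Vc n => bJ X P s l σ ψ q.1 q.2.1 q.2.2) ∧
  ∀ s l M : ℝ, ∃ Λ > (0 : ℝ), ∀ σ ∈ Icc (0 : ℝ) 1, ∀ (A A' : ℝ) (ψ ψ' : E n → ℝ), Ps X P A ψ →
    Ps X P A' ψ' → ∀ (x x' : E n) (z z' : ℝ) (p p' : Vc n), |z| ≤ M → |z'| ≤ M → ‖p‖ ≤ M →
      ‖p'‖ ≤ M → El Λ (aJ X P ψ x p) ∧ |bJ X P s l σ ψ x z p| ≤ Λ ∧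
      ‖aJ X P ψ x p - aJ X P ψ' x' p'‖ ≤ Λ * (‖x - x'‖ + |ψ x - ψ' x'| + ‖p - p'‖) ∧
      |bJ X P s l σ ψ x z p - bJ X P s l σ ψ' x' z' p'| ≤
        Λ * (‖x - x'‖ + |ψ x - ψ' x'| + |z - z'| + ‖p - p'‖)

/-- **JC2**: the estimate of Schauder -/
def JC2 : Prop := ∃ C : ℝ, ∀ (n : ℕ) (X : Dat n) (P : Pa) (s l M A θ K : ℝ), Cx X P C →
  θ ∈ Ioo (0 : ℝ) 1 → 1 ≤ A → ∃ K' : ℝ, ∀ ψ f : E n → ℝ, Ps X P A ψ → Jf X P s l 1 ψ f →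
    B1 P M f → Hs θ K A f → (∃ A₁, C2H θ A₁ f) → C2H θ K' f

/-- **JEX**: existence -/
def JEX : Prop := ∃ C : ℝ, ∀ (n : ℕ) (X : Dat n) (P : Pa), Cx X P C → ∃ l₀ : ℝ, ∀ l ≥ l₀,
  ∀ (s A M θ K : ℝ) (ψ : E n → ℝ), θ ∈ Ioo (0 : ℝ) 1 → 1 ≤ A → Ps X P A ψ →
    (∀ σ ∈ Icc (0 : ℝ) 1, ∀ f, Jf X P s l σ ψ f → B1 P M f ∧ Hs θ K A f) →
    ∃ f, Jf X P s l 1 ψ f ∧ ∃ A₁, C2H θ A₁ f

/-- **JCT**: continuous dependence on `ψ` -/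
def JCT : Prop := ∃ C : ℝ, ∀ (n : ℕ) (X : Dat n) (P : Pa) (s l θ K : ℝ), Cx X P C → 0 < s → 0 < l →
  θ ∈ Ioo (0 : ℝ) 1 → ∀ e > (0 : ℝ), ∃ d > (0 : ℝ), ∀ (A A' : ℝ) (ψ ψ' f f' : E n → ℝ),
    Ps X P A ψ → Ps X P A' ψ' → Jf X P s l 1 ψ f → Jf X P s l 1 ψ' f' → C2H θ K f → C2H θ K f' →
    (∀ x, |ψ x - ψ' x| ≤ d) →
    ∀ x, |f x - f' x| ≤ e ∧ ‖D1 f x - D1 f' x‖ ≤ e ∧ ‖D2 f x - D2 f' x‖ ≤ e

/-- **JFAR**: a small function with a Hölder gradient has a small gradient -/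
def JFAR : Prop := ∀ (n : ℕ) (θ K A ε : ℝ), 0 < θ → 0 < ε → 0 ≤ A → ∃ s₀ > (0 : ℝ),
  ∀ (f : E n → ℝ) (x : E n), Smooth f → Hs θ K A f → (∀ y ∈ ball x 1, |f y| ≤ s₀) →
    ‖fderiv ℝ f x‖ ≤ ε

/-- **JALL**: the output of the block -/
def JALL : Prop := ∀ (n : ℕ) (X : Dat n), X.Ok → ∃ C : ℝ, ∀ P : Pa, Cx X P C →
  ∃ M ≥ (1 : ℝ), ∃ θ ∈ Ioo (0 : ℝ) 1, ∃ K₀ > (0 : ℝ), ∀ A ≥ (1 : ℝ), ∀ ε > (0 : ℝ),
    ∃ s₀ > (0 : ℝ), ∀ s ∈ Ioc (0 : ℝ) s₀, ∃ (K : ℝ) (Φ : (E n → ℝ) → E n → ℝ),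
      (∀ ψ, Ps X P A ψ → Jg X P s M ε ψ (Φ ψ) ∧ C2H θ K (Φ ψ) ∧ Hs θ K₀ A (Φ ψ)) ∧
      ∀ e > (0 : ℝ), ∃ d > (0 : ℝ), ∀ ψ ψ', Ps X P A ψ → Ps X P A ψ' → (∀ x, |ψ x - ψ' x| ≤ d) →
        ∀ x, ‖D1 (Φ ψ) x - D1 (Φ ψ') x‖ ≤ e ∧ ‖D2 (Φ ψ) x - D2 (Φ ψ') x‖ ≤ e

theorem big_mono {P : Pa} {C C' : ℝ} (hP : P.Ok) (h : P.Big C) (e : C' ≤ C) : P.Big C' := by
  obtain ⟨p1, p2, p3, p4, p5, p6, p7, p8, p9⟩ := hP.pos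
  have q := hP.φ0.1
  refine ⟨le_trans (by gcongr) h.b1, le_trans (by gcongr) h.b2, le_trans (by gcongr) h.b3,
    le_trans (by gcongr) h.b4, le_trans (by gcongr) h.b5, e.trans h.b6, le_trans (by gcongr) h.b7⟩

theorem Cx.mono {X : Dat n} {P : Pa} {C C' : ℝ} (h : Cx X P C) (e : C' ≤ C) : Cx X P C' :=
  ⟨h.hX, h.hP, h.fo, big_mono h.hP h.big e⟩

theorem U0 {X : Dat n} (h : X.Ok) (x : E n) : 0 < X.U x := by linarith [(h.Ub x).1]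

theorem mg {X : Dat n} (h : X.Ok) : Met X.g := h.met.cf h.smU (U0 h)

theorem rc_mem (r : ℝ) (x : E n) : 0 ≤ rc r x ∧ rc r x ≤ 1 :=
  ⟨Real.smoothTransition.nonneg _, Real.smoothTransition.le_one _⟩

theorem rc_one {r : ℝ} (hr : 0 ≤ r) {x : E n} (hx : ‖x‖ ≤ r) : rc r x = 1 :=
  Real.smoothTransition.one_of_one_le ((one_le_div (by linarith)).2 (by nlinarith [norm_nonneg x]))

theorem rc_zero {r : ℝ} (hr : 0 ≤ r) {x : E n} (hx : r + 1 ≤ ‖x‖) : rc r x = 0 :=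
  Real.smoothTransition.zero_of_nonpos
    (div_nonpos_of_nonpos_of_nonneg (by nlinarith) (by linarith))

theorem sm_rc (r : ℝ) : Smooth (rc r : E n → ℝ) :=
  Real.smoothTransition.contDiff.comp ((contDiff_const.sub contDiff_normSq).div_const _)

theorem ag_eq (X : Dat n) (P : Pa) (ψ : E n → ℝ) (x : E n) (p : Vc n) :
    ag X P ψ x p = am X.g x (rc (X.R + 7) x * P.Gs (ψ x) (sq X.g x p)) p := rfl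

/-- the geometric form of the equation -/
theorem geo {X : Dat n} {P : Pa} {s l : ℝ} {ψ f : E n → ℝ} (hX : X.Ok)
    (h : Jf X P s l 1 ψ f) {x : E n} (hx : ‖x‖ ≤ X.R + 7) :
    pr2 (ag X P ψ x (D1 f x)) (hess X.g f x) = P.om (ψ x) (ip X.g f f x) *
      (pr2 (ag X P ψ x (D1 f x)) (X.K x) + cap X P s x (f x)) := by
  have e := h.eqn x
  have u := Real.rpow_pos_of_pos (U0 hX x) (2 * bb n)
  have e1 : pr2 (aJ X P ψ x (D1 f x)) (D2 f x) =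
      X.U x ^ (2 * bb n) * pr2 (ag X P ψ x (D1 f x)) (D2 f x) := by
    simp only [pr2, aJ, Finset.mul_sum, mul_assoc]
  have e2 : pr2 (ag X P ψ x (D1 f x)) (hess X.g f x) = pr2 (ag X P ψ x (D1 f x)) (D2 f x) -
      pr2 (ag X P ψ x (D1 f x)) fun i j => ∑ k, chr X.g k i j x * D1 f x k := by
    simp only [pr2, hess, D2, D1, mul_sub, Finset.sum_sub_distrib]
  rw [e1, bJ, rc_one (by linarith [hX.R1]) hx] at e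
  simp only [mul_one, one_mul, sub_self, zero_mul, add_zero] at e
  have e3 := mul_left_cancel₀ u.ne' e
  rw [e2, e3]
  have : sq X.g x (D1 f x) = ip X.g f f x := rfl
  rw [this]; ring

end Vale.Agent.P366Y.J
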