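import Vale.Agent.P366Y.J.Defs

/-!
# P366Y, block E: the bounds at the small scale (statements of the rows)
-/

open MeasureTheory Metric Filter Topology Set
open scoped ContDiff ENNReal
open Vale.Agent.P366.Stmt Vale.Agent.P366Z

noncomputable section

namespace Vale.Agent.P366Y.J

variable {n : ℕ}

/-- **COEF2**: the right hand side, uniformly in `s` -/
def COEF2 : Prop := ∃ C : ℝ, ∀ (n : ℕ) (X : Dat n) (P : Pa), Cx X P C → ∀ l M : ℝ,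
  ∃ Λ > (0 : ℝ), ∀ s : ℝ, ∀ σ ∈ Icc (0 : ℝ) 1, ∀ (A A' : ℝ) (ψ ψ' : E n → ℝ), Ps X P A ψ →
    Ps X P A' ψ' → ∀ (x x' : E n) (z z' : ℝ) (p p' : Vc n), |z| ≤ M → |z'| ≤ M → ‖p‖ ≤ M →
      ‖p'‖ ≤ M → |bJ X P s l σ ψ x z p| ≤ Λ ∧
      |bJ X P s l σ ψ x z p - bJ X P s l σ ψ' x' z' p'| ≤
        Λ * (‖x - x'‖ + |ψ x - ψ' x'| + (1 + 1 / |s|) * |z - z'| + ‖p - p'‖)

/-- **JD2**: the second derivatives at the scale `1 / A` -/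
def JD2 : Prop := ∃ C : ℝ, ∀ (n : ℕ) (X : Dat n) (P : Pa) (l M θ K : ℝ), Cx X P C →
  θ ∈ Ioo (0 : ℝ) 1 → ∃ K' > (0 : ℝ), ∀ A ≥ (1 : ℝ), ∀ s ≥ 1 / A ^ 2, ∀ ψ f : E n → ℝ,
    Ps X P A ψ → Jf X P s l 1 ψ f → B1 P M f → Hs θ K A f → ∀ x, ‖D2 f x‖ ≤ K' * A

/-- **JEXP**: the exponential decay in the dead core -/
def JEXP : Prop := ∃ C : ℝ, ∀ (n : ℕ) (X : Dat n) (P : Pa), Cx X P C → ∃ c > (0 : ℝ),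
  ∀ (s l A : ℝ) (ψ f : E n → ℝ), 0 < s → s ≤ 1 → Ps X P A ψ → Jf X P s l 1 ψ f →
    (∀ x, X.R + 1 ≤ ‖x‖ → |f x| ≤ s) →
    ∀ x, X.R + 7 / 2 ≤ ‖x‖ → ‖x‖ ≤ X.R + 13 / 2 → |f x| ≤ s * Real.exp (-(c / √s))

/-- everything about `f` -/
structure Jk (X : Dat n) (P : Pa) (M θ K₀ ε A K : ℝ) (ψ f : E n → ℝ) : Prop where
  sm : Smooth f
  eqn : ∀ x, ‖x‖ ≤ X.R + 7 → pr2 (ag X P ψ x (D1 f x)) (hess X.g f x) =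
    P.om (ψ x) (ip X.g f f x) * (pr2 (ag X P ψ x (D1 f x)) (X.K x) + cap X P (1 / A ^ 2) x (f x))
  sup : ∀ x, |f x| ≤ 8 * P.F₀
  grad : ∀ x, ‖fderiv ℝ f x‖ ≤ M
  inn : ∀ x, X.F x ≤ 0 → 2 * P.F₀ ≤ f x
  out : ∀ x, X.R + 1 ≤ ‖x‖ → |f x| ≤ 1 / A ^ 2
  hol : Hs θ K₀ A f
  d2 : ∀ x, ‖D2 f x‖ ≤ K₀ * A
  c2 : C2H θ K f
  tiny : ∀ x, X.R + 4 ≤ ‖x‖ → ‖x‖ ≤ X.R + 6 → A ^ 2 * |f x| ≤ ε ∧ A ^ 2 * ‖D1 f x‖ ≤ ε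

/-- **JALL2**: the output of the block, with `s = 1 / A²` -/
def JALL2 : Prop := ∀ (n : ℕ) (X : Dat n), X.Ok → ∃ C : ℝ, ∀ P : Pa, Cx X P C →
  ∃ M ≥ (1 : ℝ), ∃ θ ∈ Ioo (0 : ℝ) 1, ∃ K₀ > (0 : ℝ), ∀ ε > (0 : ℝ), ∃ A₀ ≥ (1 : ℝ), ∀ A ≥ A₀,
    ∃ (K : ℝ) (Φ : (E n → ℝ) → E n → ℝ), (∀ ψ, Ps X P A ψ → Jk X P M θ K₀ ε A K ψ (Φ ψ)) ∧
      ∀ e > (0 : ℝ), ∃ d > (0 : ℝ), ∀ ψ ψ', Ps X P A ψ → Ps X P A ψ' → (∀ x, |ψ x - ψ' x| ≤ d) →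
        ∀ x, |Φ ψ x - Φ ψ' x| ≤ e ∧ ‖D1 (Φ ψ) x - D1 (Φ ψ') x‖ ≤ e ∧
          ‖D2 (Φ ψ) x - D2 (Φ ψ') x‖ ≤ e

end Vale.Agent.P366Y.J
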