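import Vale.Agent.P366Y.J.Defs

/-!
# P366Y, block E: rows JC2 and JFAR
-/

open MeasureTheory Metric Filter Topology Set
open scoped ContDiff ENNReal
open Vale.Agent.P366.Stmt Vale.Agent.P366Z

noncomputable section

namespace Vale.Agent.P366Y.J

namespace C2R

variable {n : ℕ}

theorem hoL {V : Type} [NormedAddCommGroup V] {θ B : ℝ} {g : E n → V} (hθ : θ ∈ Ioo (0 : ℝ) 1)
    (hb : ∀ x, ‖g x‖ ≤ B) (hl : ∀ x y, ‖g x - g y‖ ≤ B * (‖x - y‖ + ‖x - y‖ ^ θ)) :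
    Ho θ (2 * B) g := by
  have B0 : 0 ≤ B := (norm_nonneg _).trans (hb 0)
  refine ⟨fun x => (hb x).trans (by linarith), fun x y => ?_⟩
  have r0 := norm_nonneg (x - y)
  rcases le_total ‖x - y‖ 1 with h | h
  · have e : ‖x - y‖ ≤ ‖x - y‖ ^ θ := Real.self_le_rpow_of_le_one r0 h hθ.2.le
    have := mul_le_mul_of_nonneg_left e B0
    have := hl x y
    linarith
  · have e : 1 ≤ ‖x - y‖ ^ θ := Real.one_le_rpow h hθ.1.le
    have := mul_le_mul_of_nonneg_left e B0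
    have := norm_sub_le (g x) (g y)
    have := hb x
    have := hb y
    linarith

theorem hoM {V : Type} [NormedAddCommGroup V] {θ A B : ℝ} {g : E n → V} (h : Ho θ A g)
    (e : A ≤ B) : Ho θ B g :=
  ⟨fun x => (h.1 x).trans e, fun x y => (h.2 x y).trans
    (mul_le_mul_of_nonneg_right e (Real.rpow_nonneg (norm_nonneg _) _))⟩

theorem elM {Λ Λ' : ℝ} {a : Mx n} (h : El Λ a) (h0 : 0 < Λ) (e : Λ ≤ Λ') : El Λ' a := by
  refine ⟨h.1, fun i j => (h.2.1 i j).trans e, fun ξ => (h.2.2 ξ).trans ?_⟩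
  have e0 : 0 ≤ e2 ξ := Finset.sum_nonneg fun i _ => sq_nonneg _
  exact mul_le_mul_of_nonneg_right e (nonneg_of_mul_nonneg_right (e0.trans (h.2.2 ξ)) h0)

theorem elN {Λ : ℝ} {a : Mx n} (h : El Λ a) (h0 : 0 < Λ) : ‖a‖ ≤ Λ :=
  (pi_norm_le_iff_of_nonneg h0.le).2 fun i => (pi_norm_le_iff_of_nonneg h0.le).2 fun j =>
    h.2.1 i j

theorem d1N {f : E n → ℝ} (hf : Smooth f) (x : E n) : ‖D1 f x‖ ≤ ‖fderiv ℝ f x‖ :=
  (pi_norm_le_iff_of_nonneg (norm_nonneg _)).2 fun i => abs_pd_le (hf.diff x) i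

theorem lipN {f : E n → ℝ} {M : ℝ} (hf : Smooth f) (h : ∀ x, ‖fderiv ℝ f x‖ ≤ M) (x y : E n) :
    |f x - f y| ≤ M * ‖x - y‖ :=
  Convex.norm_image_sub_le_of_norm_fderiv_le (s := univ) (fun z _ => hf.diff z) (fun z _ => h z)
    convex_univ (mem_univ y) (mem_univ x)

theorem hsN {f : E n → ℝ} {θ K A : ℝ} (h : Hs θ K A f) (hA : 0 ≤ A) (x y : E n) :
    ‖D1 f x - D1 f y‖ ≤ |K| * A ^ θ * ‖x - y‖ ^ θ := by
  refine (h x y).trans ?_
  rw [mul_assoc, ← Real.mul_rpow hA (norm_nonneg _)]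
  exact mul_le_mul_of_nonneg_right (le_abs_self K)
    (Real.rpow_nonneg (mul_nonneg hA (norm_nonneg _)) _)

end C2R

open C2R

/-- **row JC2** -/
theorem jc2_of (hC : COEF) (hU : USCH) : JC2 := by
  obtain ⟨C, hC⟩ := hC
  refine ⟨C, fun n X P s l M A θ K hx hθ hA => ?_⟩
  obtain ⟨Λ₀, -, h2⟩ := hC n X P hx
  obtain ⟨N, hN⟩ : ∃ N, N = |M| + 8 * P.F₀ := ⟨_, rfl⟩
  have F1 : 1 ≤ P.F₀ := hx.hP.pos.2.2.2.2.1
  have M0 := abs_nonneg M
  have M1 := le_abs_self M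
  obtain ⟨Λ, Λ0, h3⟩ := h2 s l N
  obtain ⟨T, hT⟩ : ∃ T, T = |K| * A ^ θ := ⟨_, rfl⟩
  have T0 : 0 ≤ T := hT ▸ mul_nonneg (abs_nonneg K) (Real.rpow_nonneg (by linarith) _)
  obtain ⟨Q, hQ⟩ : ∃ Q, Q = 1 + A + N + T := ⟨_, rfl⟩
  have Q1 : 1 ≤ Q := by linarith
  have ΛQ : Λ ≤ Λ * Q := le_mul_of_one_le_right Λ0.le Q1
  obtain ⟨C', C0, hU⟩ := hU n θ (2 * (Λ * Q)) hθ
  refine ⟨max (2 * Q) (C' * (N + 2 * (Λ * Q))), fun ψ f hψ hf hB hH hA₁ => ?_⟩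
  have f0 : ∀ x, |f x| ≤ N := fun x => by linarith [(hB x).1]
  have f1 : ∀ x, ‖D1 f x‖ ≤ N := fun x => by linarith [(hB x).2, d1N hf.sm x]
  have h4 := fun x y => h3 1 ⟨zero_le_one, le_rfl⟩ A A ψ ψ hψ hψ x y (f x) (f y) (D1 f x) (D1 f y)
    (f0 x) (f0 y) (f1 x) (f1 y)
  have l1 := lipN hψ.sm hψ.lip
  have l2 := lipN hf.sm fun x => (hB x).2
  have l3 : ∀ x y, ‖D1 f x - D1 f y‖ ≤ T * ‖x - y‖ ^ θ := hT ▸ hsN hH (by linarith)
  have l4 : ∀ x y, ‖x - y‖ + |ψ x - ψ y| + |f x - f y| + ‖D1 f x - D1 f y‖ ≤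
      Q * (‖x - y‖ + ‖x - y‖ ^ θ) := fun x y => by
    have r0 := norm_nonneg (x - y)
    have r1 := Real.rpow_nonneg r0 θ
    have a1 := l1 x y
    have a2 := l2 x y
    have a3 := l3 x y
    have a4 : (1 + A + M) * ‖x - y‖ ≤ Q * ‖x - y‖ := mul_le_mul_of_nonneg_right (by linarith) r0
    have a5 : T * ‖x - y‖ ^ θ ≤ Q * ‖x - y‖ ^ θ := mul_le_mul_of_nonneg_right (by linarith) r1
    linarith
  have ha : Ho θ (2 * (Λ * Q)) fun x => aJ X P ψ x (D1 f x) := by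
    refine hoL hθ (fun x => (elN (h4 x x).1 Λ0).trans ΛQ) fun x y => (h4 x y).2.2.1.trans ?_
    rw [mul_assoc]
    exact mul_le_mul_of_nonneg_left (by linarith [l4 x y, abs_nonneg (f x - f y)]) Λ0.le
  have hb : Ho θ (2 * (Λ * Q)) fun x => pr2 (aJ X P ψ x (D1 f x)) (D2 f x) := by
    simp only [hf.eqn]
    refine hoL hθ (fun x => (h4 x x).2.1.trans ΛQ) fun x y => (h4 x y).2.2.2.trans ?_
    rw [mul_assoc]
    exact mul_le_mul_of_nonneg_left (l4 x y) Λ0.le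
  obtain ⟨A₁, hA₁⟩ := hA₁
  have hD := hU (fun x => aJ X P ψ x (D1 f x)) f N (2 * (Λ * Q))
    (fun x => elM (h4 x x).1 Λ0 (by linarith)) ha hf.sm.two ⟨A₁, hA₁.2.2.2⟩ f1 hb
  refine ⟨hf.sm.two, hoM (hoL hθ (fun x => ?_) fun x y => ?_) (le_max_left _ _),
    hoM (hoL hθ (fun x => ?_) fun x y => ?_) (le_max_left _ _), hoM hD (le_max_right _ _)⟩
  · exact (f0 x).trans (by linarith)
  · rw [Real.norm_eq_abs]
    linarith [l4 x y, abs_nonneg (ψ x - ψ y), norm_nonneg (x - y), norm_nonneg (D1 f x - D1 f y)]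
  · exact (f1 x).trans (by linarith)
  · linarith [l4 x y, abs_nonneg (ψ x - ψ y), norm_nonneg (x - y), abs_nonneg (f x - f y)]

/-- **row JFAR** -/
theorem jfar : JFAR := by
  intro n θ K A ε hθ hε hA
  obtain ⟨T, hT⟩ : ∃ T, T = |K| * A ^ θ := ⟨_, rfl⟩
  have T0 : 0 ≤ T := hT ▸ mul_nonneg (abs_nonneg K) (Real.rpow_nonneg hA _)
  have c1 : Tendsto (fun r : ℝ => n * (T * r ^ θ)) (𝓝 0) (𝓝 (n * (T * (0 : ℝ) ^ θ))) :=
    ((Real.continuous_rpow_const hθ.le).tendsto 0).const_mul T |>.const_mul _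
  rw [Real.zero_rpow hθ.ne', mul_zero, mul_zero] at c1
  have c2 : ∀ᶠ r : ℝ in 𝓝[>] 0, n * (T * r ^ θ) < ε / 2 :=
    (c1.eventually (gt_mem_nhds (half_pos hε))).filter_mono nhdsWithin_le_nhds
  have c3 : ∀ᶠ r : ℝ in 𝓝[>] 0, r ∈ Ioo (0 : ℝ) 1 := Ioo_mem_nhdsGT one_pos
  obtain ⟨r, r1, r2⟩ := (c2.and c3).exists
  refine ⟨ε * r / 4, by have := r2.1; positivity, fun f x hf hH hs => ?_⟩
  refine ContinuousLinearMap.opNorm_le_of_unit_norm hε.le fun v hv => ?_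
  have hd : ∀ t : ℝ, HasDerivAt (fun t : ℝ => f (x + t • v)) (fderiv ℝ f (x + t • v) v) t :=
    fun t => by
      have e : HasDerivAt (fun t : ℝ => x + t • v) v t := by
        simpa using ((hasDerivAt_id t).smul_const v).const_add x
      exact (hf.diff _).hasFDerivAt.comp_hasDerivAt t e
  obtain ⟨c, hc, e⟩ := exists_hasDerivAt_eq_slope (fun t : ℝ => f (x + t • v))
    (fun t => fderiv ℝ f (x + t • v) v) r2.1
    (fun t _ => (hd t).continuousAt.continuousWithinAt) fun t _ => hd t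
  have nr : ∀ t : ℝ, 0 ≤ t → ‖x - (x + t • v)‖ = t := fun t ht => by
    rw [sub_add_cancel_left, norm_neg, norm_smul, hv, mul_one, Real.norm_of_nonneg ht]
  have b1 := hs (x + r • v) (by
    rw [mem_ball, dist_comm, dist_eq_norm, nr r r2.1.le]; exact r2.2)
  have b2 := hs (x + (0 : ℝ) • v) (by
    rw [mem_ball, dist_comm, dist_eq_norm, nr 0 le_rfl]; exact one_pos)
  have b3 : |fderiv ℝ f (x + c • v) v| ≤ ε / 2 := by
    rw [e, sub_zero, abs_div, abs_of_pos r2.1, div_le_iff₀ r2.1]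
    have := abs_sub (f (x + r • v)) (f (x + (0 : ℝ) • v))
    linarith
  have b4 : ‖D1 f x - D1 f (x + c • v)‖ ≤ T * r ^ θ := by
    have := hsN hH hA x (x + c • v)
    rw [nr c hc.1.le, ← hT] at this
    exact this.trans (mul_le_mul_of_nonneg_left (Real.rpow_le_rpow hc.1.le hc.2.le hθ.le) T0)
  have b5 : |fderiv ℝ f x v - fderiv ℝ f (x + c • v) v| ≤ n * (T * r ^ θ) := by
    rw [fderiv_eq_sum (hf.diff _), fderiv_eq_sum (hf.diff _), ← Finset.sum_sub_distrib]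
    refine (Finset.abs_sum_le_sum_abs _ _).trans ?_
    refine (Finset.sum_le_card_nsmul _ _ (T * r ^ θ) fun i _ => ?_).trans (by simp)
    have q1 : |pd i f x - pd i f (x + c • v)| ≤ T * r ^ θ :=
      (norm_le_pi_norm (D1 f x - D1 f (x + c • v)) i).trans b4
    have q2 : |v i| ≤ 1 := hv ▸ PiLp.norm_apply_le v i
    rw [← mul_sub, abs_mul]
    exact (mul_le_of_le_one_left (abs_nonneg _) q2).trans q1
  have := abs_sub_abs_le_abs_sub (fderiv ℝ f x v) (fderiv ℝ f (x + c • v) v)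
  rw [Real.norm_eq_abs]
  linarith

end Vale.Agent.P366Y.J
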