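import Vale.Agent.P366Y.J.Defs

/-!
# P366Y, block E: the coefficients of the equation of the gauge
-/

open MeasureTheory Metric Filter Topology Set
open scoped ContDiff ENNReal
open Vale.Agent.P366.Stmt Vale.Agent.P366Z

noncomputable section

namespace Vale.Agent.P366Y.J

namespace Coef

variable {n : ℕ}

/-- a function that is constant far away is Lipschitz on a product with a compact convex set -/
lemma lipS {V W : Type} [NormedAddCommGroup V] [NormedSpace ℝ V] [NormedAddCommGroup W]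
    [NormedSpace ℝ W] {F : E n × V → W} {S : Set V} (hS : IsCompact S) (hc : Convex ℝ S) {ρ : ℝ}
    {c : W} (hF : ∀ q : E n × V, q.2 ∈ S → ContDiffAt ℝ ∞ F q)
    (h0 : ∀ q : E n × V, ρ ≤ ‖q.1‖ → F q = c) : ∃ Λ ≥ (0 : ℝ), ∀ q : E n × V, q.2 ∈ S →
      ‖F q‖ ≤ Λ ∧ ∀ q' : E n × V, q'.2 ∈ S → ‖F q - F q'‖ ≤ Λ * ‖q - q'‖ := by
  have hK := (isCompact_closedBall (0 : E n) ρ).prod hS
  obtain ⟨A, hA⟩ := hK.exists_bound_of_continuousOn (f := F)
    fun q hq => (hF q hq.2).continuousAt.continuousWithinAt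
  obtain ⟨B, hB⟩ := hK.exists_bound_of_continuousOn (f := fderiv ℝ F)
    fun q hq => ((hF q hq.2).fderiv_right (m := 0) (by norm_num)).continuousAt.continuousWithinAt
  refine ⟨|A| + |B| + ‖c‖, by positivity, fun q hq => ⟨?_, fun q' hq' => ?_⟩⟩
  · rcases le_total ρ ‖q.1‖ with h | h
    · rw [h0 q h]
      exact le_add_of_nonneg_left (by positivity)
    · linarith [hA q ⟨mem_closedBall_zero_iff.2 h, hq⟩, le_abs_self A, abs_nonneg B, norm_nonneg c]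
  · refine Convex.norm_image_sub_le_of_norm_fderiv_le (𝕜 := ℝ) (s := univ ×ˢ S)
      (fun r hr => (hF r hr.2).differentiableAt (by simp)) (fun r hr => ?_) (convex_univ.prod hc)
      ⟨mem_univ _, hq'⟩ ⟨mem_univ _, hq⟩
    rcases le_or_gt ‖r.1‖ ρ with h | h
    · linarith [hB r ⟨mem_closedBall_zero_iff.2 h, hr.2⟩, le_abs_self B, abs_nonneg A, norm_nonneg c]
    · have e : F =ᶠ[𝓝 r] fun _ => c := by
        filter_upwards [(isOpen_lt continuous_const continuous_fst.norm).mem_nhds h] with y hy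
        exact h0 y (le_of_lt hy)
      rw [e.fderiv_eq, fderiv_fun_const, Pi.zero_apply, norm_zero]
      positivity

lemma entry {a : Mx n} {Λ : ℝ} (h : Psd a)
    (hΛ : ∀ ξ : Vc n, ∑ i, ∑ j, a i j * ξ i * ξ j ≤ Λ * ∑ i, ξ i ^ 2) (i j : Fin n) :
    |a i j| ≤ Λ := by
  have e : ∀ i j, ∑ k, ∑ l, a k l * (Pi.single i 1 : Vc n) k * (Pi.single j 1 : Vc n) l = a i j :=
    fun i j => by simp [Pi.single_apply]
  have d : ∀ i, 0 ≤ a i i ∧ a i i ≤ Λ := fun i => by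
    have h1 := h.2 (Pi.single i 1)
    have h2 := hΛ (Pi.single i 1)
    rw [e] at h1 h2
    exact ⟨h1, by simpa [Pi.single_apply] using h2⟩
  have h3 := quad_cs h.1 h.2 (Pi.single i 1) (Pi.single j 1)
  rw [e, e, e] at h3
  have h4 := (d i).1.trans (d i).2
  refine abs_le.2 (abs_le_of_sq_le_sq' (h3.trans ?_) h4)
  rw [pow_two]
  exact mul_le_mul (d i).2 (d j).2 (d j).1 h4

section smooth

variable {Q : Type} [NormedAddCommGroup Q] [NormedSpace ℝ Q] {xx : Q → E n} {yy zz : Q → ℝ}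
  {pp : Q → Vc n} {g : Field n} {X : Dat n} {P : Pa} {C : ℝ} {q : Q}

lemma c_sq (hg : Met g) (hx : ContDiff ℝ ∞ xx) (hp : ContDiff ℝ ∞ pp) :
    ContDiff ℝ ∞ fun q => sq g (xx q) (pp q) :=
  ContDiff.sum fun i _ => ContDiff.sum fun j _ =>
    ((ContDiff.comp (hg.sm_up i j) hx).mul (contDiff_pi.1 hp i)).mul (contDiff_pi.1 hp j)

lemma c_rs (hg : Met g) (hx : ContDiff ℝ ∞ xx) (hp : ContDiff ℝ ∞ pp) (i : Fin n) :
    ContDiff ℝ ∞ fun q => rs g (xx q) (pp q) i :=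
  ContDiff.sum fun j _ => (ContDiff.comp (hg.sm_up i j) hx).mul (contDiff_pi.1 hp j)

lemma c_rc (hx : ContDiff ℝ ∞ xx) (r : ℝ) : ContDiff ℝ ∞ fun q => rc r (xx q) :=
  ContDiff.comp (g := rc r) (sm_rc r) hx

lemma c_two {u v : Q → ℝ} {G : ℝ → ℝ → ℝ} (hu : ContDiff ℝ ∞ u) (hv : ContDiff ℝ ∞ v)
    (hG : ContDiffAt ℝ ∞ (fun q : ℝ × ℝ => G q.1 q.2) (u q, v q)) :
    ContDiffAt ℝ ∞ (fun q => G (u q) (v q)) q :=
  ContDiffAt.comp (f := fun q => (u q, v q)) q hG (hu.prodMk hv).contDiffAt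

lemma c_ag (hX : X.Ok) (hx : ContDiff ℝ ∞ xx) (hy : ContDiff ℝ ∞ yy) (hp : ContDiff ℝ ∞ pp)
    (hG : Ga P C (yy q) (sq X.g (xx q) (pp q))) (i j : Fin n) :
    ContDiffAt ℝ ∞ (fun q => ag X P (fun _ => yy q) (xx q) (pp q) i j) q :=
  (ContDiff.comp ((mg hX).sm_up i j) hx).contDiffAt.sub
    ((((c_rc hx _).contDiffAt.mul (c_two hy (c_sq (mg hX) hx hp) hG.sGs)).mul
      (c_rs (mg hX) hx hp i).contDiffAt).mul (c_rs (mg hX) hx hp j).contDiffAt)

lemma c_U (hX : X.Ok) (hx : ContDiff ℝ ∞ xx) : ContDiff ℝ ∞ fun q => X.U (xx q) ^ (2 * bb n) :=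
  ContDiff.comp (hX.smU.rpow (U0 hX) _) hx

lemma c_aJ (hX : X.Ok) (hx : ContDiff ℝ ∞ xx) (hy : ContDiff ℝ ∞ yy) (hp : ContDiff ℝ ∞ pp)
    (hG : Ga P C (yy q) (sq X.g (xx q) (pp q))) :
    ContDiffAt ℝ ∞ (fun q => aJ X P (fun _ => yy q) (xx q) (pp q)) q :=
  contDiffAt_pi.2 fun i => contDiffAt_pi.2 fun j =>
    (c_U hX hx).contDiffAt.mul (c_ag hX hx hy hp hG i j)

lemma c_cap (hX : X.Ok) (hP : P.Ok) (hx : ContDiff ℝ ∞ xx) (hz : ContDiff ℝ ∞ zz) (s : ℝ) :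
    ContDiff ℝ ∞ fun q => cap X P s (xx q) (zz q) :=
  (hP.smT.comp hz).add ((((c_rc hx _).mul (ContDiff.comp hX.smp hx)).add
    ((contDiff_const.sub (c_rc hx _)).mul contDiff_const)).mul
    (Real.contDiff_arctan.comp (hz.div_const s)))

lemma c_bJ (hX : X.Ok) (hP : P.Ok) (hx : ContDiff ℝ ∞ xx) (hy : ContDiff ℝ ∞ yy)
    (hz : ContDiff ℝ ∞ zz) (hp : ContDiff ℝ ∞ pp) (hG : Ga P C (yy q) (sq X.g (xx q) (pp q)))
    (s l σ : ℝ) :
    ContDiffAt ℝ ∞ (fun q => bJ X P s l σ (fun _ => yy q) (xx q) (zz q) (pp q)) q := by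
  have h1 : ContDiff ℝ ∞ fun q => σ * rc (X.R + 7) (xx q) :=
    contDiff_const.mul (c_rc hx _)
  have h2 : ContDiffAt ℝ ∞ (fun q => pr2 (ag X P (fun _ => yy q) (xx q) (pp q)) (X.K (xx q))) q :=
    ContDiffAt.sum fun i _ => ContDiffAt.sum fun j _ =>
      (c_ag hX hx hy hp hG i j).mul (ContDiff.comp (hX.smK i j) hx).contDiffAt
  have h3 : ContDiffAt ℝ ∞ (fun q => pr2 (ag X P (fun _ => yy q) (xx q) (pp q))
      fun i j => ∑ k, chr X.g k i j (xx q) * pp q k) q :=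
    ContDiffAt.sum fun i _ => ContDiffAt.sum fun j _ => (c_ag hX hx hy hp hG i j).mul
      (ContDiff.sum fun k _ => (ContDiff.comp ((mg hX).sm_chr k i j) hx).mul
        (contDiff_pi.1 hp k)).contDiffAt
  exact ((h1.mul (c_U hX hx)).contDiffAt.mul
    (((c_two hy (c_sq (mg hX) hx hp) hG.som).mul
      (h2.add (c_cap hX hP hx hz s).contDiffAt)).add h3)).add
    (((contDiff_const.sub h1).mul contDiff_const).mul hz).contDiffAt

end smooth

variable {X : Dat n} {P : Pa} {C : ℝ}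

lemma sq_cf (hX : X.Ok) (x : E n) (ξ : Vc n) :
    sq X.g x ξ = X.U x ^ (-(2 * bb n)) * sq X.g₀ x ξ := by
  simp only [sq, Dat.g, hX.met.up_cf (U0 hX x), Finset.mul_sum, mul_assoc]

lemma U_mul (hX : X.Ok) (x : E n) : X.U x ^ (2 * bb n) * X.U x ^ (-(2 * bb n)) = 1 := by
  rw [← Real.rpow_add (U0 hX x), add_neg_cancel, Real.rpow_zero]

lemma far_a (hX : X.Ok) (ψ : E n → ℝ) {x : E n} (p : Vc n) (hx : X.ρ ≤ ‖x‖) :
    aJ X P ψ x p = eu n x := by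
  funext i j
  have h1 : rc (X.R + 7) x = 0 := rc_zero (by linarith [hX.R1]) (by linarith [hX.Rρ])
  simp only [aJ, ag, h1, zero_mul, sub_zero, Dat.g, hX.met.up_cf (U0 hX x)]
  rw [← mul_assoc, U_mul hX, one_mul, up_of_eq (hX.flat x hx), up_eu]
  rfl

lemma bJ_eq (s l σ : ℝ) (ψ : E n → ℝ) (x : E n) (z : ℝ) (p : Vc n) :
    bJ X P s l σ ψ x z p = σ * (bJ X P s l 1 (fun _ => ψ x) x z p - l * z) + l * z := by
  have : ag X P (fun _ => ψ x) x p = ag X P ψ x p := rfl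
  simp only [bJ, this]
  ring

lemma form (hA : ALG) (hX : X.Ok) (hP : P.Ok) {ψ : E n → ℝ} {x : E n} {p : Vc n}
    (hG : Ga P C (ψ x) (sq X.g x p)) : Psd (aJ X P ψ x p) ∧ ∀ ξ : Vc n,
      sq X.g₀ x ξ ≤ (1 + 4 * P.L * sq X.g x p) * ∑ i, ∑ j, aJ X P ψ x p i j * ξ i * ξ j ∧
      ∑ i, ∑ j, aJ X P ψ x p i j * ξ i * ξ j ≤ sq X.g₀ x ξ := by
  have t0 : 0 ≤ sq X.g x p := (mg hX).up_nonneg x p
  have L0 : 0 ≤ P.L := zero_le_one.trans hP.pos.2.1
  have d0 : 0 < 1 + 4 * P.L * sq X.g x p := by positivity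
  have h1 := hG.io1
  have h2 : rc (X.R + 7) x * P.Gs (ψ x) (sq X.g x p) * sq X.g x p ≤
      sq X.g x p * P.Gs (ψ x) (sq X.g x p) := by
    rw [mul_assoc, mul_comm (sq X.g x p)]
    exact mul_le_of_le_one_left (mul_nonneg hG.Gs0 t0) (rc_mem _ x).2
  unfold io at h1
  have h3 := one_div_pos.2 d0
  obtain ⟨-, a1, a2, -⟩ := hA n X.g x (rc (X.R + 7) x * P.Gs (ψ x) (sq X.g x p)) p (mg hX)
    (mul_nonneg (rc_mem _ x).1 hG.Gs0) (by linarith)
  rw [← ag_eq] at a1 a2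
  have u0 := Real.rpow_pos_of_pos (U0 hX x) (2 * bb n)
  have e : ∀ ξ : Vc n, ∑ i, ∑ j, aJ X P ψ x p i j * ξ i * ξ j =
      X.U x ^ (2 * bb n) * ∑ i, ∑ j, ag X P ψ x p i j * ξ i * ξ j := fun ξ => by
    simp only [aJ, Finset.mul_sum, mul_assoc]
  have e' : ∀ ξ : Vc n, sq X.g₀ x ξ = X.U x ^ (2 * bb n) * sq X.g x ξ := fun ξ => by
    rw [sq_cf hX, ← mul_assoc, U_mul hX, one_mul]
  refine ⟨⟨fun i j => by simp only [aJ, a1.1 i j], fun ξ => ?_⟩, fun ξ => ⟨?_, ?_⟩⟩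
  · rw [e]
    exact mul_nonneg u0.le (a1.2 ξ)
  · rw [e, e', mul_left_comm]
    refine mul_le_mul_of_nonneg_left ?_ u0.le
    rw [← div_le_iff₀' d0, div_eq_mul_one_div, mul_comm]
    exact (mul_le_mul_of_nonneg_right (by linarith) ((mg hX).up_nonneg x ξ)).trans (a2 ξ).1
  · rw [e, e']
    exact mul_le_mul_of_nonneg_left (a2 ξ).2 u0.le

end Coef

open Coef in
/-- **COEF** -/
theorem coef_of (hGA : GA) (hA : ALG) : COEF := by
  obtain ⟨C, -, hG⟩ := hGA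
  refine ⟨C, fun n X P hC => ?_⟩
  have hX := hC.hX
  have hP := hC.hP
  have ga : ∀ y ∈ Icc P.φ₀ 2, ∀ (x : E n) (p : Vc n), Ga P C y (sq X.g x p) := fun y hy x p =>
    hG P hP hC.big y hy _ ((mg hX).up_nonneg x p)
  obtain ⟨Λ₀, hΛ⟩ := hX.met.ell hX.flat
  have Λ0 : 0 ≤ Λ₀ := zero_le_one.trans hΛ.one
  have L0 : 0 ≤ P.L := zero_le_one.trans hP.pos.2.1
  have ent : ∀ (A : ℝ) (ψ : E n → ℝ), Ps X P A ψ → ∀ x p i j, |aJ X P ψ x p i j| ≤ Λ₀ :=
    fun A ψ h x p =>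
      have f := form hA hX hP (ga _ (h.bd x) x p)
      entry f.1 fun ξ => (f.2 ξ).2.trans (hΛ.up_hi x ξ)
  refine ⟨Λ₀, fun A ψ h => ⟨ent A ψ h, fun x p hx => far_a hX ψ p hx,
    contDiff_iff_contDiffAt.2 fun q => ?_, fun s l σ => contDiff_iff_contDiffAt.2 fun q => ?_⟩,
    fun s l M => ?_⟩
  · exact c_aJ (yy := fun q : E n × Vc n => ψ q.1) hX contDiff_fst
      (ContDiff.comp h.sm contDiff_fst) contDiff_snd (ga _ (h.bd _) _ _)
  · exact c_bJ (yy := fun q : E n × ℝ × Vc n => ψ q.1) hX hP contDiff_fst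
      (ContDiff.comp h.sm contDiff_fst) contDiff_snd.fst contDiff_snd.snd (ga _ (h.bd _) _ _) s l σ
  obtain ⟨Λa, Λa0, ha⟩ := lipS
    (F := fun q : E n × ℝ × Vc n => aJ X P (fun _ => q.2.1) q.1 q.2.2)
    (isCompact_Icc.prod (isCompact_closedBall (0 : Vc n) M))
    ((convex_Icc P.φ₀ 2).prod (convex_closedBall _ _)) (ρ := X.ρ) (c := eu n 0)
    (fun q hq => c_aJ hX contDiff_fst contDiff_snd.fst contDiff_snd.snd (ga _ hq.1 _ _))
    fun q hq => far_a hX _ _ hq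
  obtain ⟨Λb, Λb0, hb⟩ := lipS
    (F := fun q : E n × ℝ × ℝ × Vc n =>
      bJ X P s l 1 (fun _ => q.2.1) q.1 q.2.2.1 q.2.2.2 - l * q.2.2.1)
    (isCompact_Icc.prod ((isCompact_closedBall (0 : ℝ) M).prod (isCompact_closedBall (0 : Vc n) M)))
    ((convex_Icc P.φ₀ 2).prod ((convex_closedBall _ _).prod (convex_closedBall _ _)))
    (ρ := X.ρ) (c := 0)
    (fun q hq => (c_bJ hX hP contDiff_fst contDiff_snd.fst contDiff_snd.snd.fst
      contDiff_snd.snd.snd (ga _ hq.1 _ _) s l 1).sub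
      (contDiff_const.mul contDiff_snd.snd.fst).contDiffAt)
    fun q hq => by
      have h1 : rc (X.R + 7) q.1 = 0 := rc_zero (by linarith [hX.R1]) (by linarith [hX.Rρ])
      simp only [bJ, h1]
      ring
  obtain ⟨T, hT⟩ : ∃ T, T = (3 / 4 : ℝ) ^ (-(2 * bb n)) * (Λ₀ * (n * M ^ 2)) := ⟨_, rfl⟩
  have T0 : 0 ≤ T := by rw [hT]; positivity
  have k1 : 0 ≤ Λ₀ * (1 + 4 * P.L * T) := by positivity
  have k2 : 0 ≤ |l| * |M| := by positivity
  have k3 := abs_nonneg l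
  refine ⟨Λ₀ + Λ₀ * (1 + 4 * P.L * T) + Λa + Λb + |l| + |l| * |M| + 1, by positivity,
    fun σ hσ A A' ψ ψ' h h' x x' z z' p p' hz hz' hp hp' => ⟨?_, ?_, ?_, ?_⟩⟩
  · have f := form hA hX hP (ga _ (h.bd x) x p)
    refine ⟨f.1.1, fun i j => (ent A ψ h x p i j).trans (by linarith), fun ξ => ?_⟩
    have b0 : 0 ≤ bb n := by
      have : (3 : ℝ) ≤ n := by exact_mod_cast hX.dim
      exact div_nonneg zero_le_two (by linarith)
    have t1 : ∑ i, p i ^ 2 ≤ n * M ^ 2 := by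
      refine (Finset.sum_le_sum (g := fun _ => M ^ 2) fun i _ => ?_).trans_eq (by simp)
      exact sq_le_sq' (abs_le.1 ((norm_le_pi_norm p i).trans hp)).1
        (abs_le.1 ((norm_le_pi_norm p i).trans hp)).2
    have t2 : sq X.g x p ≤ T := by
      rw [sq_cf hX, hT]
      exact mul_le_mul (Real.rpow_le_rpow_of_nonpos (by norm_num) (hX.Ub x).1 (by linarith))
        ((hΛ.up_hi x p).trans (mul_le_mul_of_nonneg_left t1 Λ0)) (hX.met.up_nonneg x p)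
        (by positivity)
    have t3 := mul_le_mul_of_nonneg_right (show 1 + 4 * P.L * sq X.g x p ≤ 1 + 4 * P.L * T by
      gcongr) (f.1.2 ξ)
    refine (hΛ.up_lo x ξ).trans ((mul_le_mul_of_nonneg_left ((f.2 ξ).1.trans t3) Λ0).trans ?_)
    rw [← mul_assoc]
    exact mul_le_mul_of_nonneg_right (by linarith) (f.1.2 ξ)
  · have h1 : |bJ X P s l 1 (fun _ => ψ x) x z p - l * z| ≤ Λb :=
      (hb (x, ψ x, z, p) ⟨h.bd x, mem_closedBall_zero_iff.2 hz, mem_closedBall_zero_iff.2 hp⟩).1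
    rw [bJ_eq]
    refine (abs_add_le _ _).trans ?_
    rw [abs_mul, abs_mul, abs_of_nonneg hσ.1]
    have h2 := mul_le_mul hσ.2 h1 (abs_nonneg _) zero_le_one
    have h3 := mul_le_mul_of_nonneg_left (hz.trans (le_abs_self M)) k3
    linarith
  · refine ((ha (x, ψ x, p) ⟨h.bd x, mem_closedBall_zero_iff.2 hp⟩).2 (x', ψ' x', p')
      ⟨h'.bd x', mem_closedBall_zero_iff.2 hp'⟩).trans (mul_le_mul (by linarith) ?_ (norm_nonneg _)
        (by positivity))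
    have := norm_nonneg (x - x')
    have := abs_nonneg (ψ x - ψ' x')
    have := norm_nonneg (p - p')
    exact max_le (show ‖x - x'‖ ≤ _ by linarith) (max_le (show |ψ x - ψ' x'| ≤ _ by linarith)
      (show ‖p - p'‖ ≤ _ by linarith))
  · have h1 := (hb (x, ψ x, z, p)
      ⟨h.bd x, mem_closedBall_zero_iff.2 hz, mem_closedBall_zero_iff.2 hp⟩).2 (x', ψ' x', z', p')
      ⟨h'.bd x', mem_closedBall_zero_iff.2 hz', mem_closedBall_zero_iff.2 hp'⟩
    have n1 := norm_nonneg (x - x')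
    have n2 := abs_nonneg (ψ x - ψ' x')
    have n3 := abs_nonneg (z - z')
    have n4 := norm_nonneg (p - p')
    have h2 : ‖((x, ψ x, z, p) : E n × ℝ × ℝ × Vc n) - (x', ψ' x', z', p')‖ ≤
        ‖x - x'‖ + |ψ x - ψ' x'| + |z - z'| + ‖p - p'‖ :=
      max_le (show ‖x - x'‖ ≤ _ by linarith) (max_le (show |ψ x - ψ' x'| ≤ _ by linarith)
        (max_le (show |z - z'| ≤ _ by linarith) (show ‖p - p'‖ ≤ _ by linarith)))
    have h3 : |bJ X P s l 1 (fun _ => ψ x) x z p - l * z -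
        (bJ X P s l 1 (fun _ => ψ' x') x' z' p' - l * z')| ≤ _ :=
      h1.trans (mul_le_mul_of_nonneg_left h2 Λb0)
    rw [bJ_eq s l σ ψ, bJ_eq s l σ ψ', add_sub_add_comm, ← mul_sub σ, ← mul_sub l]
    refine (abs_add_le _ _).trans ?_
    rw [abs_mul, abs_mul, abs_of_nonneg hσ.1]
    have h4 := mul_le_mul hσ.2 h3 (abs_nonneg _) zero_le_one
    have h5 := mul_le_mul_of_nonneg_left
      (show |z - z'| ≤ ‖x - x'‖ + |ψ x - ψ' x'| + |z - z'| + ‖p - p'‖ by linarith) k3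
    refine le_trans (add_le_add h4 h5) ?_
    rw [one_mul, ← add_mul]
    exact mul_le_mul_of_nonneg_right (by linarith) (by positivity)

end Vale.Agent.P366Y.J
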