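import Vale.Agent.P366Y.J.Defs2

/-!
# P366Y, block E: the right hand side, uniformly in `s`
-/

open Set
open Vale.Agent.P366.Stmt Vale.Agent.P366Z

noncomputable section

namespace Vale.Agent.P366Y.J

variable {n : ℕ}

namespace Cf2H

open Real

theorem split (X : Dat n) (P : Pa) (s l σ : ℝ) (ψ : E n → ℝ) (x : E n) (z : ℝ) (p : Vc n) :
    bJ X P s l σ ψ x z p = bJ X P 0 l σ ψ x z p +
      (bJ X P 1 l σ ψ x 1 p - bJ X P 0 l σ ψ x 1 p) * (arctan (z / s) / arctan 1) := by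
  have : arctan 1 ≠ 0 := by rw [arctan_one]; positivity
  simp only [bJ, cap, div_zero, arctan_zero, div_one]
  field_simp
  ring

theorem at_bd (t : ℝ) : |arctan t / arctan 1| ≤ 2 := by
  rw [arctan_one, abs_div, abs_of_pos (by positivity : 0 < π / 4), div_le_iff₀ (by positivity),
    abs_le]
  constructor <;> linarith [arctan_lt_pi_div_two t, neg_pi_div_two_lt_arctan t]

theorem at_lip (t t' : ℝ) : |arctan t / arctan 1 - arctan t' / arctan 1| ≤ 2 * |t - t'| := by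
  have h : ‖arctan t - arctan t'‖ ≤ 1 * ‖t - t'‖ :=
    convex_univ.norm_image_sub_le_of_norm_hasDerivWithin_le (f' := fun x => 1 / (1 + x ^ 2))
      (fun x _ => (hasDerivAt_arctan x).hasDerivWithinAt) (fun x _ => by
        rw [Real.norm_eq_abs, abs_of_pos (by positivity)]
        exact (div_le_one (by positivity)).2 (le_add_of_nonneg_right (sq_nonneg x)))
      (mem_univ t') (mem_univ t)
  rw [← sub_div, arctan_one, abs_div, abs_of_pos (by positivity : 0 < π / 4),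
    div_le_iff₀ (by positivity)]
  rw [Real.norm_eq_abs, Real.norm_eq_abs] at h
  nlinarith [two_le_pi, abs_nonneg (t - t')]

end Cf2H

open Cf2H in
theorem coef2_of (h : COEF) : COEF2 := by
  obtain ⟨C, h⟩ := h
  refine ⟨C, fun n X P hc l M => ?_⟩
  obtain ⟨Λ₀, -, a⟩ := h n X P hc
  obtain ⟨Λ₁, Λ1, a0⟩ := a 0 l (max M 1)
  obtain ⟨Λ₂, Λ2, a1⟩ := a 1 l (max M 1)
  refine ⟨5 * (Λ₁ + Λ₂), by positivity,
    fun s σ hσ A A' ψ ψ' hψ hψ' x x' z z' p p' hz hz' hp hp' => ?_⟩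
  have m := le_max_left M 1
  have o : |(1 : ℝ)| ≤ max M 1 := abs_one.le.trans (le_max_right _ _)
  obtain ⟨-, b1, -, b2⟩ := a0 σ hσ A A' ψ ψ' hψ hψ' x x' z z' p p' (hz.trans m) (hz'.trans m)
    (hp.trans m) (hp'.trans m)
  obtain ⟨-, c1, -, c2⟩ := a0 σ hσ A A' ψ ψ' hψ hψ' x x' 1 1 p p' o o (hp.trans m) (hp'.trans m)
  obtain ⟨-, d1, -, d2⟩ := a1 σ hσ A A' ψ ψ' hψ hψ' x x' 1 1 p p' o o (hp.trans m) (hp'.trans m)
  rw [split X P s l σ ψ x, split X P s l σ ψ' x']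
  have e1 := at_bd (z / s)
  have e2 := at_bd (z' / s)
  have e3 := at_lip (z / s) (z' / s)
  rw [← sub_div z, abs_div, div_eq_mul_one_div |z - z'|] at e3
  rw [sub_self (1 : ℝ), abs_zero, add_zero] at c2 d2
  generalize Real.arctan (z / s) / Real.arctan 1 = t at *
  generalize Real.arctan (z' / s) / Real.arctan 1 = t' at *
  generalize bJ X P 0 l σ ψ x z p = u at *
  generalize bJ X P 0 l σ ψ' x' z' p' = u' at *
  generalize bJ X P 0 l σ ψ x 1 p = v at *
  generalize bJ X P 0 l σ ψ' x' 1 p' = v' at *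
  generalize bJ X P 1 l σ ψ x 1 p = w at *
  generalize bJ X P 1 l σ ψ' x' 1 p' = w' at *
  have f1 : |w - v| ≤ Λ₁ + Λ₂ := (abs_sub _ _).trans (by linarith)
  have f2 : |(w - v) * t| ≤ (Λ₁ + Λ₂) * 2 := by
    rw [abs_mul]; exact mul_le_mul f1 e1 (abs_nonneg _) (by positivity)
  refine ⟨(abs_add_le _ _).trans (by linarith), ?_⟩
  have f3 : |(w - v) * (t - t')| ≤ (Λ₁ + Λ₂) * (2 * (|z - z'| * (1 / |s|))) := by
    rw [abs_mul]; exact mul_le_mul f1 e3 (abs_nonneg _) (by positivity)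
  have g0 := norm_nonneg (x - x')
  have g1 := abs_nonneg (ψ x - ψ' x')
  have g2 := norm_nonneg (p - p')
  have g3 := abs_nonneg (z - z')
  have g4 : 0 ≤ |z - z'| * (1 / |s|) := by positivity
  have f4 : |(w - w' - (v - v')) * t'| ≤
      (Λ₁ + Λ₂) * (‖x - x'‖ + |ψ x - ψ' x'| + ‖p - p'‖) * 2 := by
    rw [abs_mul]
    exact mul_le_mul ((abs_sub _ _).trans (by linarith)) e2 (abs_nonneg _) (by positivity)
  have f5 : u + (w - v) * t - (u' + (w' - v') * t') =
      (u - u') + (w - v) * (t - t') + (w - w' - (v - v')) * t' := by ring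
  rw [f5]
  refine (abs_add_three _ _ _).trans ?_
  nlinarith [mul_nonneg Λ1.le g0, mul_nonneg Λ1.le g1, mul_nonneg Λ1.le g2, mul_nonneg Λ1.le g3,
    mul_nonneg Λ1.le g4, mul_nonneg Λ2.le g0, mul_nonneg Λ2.le g1, mul_nonneg Λ2.le g2,
    mul_nonneg Λ2.le g3, mul_nonneg Λ2.le g4]

end Vale.Agent.P366Y.J
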