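import Vale.Agent.P366Y.J.Defs
import Vale.Agent.P366Y.T.QeB

/-!
# P366Y, block E: continuous dependence on the warping function (row JCT)
-/

open Filter Topology Set
open Vale.Agent.P366.Stmt Vale.Agent.P366Z

noncomputable section

namespace Vale.Agent.P366Y.J

namespace CtH

variable {n : ℕ} {X : Dat n} {P : Pa} {s l : ℝ} {ψ : E n → ℝ}

/-- the constant of monotonicity -/
def c0 (n : ℕ) (P : Pa) (l : ℝ) : ℝ := min ((3 / 4) ^ (2 * bb n) * (1 / 2 * P.τ)) l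

theorem c0_pos (hP : P.Ok) (hl : 0 < l) : 0 < c0 n P l :=
  lt_min (mul_pos (Real.rpow_pos_of_pos (by norm_num) _) (mul_pos one_half_pos hP.pos.2.2.1)) hl

/-- the right hand side is strictly increasing -/
theorem mono (hX : X.Ok) (hP : P.Ok) (hs : 0 < s) {x : E n} {p : Vc n}
    (ho : 1 / 2 ≤ P.om (ψ x) (sq X.g x p)) {z z' : ℝ} (h : z' ≤ z) :
    c0 n P l * (z - z') ≤ bJ X P s l 1 ψ x z p - bJ X P s l 1 ψ x z' p := by
  have τ0 := hP.pos.2.2.1
  have d0 := sub_nonneg.2 h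
  have h1 : P.τ * (z - z') ≤ cap X P s x z - cap X P s x z' := by
    have k1 := mul_sub_le_image_sub_of_le_deriv (hP.smT.differentiable (by simp)) hP.Td h
    have k2 := mul_le_mul_of_nonneg_left
      (Real.arctan_strictMono.monotone (div_le_div_of_nonneg_right h hs.le))
      (add_nonneg (mul_nonneg (rc_mem (X.R + 3) x).1 (hX.pb x).1)
        (mul_nonneg (sub_nonneg.2 (rc_mem (X.R + 3) x).2) hP.pos.2.2.2.2.2.2.1.le))
    unfold cap
    linarith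
  have h2 : (3 / 4 : ℝ) ^ (2 * bb n) ≤ X.U x ^ (2 * bb n) :=
    Real.rpow_le_rpow (by norm_num) (hX.Ub x).1 (mul_pos two_pos (bb_pos hX.dim)).le
  have h3 := mul_le_mul h2 (mul_le_mul ho h1 (by positivity) (by linarith)) (by positivity)
    (Real.rpow_pos_of_pos (U0 hX x) _).le
  have h4 := mul_le_mul_of_nonneg_right (min_le_left _ l : c0 n P l ≤ _) d0
  have h5 := mul_le_mul_of_nonneg_right (min_le_right _ l : c0 n P l ≤ _) d0
  have h6 := mul_le_mul_of_nonneg_left (h4.trans (le_of_eq_of_le (by ring) h3))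
    (rc_mem (X.R + 7) x).1
  have h7 := mul_le_mul_of_nonneg_left h5 (sub_nonneg.2 (rc_mem (X.R + 7) x).2)
  unfold bJ c0
  linarith

theorem ev {g : ℝ → ℝ} {e : ℝ} (hg : ContinuousAt g 0) (h0 : g 0 = 0) (he : 0 < e) :
    ∀ᶠ t in 𝓝[>] 0, g t ≤ e :=
  ((hg.eventually (gt_mem_nhds (h0.trans_lt he))).mono fun _ => le_of_lt).filter_mono nhdsWithin_le_nhds

end CtH

open CtH in
/-- **row JCT** -/
theorem jct_of (hG : GA) (hC : COEF) (hT : TOUCH) (hI : INTP) : JCT := by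
  obtain ⟨C₁, -, hG⟩ := hG
  obtain ⟨C₂, hC⟩ := hC
  refine ⟨max C₁ C₂, fun n X P s l θ K hx hs hl hθ e he => ?_⟩
  obtain ⟨Λ₀, -, hC⟩ := hC n X P (hx.mono (le_max_right _ _))
  obtain ⟨Λ, Λ0, hC⟩ := hC s l K
  replace hG := hG P hx.hP (hx.mono (le_max_left _ _)).big
  have c1 := c0_pos (n := n) hx.hP hl
  obtain ⟨c, hc⟩ : ∃ c, c = (1 + n * (n * K)) * Λ / c0 n P l := ⟨_, rfl⟩
  have one : ∀ (d A A' : ℝ) (ψ ψ' f f' : E n → ℝ), Ps X P A ψ → Ps X P A' ψ' → Jf X P s l 1 ψ f →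
      Jf X P s l 1 ψ' f' → C2H θ K f → C2H θ K f' → (∀ x, |ψ x - ψ' x| ≤ d) →
      ∀ x, f x - f' x ≤ c * d := by
    intro d A A' ψ ψ' f f' p1 p2 j1 j2 k1 k2 hd x₀
    have K0 : 0 ≤ K := (norm_nonneg _).trans (k1.2.1.1 0)
    have d0 : 0 ≤ d := (abs_nonneg _).trans (hd 0)
    refine le_of_not_gt fun hx₀ => ?_
    have m0 : 0 < f x₀ - f' x₀ := lt_of_le_of_lt (by rw [hc]; positivity) hx₀
    obtain ⟨x, hm⟩ := Continuous.exists_forall_ge' (f := fun y => f y - f' y)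
      (j1.sm.cont.sub j2.sm.cont) x₀
      (((j1.lim.sub j2.lim).eventually (gt_mem_nhds (by rwa [sub_zero]))).mono fun _ => le_of_lt)
    obtain ⟨el, -, a1, a2⟩ := hC 1 ⟨zero_le_one, le_rfl⟩ A A' ψ ψ' p1 p2 x x (f' x) (f' x)
      (D1 f x) (D1 f x) (k2.2.1.1 x) (k2.2.1.1 x) (k1.2.2.1.1 x) (k1.2.2.1.1 x)
    simp only [sub_self, norm_zero, abs_zero, zero_add, add_zero] at a1 a2
    obtain ⟨t1, t2⟩ := hT n f' f x _ (j2.sm.c2 x) (j1.sm.c2 x)
      (.of_forall fun y => by linarith [hm y]) ⟨el.1, fun ξ => nonneg_of_mul_nonneg_right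
        ((Finset.sum_nonneg fun i _ => sq_nonneg _).trans (el.2.2 ξ)) Λ0⟩
    have t0 : 0 ≤ sq X.g x (D1 f x) := (mg hx.hX).up_nonneg x _
    have ga := hG (ψ x) (p1.bd x) _ t0
    have b1 := mono (l := l) hx.hX hx.hP hs (ψ := ψ) (x := x) (p := D1 f x)
      (by nlinarith [ga.om0, ga.om1]) (z := f x) (z' := f' x) (by linarith [hm x₀])
    have b2 := j1.eqn x
    have b3 := j2.eqn x
    rw [t1] at b3
    have b4 := (Qe.pr2_le (aJ X P ψ x (D1 f x) - aJ X P ψ' x (D1 f x)) (D2 f' x)).trans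
      (show _ ≤ n * (n * (Λ * d * K)) by
        gcongr
        exacts [a1.trans (by gcongr; exact hd x), k2.2.2.2.1 x])
    rw [Qe.pr2_sub'] at b4
    have b5 := (abs_le.1 (a2.trans (mul_le_mul_of_nonneg_left (hd x) Λ0.le))).1
    have b6 := mul_lt_mul_of_pos_left (hx₀.trans_le (hm x₀)) c1
    rw [hc, ← mul_assoc, mul_div_cancel₀ _ c1.ne'] at b6
    linarith [(abs_le.1 b4).2]
  obtain ⟨C, C0, hI⟩ := hI n θ hθ
  have cr : ∀ p : ℝ, 0 < p → ∀ᶠ t in 𝓝[>] (0 : ℝ), C * (2 * K * t ^ p) ≤ e / 2 := fun p hp =>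
    ev (continuousAt_const.mul (continuousAt_const.mul
      (Real.continuousAt_rpow_const _ _ (.inr hp.le)))) (by simp [hp.ne']) (half_pos he)
  obtain ⟨r, r1, r2, r0⟩ :=
    ((cr (1 + θ) (by linarith [hθ.1])).and ((cr θ hθ.1).and self_mem_nhdsWithin)).exists
  obtain ⟨d, ⟨d1, d2⟩, d3, d0⟩ := (((ev (g := fun t => c * t) (by fun_prop) (by simp) he).and
    (ev (g := fun t => C * (2 * (c * t) / r)) (by fun_prop) (by simp) (half_pos he))).and
    ((ev (g := fun t => C * (2 * (c * t) / r ^ 2)) (by fun_prop) (by simp) (half_pos he)).and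
      self_mem_nhdsWithin)).exists
  refine ⟨d, d0, fun A A' ψ ψ' f f' p1 p2 j1 j2 k1 k2 hd x => ?_⟩
  have sup : ∀ y, |f y - f' y| ≤ c * d := fun y => abs_sub_le_iff.2
    ⟨one d _ _ _ _ _ _ p1 p2 j1 j2 k1 k2 hd y,
      one d _ _ _ _ _ _ p2 p1 j2 j1 k2 k1 (fun z => (abs_sub_comm _ _).trans_le (hd z)) y⟩
  have K0 : 0 ≤ K := (norm_nonneg _).trans (k1.2.1.1 0)
  have k := (hI (fun y => f y - f' y) (2 * (c * d)) (2 * K) r r0
    (mul_nonneg two_pos.le ((abs_nonneg _).trans (sup 0))) (by positivity) (k1.1.sub k2.1)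
    fun y z => by
      rw [Qe.D2_sub k1.1 k2.1]
      refine le_of_eq_of_le (congrArg _ (sub_sub_sub_comm _ _ _ _)) ((norm_sub_le _ _).trans ?_)
      linarith [k1.2.2.2.2 y z, k2.2.2.2.2 y z]).1 (fun y z _ => Qe.osc sup y z) x
  rw [Qe.D1_sub k1.1 k2.1, Qe.D2_sub k1.1 k2.1, mul_add, mul_add] at k
  exact ⟨(sup x).trans d1, k.1.trans (by linarith), k.2.trans (by linarith)⟩

end Vale.Agent.P366Y.J
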