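import Vale.Agent.P366Y.J.Defs2
import Vale.Agent.P366Y.T.Nats
import Vale.Agent.P366Y.H.Tl

/-!
# P366Y, block E: the second derivatives at the scale `1 / A`
-/

open Metric Filter Topology Set
open scoped ContDiff
open Vale.Agent.P366.Stmt Vale.Agent.P366Z

noncomputable section

namespace Vale.Agent.P366Y.J

variable {n : ℕ}

namespace D2H

theorem pd_lip {h : E n → ℝ} (hd : Differentiable ℝ h) {C : ℝ} (C0 : 0 ≤ C)
    (hl : ∀ x y, |h x - h y| ≤ C * ‖x - y‖) (k : Fin n) (x : E n) : |pd k h x| ≤ C :=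
  (abs_pd_le (hd x) k).trans
    ((hd x).hasFDerivAt.le_of_lip' C0 (Eventually.of_forall fun y => hl y x))

theorem two_rpow {t θ : ℝ} (t0 : 0 ≤ t) (t2 : t ≤ 2) (θ0 : 0 < θ) (θ1 : θ ≤ 1) : t ≤ 2 * t ^ θ := by
  have a1 : t / 2 ≤ (t / 2) ^ θ := Real.self_le_rpow_of_le_one (by positivity) (by linarith) θ1
  have a2 : (t / 2) ^ θ ≤ t ^ θ := Real.rpow_le_rpow (by positivity) (by linarith) θ0.le
  linarith

theorem ent (M : Mx n) (i j : Fin n) : |M i j| ≤ ‖M‖ :=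
  (norm_le_pi_norm (M i) j).trans (norm_le_pi_norm M i)

theorem abs2 (n : ℕ) {Λ θ : ℝ} (K : ℝ) (Λ0 : 0 < Λ) (θ0 : 0 < θ) (θ1 : θ ≤ 1) :
    ∃ K₂ > (0 : ℝ), ∀ (f : E n → ℝ) (a : E n → Mx n) (A : ℝ), 1 ≤ A → Smooth f →
      (∀ i j, Smooth fun x => a x i j) → (∃ S, ∀ x, ‖D2 f x‖ ≤ S) → (∀ x, El Λ (a x)) →
      Hs θ K A f → (∀ x y, ‖a x - a y‖ ≤ Λ * (A * ‖x - y‖ + ‖D1 f x - D1 f y‖)) →
      (∀ x y, |pr2 (a x) (D2 f x) - pr2 (a y) (D2 f y)| ≤
        Λ * (A ^ 2 * ‖x - y‖ + ‖D1 f x - D1 f y‖)) → ∀ x, ‖D2 f x‖ ≤ K₂ * A := by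
  have n0 : (0 : ℝ) ≤ n := Nat.cast_nonneg n
  have K0 := abs_nonneg K
  obtain ⟨Q, hQ⟩ : ∃ Q, Q = Λ * (1 + n + n ^ 2 + n ^ 3) + Λ * (2 + |K|) + |K| := ⟨_, rfl⟩
  have q1 : 0 ≤ Λ * (1 + n + n ^ 2 + n ^ 3) := by positivity
  have q2 : 0 ≤ Λ * |K| := by positivity
  obtain ⟨K', K'0, hT⟩ := H.tl n Λ⁻¹ Q θ (1 / 2) (inv_pos.2 Λ0) (by rw [hQ]; positivity) θ0 θ1
    one_half_pos
  refine ⟨2 * K', by positivity, fun f a A A1 hf ha ⟨S₀, h0⟩ hE hH hL hR => ?_⟩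
  have A0 : 0 < A := by linarith
  have bd : BddAbove (range fun x => ‖D2 f x‖) := ⟨S₀, by rintro _ ⟨x, rfl⟩; exact h0 x⟩
  obtain ⟨S, hS⟩ : ∃ S, S = ⨆ x, ‖D2 f x‖ := ⟨_, rfl⟩
  have s1 : ∀ x, ‖D2 f x‖ ≤ S := fun x => hS ▸ le_ciSup bd x
  have S0 : 0 ≤ S := (norm_nonneg _).trans (s1 0)
  have f2 : ContDiff ℝ 2 f := hf.two
  have sp : ∀ {v : E n → ℝ}, Smooth v → ∀ i, Smooth (pd i v) := fun hv i => hv.pd i
  have df : ∀ {v : E n → ℝ}, Smooth v → Differentiable ℝ v := fun hv => hv.differentiable (by simp)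
  have c2 : ∀ {v : E n → ℝ}, Smooth v → ∀ x, ContDiffAt ℝ 2 v x := fun hv x => hv.c2 x
  have lp := NatsH.lip f2 s1
  have da : ∀ i j k x, |pd k (fun y => a y i j) x| ≤ Λ * (A + n * S) := fun i j k x =>
    pd_lip (df (ha i j)) (by positivity) (fun x y => ((ent (a x - a y) i j).trans (hL x y)).trans
      (by have := mul_le_mul_of_nonneg_left (lp x y) Λ0.le; linarith)) k x
  have d2 : ∀ i j, Smooth fun y => D2 f y i j := fun i j => sp (sp hf j) i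
  have dh : Differentiable ℝ fun y => pr2 (a y) (D2 f y) := fun y =>
    DifferentiableAt.fun_sum fun i _ => DifferentiableAt.fun_sum fun j _ =>
      (df (ha i j) y).fun_mul (df (d2 i j) y)
  have db : ∀ k x, |pd k (fun y => pr2 (a y) (D2 f y)) x| ≤ Λ * (A ^ 2 + n * S) := fun k x =>
    pd_lip dh (by positivity) (fun x y => (hR x y).trans
      (by have := mul_le_mul_of_nonneg_left (lp x y) Λ0.le; linarith)) k x
  have eq : ∀ k x, ∑ i, ∑ j, a x i j * pd i (pd j (pd k f)) x =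
      pd k (fun y => pr2 (a y) (D2 f y)) x - ∑ i, ∑ j, pd k (fun y => a y i j) x * D2 f x i j := by
    intro k x
    unfold pr2
    rw [pd_sum _ fun i _ => DifferentiableAt.fun_sum fun j _ =>
      (df (ha i j) x).fun_mul (df (d2 i j) x), ← Finset.sum_sub_distrib]
    refine Finset.sum_congr rfl fun i _ => ?_
    rw [pd_sum _ fun j _ => (df (ha i j) x).fun_mul (df (d2 i j) x), ← Finset.sum_sub_distrib]
    refine Finset.sum_congr rfl fun j _ => ?_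
    rw [pd_mul (df (ha i j) x) (df (d2 i j) x), add_sub_cancel_left]
    have e1 : pd j (pd k f) = pd k (pd j f) := funext fun y => pd_comm (c2 hf y) j k
    rw [e1, pd_comm (c2 (sp hf j) x) i k]
    rfl
  have key : ∀ k x, ‖fderiv ℝ (pd k f) x‖ ≤ 1 / 2 * S + K' / A⁻¹ := fun k x => by
    refine hT (pd k f) (fun i j y => a y i j) x A⁻¹ S (sp hf k).two
      (inv_pos.2 A0) S0 fun y hy => ⟨(hE y).1, fun ξ => ?_, fun i j => ?_, ?_, fun z hz => ?_⟩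
    · rw [inv_mul_le_iff₀ Λ0]; exact (hE y).2.2 ξ
    · refine ((hE y).2.1 i j).trans ?_
      rw [hQ]; linarith
    · rw [eq, inv_pow, one_div, inv_inv]
      have b1 : |∑ i, ∑ j, pd k (fun y => a y i j) y * D2 f y i j| ≤
          ∑ _i : Fin n, ∑ _j : Fin n, Λ * (A + n * S) * S :=
        (Finset.abs_sum_le_sum_abs _ _).trans (Finset.sum_le_sum fun i _ =>
          (Finset.abs_sum_le_sum_abs _ _).trans (Finset.sum_le_sum fun j _ => by
            rw [abs_mul]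
            exact mul_le_mul (da i j k y) ((ent _ i j).trans (s1 y)) (abs_nonneg _)
              (by positivity)))
      simp only [Finset.sum_const, Finset.card_univ, Fintype.card_fin, nsmul_eq_mul] at b1
      refine (abs_sub _ _).trans ((add_le_add (db k y) b1).trans ?_)
      have b2 : A * S ≤ S ^ 2 + A ^ 2 := by nlinarith [sq_nonneg (S - A)]
      have b3 : S ≤ S ^ 2 + A ^ 2 := by nlinarith
      have b4 : A ^ 2 + n * S + n ^ 2 * (A * S) + n ^ 3 * S ^ 2 ≤ (S ^ 2 + A ^ 2) +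
          n * (S ^ 2 + A ^ 2) + n ^ 2 * (S ^ 2 + A ^ 2) + n ^ 3 * (S ^ 2 + A ^ 2) := by
        gcongr <;> nlinarith
      have b5 := mul_le_mul_of_nonneg_left b4 Λ0.le
      have b6 : Λ * (1 + n + n ^ 2 + n ^ 3) * (S ^ 2 + A ^ 2) ≤ Q * (S ^ 2 + A ^ 2) :=
        mul_le_mul_of_nonneg_right (by rw [hQ]; linarith) (by positivity)
      linarith
    · rw [div_inv_eq_mul, mul_comm _ A]
      have t2 : A * ‖y - z‖ ≤ 2 := by
        have := dist_triangle_right y z x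
        rw [mem_ball] at hy hz
        rw [dist_eq_norm y z] at this
        have h3 := mul_le_mul_of_nonneg_left (show ‖y - z‖ ≤ 2 * A⁻¹ by linarith) A0.le
        rwa [mul_left_comm, mul_inv_cancel₀ A0.ne', mul_one] at h3
      have t3 := two_rpow (by positivity) t2 θ0 θ1
      have t0 : 0 ≤ (A * ‖y - z‖) ^ θ := by positivity
      have t4 := (hH y z).trans (mul_le_mul_of_nonneg_right (le_abs_self K) t0)
      refine ⟨fun i j => ((ent (a y - a z) i j).trans (hL y z)).trans ?_, ?_⟩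
      · have := mul_le_mul_of_nonneg_left (add_le_add t3 t4) Λ0.le
        have h5 : Λ * (2 + |K|) * (A * ‖y - z‖) ^ θ ≤ Q * (A * ‖y - z‖) ^ θ :=
          mul_le_mul_of_nonneg_right (by rw [hQ]; linarith) t0
        linarith
      · exact ((norm_le_pi_norm (D1 f y - D1 f z) k).trans t4).trans
          (mul_le_mul_of_nonneg_right (by rw [hQ]; linarith) t0)
  have s2 : S ≤ 1 / 2 * S + K' / A⁻¹ := by
    refine hS.le.trans (ciSup_le fun x => ?_)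
    have p0 : 0 ≤ 1 / 2 * S + K' / A⁻¹ := by positivity
    exact (pi_norm_le_iff_of_nonneg p0).2 fun i => (pi_norm_le_iff_of_nonneg p0).2 fun k =>
      (abs_pd_le (df (sp hf k) x) i).trans (key k x)
  rw [div_inv_eq_mul] at s2
  exact fun x => (s1 x).trans (by linarith)

end D2H

open D2H in
theorem jd2_of (h1 : COEF) (h2 : COEF2) : JD2 := by
  obtain ⟨C₁, h1⟩ := h1
  obtain ⟨C₂, h2⟩ := h2
  refine ⟨max C₁ C₂, fun n X P l M θ K hc hθ => ?_⟩
  obtain ⟨Λ₀, a1, a2⟩ := h1 n X P (hc.mono (le_max_left _ _))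
  have F0 : 0 < P.F₀ := by linarith [hc.hP.pos.2.2.2.2.1]
  obtain ⟨M', hM⟩ : ∃ M', M' = |M| + 8 * P.F₀ := ⟨_, rfl⟩
  have m1 := le_abs_self M
  have m2 := abs_nonneg M
  have M0 : 0 ≤ M' := by linarith
  obtain ⟨Λ₁, Λ1, a2⟩ := a2 1 l M'
  obtain ⟨Λ₂, Λ2, b2⟩ := h2 n X P (hc.mono (le_max_right _ _)) l M'
  obtain ⟨K₂, K0, h⟩ := abs2 n (Λ := 2 * Λ₁ + Λ₂ * (2 + 2 * M')) K (by positivity) hθ.1 hθ.2.le
  refine ⟨K₂, K0, fun A A1 s hs ψ f hψ hf hB hH => ?_⟩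
  have A0 : 0 < A := by linarith
  have s0 : 0 < s := lt_of_lt_of_le (by positivity) hs
  have q0 : 0 ≤ Λ₂ * M' := by positivity
  have o : (1 : ℝ) ∈ Icc (0 : ℝ) 1 := ⟨zero_le_one, le_rfl⟩
  have z1 : ∀ x, |f x| ≤ M' := fun x => (hB x).1.trans (by linarith)
  have p1 : ∀ x, ‖D1 f x‖ ≤ M' := fun x => (pi_norm_le_iff_of_nonneg M0).2 fun i =>
    ((abs_pd_le (hf.sm.diff x) i).trans (hB x).2).trans (by linarith)
  have lψ : ∀ x y, |ψ x - ψ y| ≤ A * ‖x - y‖ := fun x y =>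
    convex_univ.norm_image_sub_le_of_norm_fderiv_le (fun z _ => hψ.sm.diff z)
      (fun z _ => hψ.lip z) (mem_univ y) (mem_univ x)
  have lf : ∀ x y, |f x - f y| ≤ M' * ‖x - y‖ := fun x y =>
    convex_univ.norm_image_sub_le_of_norm_fderiv_le (fun z _ => hf.sm.diff z)
      (fun z _ => (hB z).2.trans (by linarith)) (mem_univ y) (mem_univ x)
  have c := fun x y => a2 1 o A A ψ ψ hψ hψ x y _ _ _ _ (z1 x) (z1 y) (p1 x) (p1 y)
  obtain ⟨α, -, A₁, hc2⟩ := hf.c2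
  refine h f (fun x => aJ X P ψ x (D1 f x)) A A1 hf.sm (fun i j => ?_) ⟨A₁, hc2.2.2.2.1⟩
    (fun x => ?_) hH (fun x y => ?_) fun x y => ?_
  · have : ContDiff ℝ ∞ fun x => aJ X P ψ x (D1 f x) := (a1 A ψ hψ).2.2.1.comp
      (contDiff_id.prodMk (contDiff_pi.2 fun i => hf.sm.pd i))
    exact contDiff_pi.1 (contDiff_pi.1 this i) j
  · obtain ⟨e1, e2', e3⟩ := (c x x).1
    refine ⟨e1, fun i j => (e2' i j).trans (by linarith), fun ξ => (e3 ξ).trans ?_⟩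
    have : 0 ≤ ∑ i, ∑ j, aJ X P ψ x (D1 f x) i j * ξ i * ξ j :=
      le_of_mul_le_mul_left ((mul_zero Λ₁).le.trans
        ((Finset.sum_nonneg fun i _ => sq_nonneg (ξ i)).trans (e3 ξ))) Λ1
    exact mul_le_mul_of_nonneg_right (by linarith) this
  · refine (c x y).2.2.1.trans ?_
    have t1 := lψ x y
    have t2 : ‖x - y‖ ≤ A * ‖x - y‖ := le_mul_of_one_le_left (norm_nonneg _) A1
    have t3 := norm_nonneg (D1 f x - D1 f y)
    have t4 : 0 ≤ A * ‖x - y‖ := by positivity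
    have t5 : Λ₁ * (‖x - y‖ + |ψ x - ψ y| + ‖D1 f x - D1 f y‖) ≤
        Λ₁ * (2 * (A * ‖x - y‖ + ‖D1 f x - D1 f y‖)) := by gcongr; linarith
    have t6 : 0 ≤ Λ₂ * (2 + 2 * M') * (A * ‖x - y‖ + ‖D1 f x - D1 f y‖) := by positivity
    linarith
  · rw [hf.eqn, hf.eqn]
    refine (b2 s 1 o A A ψ ψ hψ hψ x y _ _ _ _ (z1 x) (z1 y) (p1 x) (p1 y)).2.trans ?_
    have A2 : A ≤ A ^ 2 := by nlinarith
    have t0 := norm_nonneg (x - y)
    have t1 := (lψ x y).trans (mul_le_mul_of_nonneg_right A2 t0)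
    have t2 : ‖x - y‖ ≤ A ^ 2 * ‖x - y‖ := le_mul_of_one_le_left t0 (by linarith)
    have t3 := norm_nonneg (D1 f x - D1 f y)
    have t4 : 1 + 1 / |s| ≤ 2 * A ^ 2 := by
      rw [abs_of_pos s0]
      have := (one_div_le s0 (by positivity : 0 < A ^ 2)).2 hs
      linarith
    have t5 := mul_le_mul t4 (lf x y) (abs_nonneg _) (by positivity)
    have t6 : Λ₂ * (‖x - y‖ + |ψ x - ψ y| + (1 + 1 / |s|) * |f x - f y| + ‖D1 f x - D1 f y‖) ≤
        Λ₂ * ((2 + 2 * M') * (A ^ 2 * ‖x - y‖ + ‖D1 f x - D1 f y‖)) := by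
      gcongr
      nlinarith [mul_nonneg M0 t3]
    have t7 : 0 ≤ Λ₁ * (A ^ 2 * ‖x - y‖ + ‖D1 f x - D1 f y‖) := by positivity
    linarith

end Vale.Agent.P366Y.J
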