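import Vale.Agent.P366Y.J.Defs

/-!
# P366Y, block E: existence for the equation of the gauge
-/

open MeasureTheory Metric Filter Topology Set
open scoped ContDiff ENNReal
open Vale.Agent.P366.Stmt Vale.Agent.P366Z

noncomputable section

namespace Vale.Agent.P366Y.J

namespace Ex

variable {n : ℕ}

theorem ho_of {V : Type} [NormedAddCommGroup V] {θ Λ B B' : ℝ} {f : E n → V}
    (hθ : θ ∈ Ioo (0 : ℝ) 1) (hB : 0 ≤ B) (hB' : 0 ≤ B') (h1 : ∀ x, ‖f x‖ ≤ Λ)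
    (h2 : ∀ x y, ‖f x - f y‖ ≤ B * ‖x - y‖ + B' * ‖x - y‖ ^ θ) : Ho θ (2 * Λ + B + B') f := by
  have hΛ : 0 ≤ Λ := (norm_nonneg _).trans (h1 0)
  refine ⟨fun x => by linarith [h1 x], fun x y => ?_⟩
  have r0 : 0 ≤ ‖x - y‖ ^ θ := Real.rpow_nonneg (norm_nonneg _) _
  rcases le_total ‖x - y‖ 1 with h | h
  · have e : ‖x - y‖ ≤ ‖x - y‖ ^ θ := by
      have := Real.rpow_le_rpow_of_exponent_ge' (norm_nonneg (x - y)) h hθ.1.le hθ.2.le
      rwa [Real.rpow_one] at this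
    have := h2 x y
    nlinarith [mul_le_mul_of_nonneg_left e hB, mul_nonneg hΛ r0]
  · have e : 1 ≤ ‖x - y‖ ^ θ := Real.one_le_rpow h hθ.1.le
    have := norm_sub_le (f x) (f y)
    nlinarith [h1 x, h1 y, mul_le_mul_of_nonneg_left e hΛ, mul_nonneg hB r0, mul_nonneg hB' r0]

theorem ho_mono {V : Type} [NormedAddCommGroup V] {θ A A' : ℝ} {f : E n → V} (h : Ho θ A f)
    (e : A ≤ A') : Ho θ A' f :=
  ⟨fun x => (h.1 x).trans e, fun x y =>
    (h.2 x y).trans (mul_le_mul_of_nonneg_right e (Real.rpow_nonneg (norm_nonneg _) _))⟩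

theorem el_mono {Λ Λ' : ℝ} {a : Mx n} (h : El Λ a) (h0 : 0 < Λ) (e : Λ ≤ Λ') : El Λ' a := by
  refine ⟨h.1, fun i j => (h.2.1 i j).trans e, fun ξ => ?_⟩
  have h1 := h.2.2 ξ
  have h2 : 0 ≤ e2 ξ := Finset.sum_nonneg fun i _ => sq_nonneg _
  have h3 : 0 ≤ ∑ i, ∑ j, a i j * ξ i * ξ j := le_of_mul_le_mul_left (by linarith) h0
  exact h1.trans (mul_le_mul_of_nonneg_right e h3)

theorem el_norm {Λ : ℝ} {a : Mx n} (h : El Λ a) (h0 : 0 ≤ Λ) : ‖a‖ ≤ Λ :=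
  (pi_norm_le_iff_of_nonneg h0).2 fun i => (pi_norm_le_iff_of_nonneg h0).2 fun j => h.2.1 i j

theorem lip_of {ψ : E n → ℝ} {A : ℝ} (hs : Smooth ψ) (h : ∀ x, ‖fderiv ℝ ψ x‖ ≤ A) (x y : E n) :
    |ψ x - ψ y| ≤ A * ‖x - y‖ :=
  (convex_univ (𝕜 := ℝ) (E := E n)).norm_image_sub_le_of_norm_fderiv_le
    (fun z _ => hs.diff z) (fun z _ => h z) (mem_univ y) (mem_univ x)

theorem d1_le {v : E n → ℝ} (hs : Smooth v) (x : E n) : ‖D1 v x‖ ≤ ‖fderiv ℝ v x‖ :=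
  (pi_norm_le_iff_of_nonneg (norm_nonneg _)).2 fun i => abs_pd_le (hs.diff x) i

theorem fst_le (p : ℝ × Vc n) : |p.1| ≤ ‖p‖ := norm_fst_le p

theorem fst_sub (p q : ℝ × Vc n) : |p.1 - q.1| ≤ ‖p - q‖ := norm_fst_le (p - q)

theorem snd_sub (p q : ℝ × Vc n) : ‖p.2 - q.2‖ ≤ ‖p - q‖ := norm_snd_le (p - q)

/-- the bounds of a solution give the Hölder bound of its jet -/
theorem ho_jet {P : Pa} {θ M K A : ℝ} {v : E n → ℝ} (hθ : θ ∈ Ioo (0 : ℝ) 1) (hA : 1 ≤ A)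
    (hs : Smooth v) (h1 : B1 P M v) (h2 : Hs θ K A v) :
    Ho θ (2 * max (8 * P.F₀) M + |M| + |K| * A ^ θ) (J1 v) := by
  have a0 : 0 ≤ A ^ θ := Real.rpow_nonneg (by linarith) _
  refine ho_of hθ (abs_nonneg _) (mul_nonneg (abs_nonneg _) a0) (fun x => ?_) fun x y => ?_
  · exact max_le_max (h1 x).1 ((d1_le hs x).trans (h1 x).2)
  · have r0 : 0 ≤ ‖x - y‖ ^ θ := Real.rpow_nonneg (norm_nonneg _) _
    have e1 := lip_of hs (fun z => (h1 z).2.trans (le_abs_self M)) x y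
    have e2 := h2 x y
    rw [Real.mul_rpow (by linarith) (norm_nonneg _)] at e2
    have e3 : K * (A ^ θ * ‖x - y‖ ^ θ) ≤ |K| * A ^ θ * ‖x - y‖ ^ θ := by
      rw [mul_assoc]; exact mul_le_mul_of_nonneg_right (le_abs_self K) (mul_nonneg a0 r0)
    have e4 : 0 ≤ |M| * ‖x - y‖ := by positivity
    have e5 : 0 ≤ |K| * A ^ θ * ‖x - y‖ ^ θ := by positivity
    refine max_le ?_ ?_
    · exact e1.trans (by linarith)
    · exact e2.trans (by linarith)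

theorem bJ_homotopy (X : Dat n) (P : Pa) (s l σ : ℝ) (ψ : E n → ℝ) (x : E n) (z : ℝ) (p : Vc n) :
    σ * bJ X P s l 1 ψ x z p + (1 - σ) * l * z = bJ X P s l σ ψ x z p := by
  simp only [bJ]; ring

end Ex

open Ex in
theorem jex_of : COEF → QE → REGQ → JEX := by
  rintro ⟨C, hC⟩ h2 h3
  refine ⟨C, fun n X P cx => ?_⟩
  obtain ⟨Λ₀, hA, hB⟩ := hC n X P cx
  obtain ⟨l₀, hq⟩ := h2 n Λ₀ X.ρ cx.hX.dim
  refine ⟨max l₀ 1, fun l hl s A M θ K ψ hθ hA1 hps hap => ?_⟩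
  have l0 : l₀ ≤ l := (le_max_left _ _).trans hl
  have l1 : 1 ≤ l := (le_max_right _ _).trans hl
  obtain ⟨a1, a2, a3, a4⟩ := hA A ψ hps
  have reg : ∀ σ ∈ Icc (0 : ℝ) 1, ∀ v : E n → ℝ, (∃ A₁, C2H θ A₁ v) →
      Tendsto v (cocompact (E n)) (𝓝 0) →
      (∀ x, pr2 (aJ X P ψ x (D1 v x)) (D2 v x) = bJ X P s l σ ψ x (v x) (D1 v x)) →
      Jf X P s l σ ψ v := by
    rintro σ hσ v ⟨A₁, hv⟩ ht he
    refine ⟨?_, ht, ⟨θ, hθ, A₁, hv⟩, he⟩
    refine h3 n θ A₁ v (fun q => aJ X P ψ q.1 q.2.2) (fun q => bJ X P s l σ ψ q.1 q.2.1 q.2.2) hθ hv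
      (a3.comp (contDiff_fst.prodMk (contDiff_snd.comp contDiff_snd))) (a4 s l σ) (fun x => ?_) he
    obtain ⟨Λ, -, hΛ⟩ := hB s l A₁
    exact ⟨Λ, (hΛ σ hσ A A ψ ψ hps hps x x (v x) (v x) (D1 v x) (D1 v x) (hv.2.1.1 x) (hv.2.1.1 x)
      (hv.2.2.1.1 x) (hv.2.2.1.1 x)).1⟩
  have one : (1 : ℝ) ∈ Icc (0 : ℝ) 1 := ⟨zero_le_one, le_rfl⟩
  have ql : Ql Λ₀ X.ρ l θ (fun _ => l) (fun j x => aJ X P ψ x (j x).2)
      (fun j x => bJ X P s l 1 ψ x (j x).1 (j x).2) := by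
    refine ⟨⟨|l|, fun x => le_rfl, fun x y => ?_⟩, fun M' => ?_, fun M' e he => ?_,
      fun j j' _ h x hx => ?_,
      ⟨2 * max (8 * P.F₀) M + |M| + |K| * A ^ θ, fun σ hσ v hv ht he => ?_⟩⟩
    · rw [sub_self, norm_zero]
      exact mul_nonneg (abs_nonneg _) (Real.rpow_nonneg (norm_nonneg _) _)
    · obtain ⟨Λ, Λ0, hΛ⟩ := hB s l M'
      refine ⟨2 * Λ + Λ * (1 + A) + 2 * Λ * M', fun j hj => ?_⟩
      have M0 : 0 ≤ M' := (norm_nonneg _).trans (hj.1 0)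
      have k := fun x y => hΛ 1 one A A ψ ψ hps hps x y (j x).1 (j y).1 (j x).2 (j y).2
        ((fst_le _).trans (hj.1 x)) ((fst_le _).trans (hj.1 y)) ((norm_snd_le _).trans (hj.1 x))
        ((norm_snd_le _).trans (hj.1 y))
      have b0 : 0 ≤ Λ * (1 + A) := mul_nonneg Λ0.le (by linarith)
      have b1 : 0 ≤ 2 * Λ * M' := by positivity
      refine ⟨⟨⟨Λ, fun x => (k x x).1⟩, fun x i i' => a1 x _ i i', fun x hx => a2 x _ hx,
        fun _ => ⟨by linarith, le_rfl⟩, fun _ _ => rfl⟩,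
        fun x => el_mono (k x x).1 Λ0 (by linarith), ?_, ?_, fun x hx => ?_⟩
      · refine ho_of hθ b0 b1 (fun x => el_norm (k x x).1 Λ0.le) fun x y => ?_
        refine (k x y).2.2.1.trans ?_
        have e1 := lip_of hps.sm hps.lip x y
        have e2 := (snd_sub (j x) (j y)).trans (hj.2 x y)
        have r0 : 0 ≤ M' * ‖x - y‖ ^ θ := (norm_nonneg _).trans e2
        calc _ ≤ Λ * (‖x - y‖ + A * ‖x - y‖ + 2 * (M' * ‖x - y‖ ^ θ)) :=
              mul_le_mul_of_nonneg_left (by linarith) Λ0.le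
          _ = _ := by ring
      · refine ho_of hθ b0 b1 (fun x => (k x x).2.1) fun x y => ?_
        refine (k x y).2.2.2.trans ?_
        have e1 := lip_of hps.sm hps.lip x y
        have e2 := (snd_sub (j x) (j y)).trans (hj.2 x y)
        have e3 := (fst_sub (j x) (j y)).trans (hj.2 x y)
        calc _ ≤ Λ * (‖x - y‖ + A * ‖x - y‖ + 2 * (M' * ‖x - y‖ ^ θ)) :=
              mul_le_mul_of_nonneg_left (by linarith) Λ0.le
          _ = _ := by ring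
      · have r := cx.hX.Rρ
        have r1 := cx.hX.R1
        simp only [bJ]
        rw [rc_zero (by linarith) (by linarith)]
        ring
    · obtain ⟨Λ, Λ0, hΛ⟩ := hB s l M'
      refine ⟨e / (2 * Λ), by positivity, fun j j' hj hj' hd x => ?_⟩
      have k := hΛ 1 one A A ψ ψ hps hps x x (j x).1 (j' x).1 (j x).2 (j' x).2
        ((fst_le _).trans (hj.1 x)) ((fst_le _).trans (hj'.1 x)) ((norm_snd_le _).trans (hj.1 x))
        ((norm_snd_le _).trans (hj'.1 x))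
      have e2 := (snd_sub (j x) (j' x)).trans (hd x)
      have e3 := (fst_sub (j x) (j' x)).trans (hd x)
      have d0 : 0 ≤ e / (2 * Λ) := by positivity
      have q : Λ * (2 * (e / (2 * Λ))) = e := by field_simp
      simp only [sub_self, norm_zero, abs_zero, zero_add, add_zero] at k
      exact ⟨k.2.2.1.trans ((mul_le_mul_of_nonneg_left (by linarith) Λ0.le).trans q.le),
        k.2.2.2.trans ((mul_le_mul_of_nonneg_left (by linarith) Λ0.le).trans q.le)⟩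
    · have := h x (by linarith)
      simp only [this, and_self]
    · have hj := reg σ hσ v hv ht fun x => (he x).trans (bJ_homotopy X P s l σ ψ x _ _)
      exact ho_jet hθ hA1 hj.sm (hap σ hσ v hj).1 (hap σ hσ v hj).2
  obtain ⟨v, hv, ht, he⟩ := hq l l0 θ hθ _ _ _ ql
  exact ⟨v, reg 1 one v hv ht he, hv⟩

end Vale.Agent.P366Y.J
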