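import Vale.Agent.P366Y.J.Defs2

/-!
# P366Y, block E: the exponential decay in the dead core (row JEXP)
-/

open Metric Filter Topology Set
open scoped ContDiff
open Vale.Agent.P366.Stmt Vale.Agent.P366Z

noncomputable section

namespace Vale.Agent.P366Y.J

namespace ExpH

variable {n : ℕ} {g : Field n}

/-- the square of the distance -/
def rr (z y : E n) : ℝ := ‖y - z‖ ^ 2

theorem sm_rr (z : E n) : Smooth (rr z) := contDiff_normSq.comp (contDiff_id.sub contDiff_const)

theorem d1_rr (z : E n) (i : Fin n) : pd i (rr z) = fun y => 2 * (y - z) i := funext fun _ =>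
  (pd_translate (f := fun y => ‖y‖ ^ 2) z i).trans (pd_normSq i _)

theorem hess_rr (z y : E n) (i j : Fin n) : hess g (rr z) y i j =
    2 * (if i = j then 1 else 0) - ∑ k, chr g k i j y * (2 * (y - z) k) := by
  simp only [hess, d1_rr]
  rw [pd_const_mul, pd_translate (f := fun y => y j), pd_coord]

theorem unif (hg : Met g) (R : ℝ) : ∃ Q ≥ (1 : ℝ), ∀ z y : E n, ‖y‖ ≤ R → ‖y - z‖ ≤ 1 →
    sq g y (D1 (rr z) y) ≤ Q ∧ n * normSq g (hess g (rr z)) y ≤ Q := by
  have c1 := fun i j => (hg.sm_up i j).cont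
  have c2 := fun k i j => (hg.sm_chr k i j).cont
  have k := (isCompact_closedBall (0 : E n) R).prod (isCompact_closedBall (0 : E n) 1)
  obtain ⟨Q₁, h1⟩ := k.exists_bound_of_continuousOn
    (f := fun q : E n × E n => sq g q.1 fun i => 2 * q.2 i) (Continuous.continuousOn (by
      unfold sq
      fun_prop))
  obtain ⟨Q₂, h2⟩ := k.exists_bound_of_continuousOn
    (f := fun q : E n × E n => n * normSq g (fun y i j =>
      2 * (if i = j then 1 else 0) - ∑ k, chr g k i j y * (2 * q.2 k)) q.1)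
    (Continuous.continuousOn (by
      unfold normSq
      fun_prop))
  refine ⟨max 1 (max Q₁ Q₂), le_max_left _ _, fun z y a b => ?_⟩
  have m : (y, y - z) ∈ closedBall (0 : E n) R ×ˢ closedBall (0 : E n) 1 :=
    ⟨mem_closedBall_zero_iff.2 a, mem_closedBall_zero_iff.2 b⟩
  refine ⟨le_max_of_le_right (le_max_of_le_left (le_trans ?_ ((le_abs_self _).trans (h1 _ m)))),
    le_max_of_le_right (le_max_of_le_right (le_trans ?_ ((le_abs_self _).trans (h2 _ m))))⟩
  · simp only [sq, D1, d1_rr, le_refl]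
  · simp only [normSq, hess_rr, le_refl]

theorem pr_hess (a : Mx n) (u : E n → ℝ) (x : E n) : pr2 a (hess g u x) =
    pr2 a (D2 u x) - pr2 a fun i j => ∑ k, chr g k i j x * D1 u x k := by
  simp only [pr2, hess, D2, D1, mul_sub, Finset.sum_sub_distrib]

/-- the barrier -/
theorem bar (hT : TOUCH) (hA : ALG) (hH : HCP) (hg : Met g) {Q s k κ : ℝ} {u : E n → ℝ} {z : E n}
    (hQ : 1 ≤ Q) (hu : Smooth u) (hs : 0 < s) (hk : 0 ≤ k) (hκ : (k ^ 2 + k) * Q < κ)
    (h : ∀ y, ‖y - z‖ ≤ 1 / 2 → (sq g y (D1 (rr z) y) ≤ Q ∧ n * normSq g (hess g (rr z)) y ≤ Q) ∧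
      u y ≤ s ∧ (0 < u y → ∃ c p, 0 ≤ c ∧ c * sq g y p ≤ 1 ∧
        κ * u y ≤ pr2 (am g y c p) (hess g u y))) : u z ≤ s * Real.exp (-(k / 4)) := by
  obtain ⟨b, hb⟩ : ∃ b : ℝ → ℝ, b = fun t => s * Real.exp (k * (t - 1 / 4)) := ⟨_, rfl⟩
  have b0 : ∀ t, 0 < b t := fun t => by rw [hb]; positivity
  have b1 : ContDiff ℝ ∞ b := by rw [hb]; fun_prop
  have b2 : deriv b = fun t => k * b t := funext fun t => by
    rw [hb]
    refine (((((hasDerivAt_id t).sub_const _).const_mul k).exp).const_mul s).deriv.trans ?_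
    simp only [id]
    ring
  have b3 : ∀ t, deriv (deriv b) t = k ^ 2 * b t := fun t => by
    rw [b2, deriv_const_mul_field', b2]
    ring
  have w : Smooth fun y => b (rr z y) := b1.comp (sm_rr z)
  obtain ⟨x, hx, hm⟩ := (isCompact_closedBall z (1 / 2)).exists_isMinOn
    ⟨z, mem_closedBall_self (by norm_num)⟩ (w.cont.sub hu.cont).continuousOn
  have k0 : b (rr z x) - u x ≤ b (rr z z) - u z := hm (mem_closedBall_self (by norm_num))
  have k1 : b (rr z z) = s * Real.exp (-(k / 4)) := by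
    rw [hb, rr, sub_self, norm_zero]
    exact congrArg (s * Real.exp ·) (by ring)
  by_contra c
  have k2 : b (rr z x) < u x := by linarith
  rw [mem_closedBall, dist_eq_norm] at hx
  obtain ⟨⟨q1, q2⟩, h2, h3⟩ := h x hx
  obtain ⟨e, p, e0, e1, e2⟩ := h3 ((b0 _).trans k2)
  have k3 : ‖x - z‖ < 1 / 2 := hx.lt_of_ne fun e => by
    rw [hb, rr, e] at k2
    norm_num at k2
    linarith
  obtain ⟨-, a1, a2, -, -, a3⟩ := hA n g x e p hg e0 e1
  obtain ⟨t1, t2⟩ := hT n _ u x _ (w.c2 x) (hu.c2 x) (hm.isLocalMin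
    (closedBall_mem_nhds_of_mem (mem_ball_iff_norm.2 k3))) a1
  have k4 : pr2 (am g x e p) (hess g u x) ≤ pr2 (am g x e p) (hess g (fun y => b (rr z y)) x) := by
    rw [pr_hess, pr_hess, t1]
    linarith
  have k5 : pr2 (am g x e p) (hess g (fun y => b (rr z y)) x) = b (rr z x) *
      (k ^ 2 * ∑ i, ∑ j, am g x e p i j * D1 (rr z) x i * D1 (rr z) x j +
        k * pr2 (am g x e p) (hess g (rr z) x)) := by
    simp only [pr2, (hH n g b _ x b1 (sm_rr z)).2.1, b3]
    simp only [b2, Finset.mul_sum, ← Finset.sum_add_distrib]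
    exact Finset.sum_congr rfl fun i _ => Finset.sum_congr rfl fun j _ => by ring
  have k6 : pr2 (am g x e p) (hess g (rr z) x) ≤ Q := le_of_sq_le_sq
    (((a3 _ (hg.hess_sy ((sm_rr z).c2 x))).1.trans q2).trans (by nlinarith)) (by linarith)
  have k7 := mul_le_mul_of_nonneg_left (add_le_add (mul_le_mul_of_nonneg_left
    ((a2 (D1 (rr z) x)).2.trans q1) (sq_nonneg k)) (mul_le_mul_of_nonneg_left k6 hk)) (b0 (rr z x)).le
  have k8 : 0 ≤ (k ^ 2 + k) * Q := by positivity
  nlinarith [b0 (rr z x)]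

theorem atan {v : ℝ} (h0 : 0 ≤ v) (h1 : v ≤ 1) : v / 2 ≤ Real.arctan v := by
  refine le_trans ?_ ((Real.sin_arctan v).ge.trans (Real.sin_le (Real.arctan_nonneg.2 h0)))
  exact div_le_div_of_nonneg_left h0 (by positivity) (Real.sqrt_le_iff.2 ⟨by norm_num, by nlinarith⟩)

end ExpH

open ExpH

/-- **row JEXP** -/
theorem jexp_of (hG : GA) (hT : TOUCH) (hA : ALG) (hH : HCP) : JEXP := by
  obtain ⟨C, -, hG⟩ := hG
  refine ⟨C, fun n X P hc => ?_⟩
  have hX := hc.hX
  have hg := mg hX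
  obtain ⟨-, L1, τ0, -, F1, -, p0, p1, -⟩ := hc.hP.pos
  obtain ⟨Q, Q1, hQ⟩ := unif hg (X.R + 7)
  obtain ⟨c, c0, c1, c2⟩ : ∃ c : ℝ, 0 < c ∧ c ≤ 1 ∧ c * Q = P.p₁ / 16 :=
    ⟨P.p₁ / 16 / Q, by positivity, (div_le_one (by linarith)).2 (by linarith), by field_simp⟩
  refine ⟨c / 4, by positivity, fun s l A ψ f s0 s1 hψ hf ho x x1 x2 => ?_⟩
  have r0 := Real.sqrt_pos.2 s0
  have key : ∀ e : ℝ, e = 1 ∨ e = -1 → e * f x ≤ s * Real.exp (-(c / √s / 4)) := fun e he => by
    refine bar (u := fun y => e * f y) (κ := P.p₁ / 4 / s) hT hA hH hg Q1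
      (contDiff_const.mul hf.sm) s0 (by positivity) ?_ fun y hy => ?_
    · have a : c / √s ≤ c / s := div_le_div_of_nonneg_left c0.le s0
        (Real.le_sqrt_of_sq_le (by nlinarith))
      have a' : c ^ 2 / s ≤ c / s := div_le_div_of_nonneg_right (by nlinarith) s0.le
      rw [div_pow, Real.sq_sqrt s0.le]
      refine (mul_le_mul_of_nonneg_right (add_le_add a' a) (by linarith)).trans_lt ?_
      rw [← add_div, div_mul_eq_mul_div]
      exact div_lt_div_of_pos_right (by linarith) s0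
    have y1 := abs_le.1 ((abs_norm_sub_norm_le y x).trans hy)
    have y2 := abs_le.1 (ho y (by linarith))
    have y3 : e * f y ≤ s := by rcases he with rfl | rfl <;> linarith
    refine ⟨hQ x y (by linarith) (by linarith), y3, fun u0 => ?_⟩
    have t0 := (hA n X.g y 0 (D1 f y) hg le_rfl (by simp)).1
    have G := hG P hc.hP hc.big _ (hψ.bd y) _ t0
    have r7 := rc_one (r := X.R + 7) (x := y) (by linarith [hX.R1]) (by linarith)
    have r3 := rc_mem (X.R + 3) y
    refine ⟨P.Gs (ψ y) (sq X.g y (D1 f y)), D1 f y, G.Gs0, ?_, ?_⟩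
    · have := (one_div_pos.2 (by positivity)).trans_le G.io1
      rw [io] at this
      linarith
    have e1 := geo hX hf (x := y) (by linarith)
    have e2 : pr2 (ag X P ψ y (D1 f y)) (X.K y) = 0 := by simp [pr2, hX.K0 y (by linarith)]
    rw [e2, ag_eq, r7, one_mul, zero_add, cap, (hX.pout y (by linarith)).1,
      hc.hP.Tl _ (abs_le.2 ⟨by linarith, by linarith⟩)] at e1
    have e3 : ∀ a : Mx n, pr2 a (hess X.g (fun y => e * f y) y) = e * pr2 a (hess X.g f y) :=
      fun a => by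
        have : ∀ j, pd j (fun y => e * f y) = fun y => e * pd j f y := fun j =>
          funext fun _ => pd_const_mul e j
        simp only [pr2, hess, this, pd_const_mul, Finset.mul_sum, mul_sub, mul_left_comm _ e]
    have e4 : e * Real.arctan (f y / s) = Real.arctan (e * f y / s) := by
      rcases he with rfl | rfl
      · rw [one_mul, one_mul]
      · rw [neg_one_mul, neg_one_mul, neg_div, Real.arctan_neg]
    have e5 := atan (div_pos u0 s0).le ((div_le_one s0).2 y3)
    have e6 : 1 / 2 ≤ P.om (ψ y) (ip X.g f f y) :=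
      le_of_sq_le_sq (le_trans (by linarith) G.om1) G.om0.le
    have e7 : P.p₁ ≤ rc (X.R + 3) y * X.p₀ + (1 - rc (X.R + 3) y) * P.p₁ := by
      nlinarith [hc.fo.1]
    have e8 := mul_le_mul e7 e5 (by positivity) (p0.le.trans e7)
    have e9 := mul_le_mul e6 (e8.trans (le_add_of_nonneg_left (mul_pos τ0 u0).le)) (by positivity)
      G.om0.le
    rw [e3, e1]
    rw [← e4] at e9
    refine le_trans (le_of_eq ?_) (e9.trans_eq (by ring))
    ring
  rw [div_right_comm] at key
  exact abs_le.2 ⟨by linarith [key (-1) (Or.inr rfl)], by linarith [key 1 (Or.inl rfl)]⟩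

end Vale.Agent.P366Y.J
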