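import Vale.Agent.P366Y.J.Defs

/-!
# P366Y, block E: the bound of the gradient
-/

open MeasureTheory Metric Filter Topology Set
open scoped ContDiff ENNReal
open Vale.Agent.P366.Stmt Vale.Agent.P366Z

noncomputable section

namespace Vale.Agent.P366Y.J

variable {n : ℕ}

namespace GradH

/-- the gradient tends to zero -/
theorem d1_lim {f : E n → ℝ} {α A : ℝ} (hf : Smooth f) (hl : Tendsto f (cocompact (E n)) (𝓝 0))
    (hα : 0 < α) (hH : Ho α A (D1 f)) : Tendsto (D1 f) (cocompact (E n)) (𝓝 0) := by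
  have A0 : 0 ≤ A := (norm_nonneg _).trans (hH.1 0)
  refine tendsto_pi_nhds.2 fun i => Metric.tendsto_nhds.2 fun ε hε => ?_
  have c1 : ContinuousAt (fun r : ℝ => A * r ^ α) 0 :=
    (Real.continuousAt_rpow_const 0 α (Or.inr hα.le)).const_mul A
  have c2 : ∀ᶠ r : ℝ in 𝓝[>] 0, A * r ^ α < ε / 2 :=
    nhdsWithin_le_nhds (c1.eventually_lt continuousAt_const (by
      simp only [Real.zero_rpow hα.ne', mul_zero]; linarith))
  obtain ⟨r, h1, hr⟩ := (c2.and self_mem_nhdsWithin).exists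
  have hr : 0 < r := hr
  obtain ⟨e, he⟩ : ∃ e : E n, e = EuclideanSpace.single i 1 := ⟨_, rfl⟩
  have e1 : ‖e‖ = 1 := by simp [he]
  have t1 : Tendsto (fun x => f (x + r • e) - f x) (cocompact (E n)) (𝓝 (0 - 0)) :=
    (hl.comp (Homeomorph.addRight (r • e)).isClosedEmbedding.tendsto_cocompact).sub hl
  filter_upwards [Metric.tendsto_nhds.1 t1 (r * (ε / 2)) (by positivity)] with x hx
  have hd : ∀ t : ℝ, HasDerivAt (fun t : ℝ => f (x + t • e)) (pd i f (x + t • e)) t := fun t => by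
    rw [pd_eq (hf.diff _), ← he]
    have h := (hf.diff (x + t • e)).hasFDerivAt.comp_hasDerivAt t
      (((hasDerivAt_id t).smul_const e).const_add x)
    rw [one_smul] at h
    exact h
  obtain ⟨θ, hθ, h2⟩ := exists_hasDerivAt_eq_slope (fun t : ℝ => f (x + t • e)) _ hr
    (fun t _ => (hd t).continuousAt.continuousWithinAt) fun t _ => hd t
  have h3 : |pd i f (x + θ • e)| < ε / 2 := by
    rw [h2, abs_div, sub_zero, abs_of_pos hr, div_lt_iff₀ hr, mul_comm]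
    simpa [Real.dist_eq] using hx
  have h4 : |pd i f x - pd i f (x + θ • e)| ≤ A * r ^ α := by
    refine (norm_le_pi_norm (D1 f x - D1 f (x + θ • e)) i).trans ((hH.2 _ _).trans ?_)
    have : ‖x - (x + θ • e)‖ ≤ r := by
      rw [sub_add_cancel_left, norm_neg, norm_smul, e1, mul_one, Real.norm_of_nonneg hθ.1.le]
      exact hθ.2.le
    gcongr
  have h5 := abs_add_le (pd i f x - pd i f (x + θ • e)) (pd i f (x + θ • e))
  rw [sub_add_cancel] at h5
  simp only [Pi.zero_apply, dist_zero_right, Real.norm_eq_abs, D1]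
  linarith

/-- a bound by compactness -/
theorem cb {Z ι : Type} [NormedAddCommGroup Z] [NormedSpace ℝ Z] [Fintype ι]
    {S : Set (E n × Z)} (hS : IsCompact S) {F : ι → E n × Z → ℝ}
    (hF : ∀ i, ∀ q ∈ S, ContDiffAt ℝ 1 (F i) q) :
    ∃ C ≥ (0 : ℝ), ∀ i, ∀ q ∈ S, ∀ k, |pd k (fun y => F i (y, q.2)) q.1| ≤ C := by
  choose C hC using fun i => hS.exists_bound_of_continuousOn (f := fderiv ℝ (F i)) fun q hq =>
    ((hF i q hq).fderiv_right (m := 0) (by norm_num)).continuousAt.continuousWithinAt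
  refine ⟨∑ i, |C i|, by positivity, fun i q hq k => ?_⟩
  have h1 : HasFDerivAt (fun y => F i (y, q.2))
      ((fderiv ℝ (F i) q).comp (ContinuousLinearMap.inl ℝ (E n) Z)) q.1 :=
    ((hF i q hq).differentiableAt (by norm_num)).hasFDerivAt.comp q.1
      (hasFDerivAt_prodMk_left q.1 q.2)
  rw [pd_of_hasFDerivAt h1]
  have h2 : ‖ContinuousLinearMap.inl ℝ (E n) Z (EuclideanSpace.single k 1)‖ ≤ 1 := by
    simp [Prod.norm_def]
  refine ((fderiv ℝ (F i) q).le_of_opNorm_le_of_le le_rfl h2).trans ?_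
  rw [mul_one]
  exact (hC i q hq).trans ((le_abs_self _).trans
    (Finset.single_le_sum (f := fun i => |C i|) (fun _ _ => abs_nonneg _) (Finset.mem_univ i)))

theorem sq_smul (g : Field n) (x : E n) (N : ℝ) (w : Vc n) :
    sq g x (N • w) = N ^ 2 * sq g x w := by
  simp only [sq, Pi.smul_apply, smul_eq_mul, Finset.mul_sum]
  exact Finset.sum_congr rfl fun i _ => Finset.sum_congr rfl fun j _ => by ring

theorem rs_smul (g : Field n) (x : E n) (N : ℝ) (w : Vc n) (i : Fin n) :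
    rs g x (N • w) i = N * rs g x w i := by
  simp only [rs, Pi.smul_apply, smul_eq_mul, Finset.mul_sum]
  exact Finset.sum_congr rfl fun i _ => by ring

/-- tangential ellipticity -/
theorem tang {g : Field n} (hg : Met g) (x : E n) {c : ℝ} {p : Vc n} (c0 : 0 ≤ c)
    (c1 : c * sq g x p ≤ 1) (ξ : Vc n) :
    ∃ k : ℝ, sq g x (ξ - k • p) ≤ ∑ i, ∑ j, am g x c p i j * ξ i * ξ j := by
  obtain ⟨B, hB⟩ : ∃ B : ℝ, B = ∑ i, rs g x p i * ξ i := ⟨_, rfl⟩
  have e1 : ∑ i, ∑ j, am g x c p i j * ξ i * ξ j = sq g x ξ - c * (B * B) := by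
    rw [hB, Finset.sum_mul_sum]
    simp only [am, sq, Finset.mul_sum, ← Finset.sum_sub_distrib]
    exact Finset.sum_congr rfl fun i _ => Finset.sum_congr rfl fun j _ => by ring
  have b1 : B = ∑ i, ∑ j, up g i j x * ξ i * p j := by
    simp only [hB, rs, Finset.sum_mul]
    exact Finset.sum_congr rfl fun i _ => Finset.sum_congr rfl fun j _ => by ring
  have b2 : B = ∑ i, ∑ j, up g i j x * p i * ξ j := by
    rw [b1, Finset.sum_comm]
    exact Finset.sum_congr rfl fun i _ => Finset.sum_congr rfl fun j _ => by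
      rw [hg.up_sy j i]; ring
  have e2 : ∀ k : ℝ, sq g x (ξ - k • p) = sq g x ξ - k * (∑ i, ∑ j, up g i j x * ξ i * p j) -
      k * (∑ i, ∑ j, up g i j x * p i * ξ j) + k ^ 2 * sq g x p := fun k => by
    simp only [sq, Pi.sub_apply, Pi.smul_apply, smul_eq_mul, Finset.mul_sum,
      ← Finset.sum_sub_distrib, ← Finset.sum_add_distrib]
    exact Finset.sum_congr rfl fun i _ => Finset.sum_congr rfl fun j _ => by ring
  refine ⟨c * B, ?_⟩
  rw [e1, e2, ← b1, ← b2]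
  nlinarith [mul_le_mul_of_nonneg_left c1 (mul_nonneg c0 (mul_self_nonneg B))]

theorem e2_sub {ξ p : Vc n} (h : ∑ i, ξ i * p i = 0) (k : ℝ) : e2 ξ ≤ e2 (ξ - k • p) := by
  have : e2 (ξ - k • p) = e2 ξ - 2 * k * ∑ i, ξ i * p i + k ^ 2 * e2 p := by
    simp only [e2, Pi.sub_apply, Pi.smul_apply, smul_eq_mul, Finset.mul_sum,
      ← Finset.sum_sub_distrib, ← Finset.sum_add_distrib]
    exact Finset.sum_congr rfl fun i _ => by ring
  have h0 : 0 ≤ e2 p := Finset.sum_nonneg fun _ _ => sq_nonneg _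
  rw [this, h]
  nlinarith [mul_nonneg (sq_nonneg k) h0]

theorem e2_le (p : Vc n) : e2 p ≤ n * ‖p‖ ^ 2 := by
  refine (Finset.sum_le_sum (g := fun _ => ‖p‖ ^ 2) fun i _ => ?_).trans (by simp)
  exact sq_le_sq' (abs_le.1 (norm_le_pi_norm p i)).1 (abs_le.1 (norm_le_pi_norm p i)).2

/-- the conformal factor and the ellipticity -/
theorem ell {X : Dat n} (h : X.Ok) : ∃ Λ ≥ (1 : ℝ), ∀ y, 1 / 4 ≤ X.U y ^ (2 * bb n) ∧
    X.U y ^ (2 * bb n) ≤ 2 ∧ ∀ ξ, e2 ξ ≤ Λ * (X.U y ^ (2 * bb n) * sq X.g y ξ) := by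
  obtain ⟨Λ, hΛ⟩ := h.met.ell h.flat
  have b0 := bb_pos h.dim
  have b2 := bb_le h.dim
  refine ⟨Λ, hΛ.one, fun y => ⟨?_, ?_, fun ξ => (hΛ.up_lo y ξ).trans (le_of_eq ?_)⟩⟩
  · refine le_trans ?_ (Real.rpow_le_rpow (by norm_num) (h.Ub y).1 (by linarith))
    refine le_trans ?_ (Real.rpow_le_rpow_of_exponent_ge (z := 2 * bb n) (y := (4 : ℕ))
      (by norm_num) (by norm_num) (by push_cast; linarith))
    rw [Real.rpow_natCast]; norm_num
  · refine le_trans (Real.rpow_le_rpow (U0 h y).le (h.Ub y).2 (by linarith)) ?_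
    refine le_trans (Real.rpow_le_rpow_of_exponent_le (y := 2 * bb n) (z := (4 : ℕ))
      (by norm_num) (by push_cast; linarith)) ?_
    rw [Real.rpow_natCast]; norm_num
  · have u : X.U y ^ (2 * bb n) * X.U y ^ (-(2 * bb n)) = 1 := by
      rw [← Real.rpow_add (U0 h y), add_neg_cancel, Real.rpow_zero]
    congr 1
    simp only [sq, Dat.g, h.met.up_cf (U0 h y), Finset.mul_sum]
    refine Finset.sum_congr rfl fun i _ => Finset.sum_congr rfl fun j _ => ?_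
    linear_combination (-(up X.g₀ i j y * ξ i * ξ j)) * u

/-- the principal part for large gradients -/
def Aw (X : Dat n) (L : ℝ) (y : E n) (w : Vc n) (v : ℝ) : Mx n := fun i j =>
  up X.g i j y - rc (X.R + 7) y * (4 * L / (v ^ 2 + 4 * L * sq X.g y w)) * rs X.g y w i *
    rs X.g y w j

/-- the space of the parameters -/
abbrev Zp (n : ℕ) := E n × Vc n × ℝ × ℝ × ℝ × ℝ × ℝ

/-- the rescaled coefficients -/
def Fw (X : Dat n) (P : Pa) : Option (Fin n × Fin n) → Zp n → ℝ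
  | some ij, q => X.U q.1 ^ (2 * bb n) * Aw X P.L q.1 q.2.1 q.2.2.1 ij.1 ij.2
  | none, q => q.2.2.2.1 * rc (X.R + 7) q.1 * X.U q.1 ^ (2 * bb n) *
      (√(q.2.2.1 ^ 2 / 4 + sq X.g q.1 q.2.1) *
        (pr2 (Aw X P.L q.1 q.2.1 q.2.2.1) (X.K q.1) + (q.2.2.2.2.1 +
          (rc (X.R + 3) q.1 * X.p q.1 + (1 - rc (X.R + 3) q.1) * P.p₁) * q.2.2.2.2.2.1)) +
        pr2 (Aw X P.L q.1 q.2.1 q.2.2.1) fun i j => ∑ k, chr X.g k i j q.1 * q.2.1 k) +
      (1 - q.2.2.2.1 * rc (X.R + 7) q.1) * q.2.2.2.2.2.2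

theorem fw_c1 {X : Dat n} (h : X.Ok) {P : Pa} (hL : 0 < P.L) (o : Option (Fin n × Fin n))
    {q : Zp n} (hq : q.2.1 ≠ 0) : ContDiffAt ℝ 1 (Fw X P o) q := by
  have s0 : 0 < sq X.g q.1 q.2.1 := (mg h).up_pos q.1 hq
  have c : ∀ {f : E n → ℝ}, Smooth f → ContDiffAt ℝ 1 (fun q : Zp n => f q.1) q := fun hf =>
    (hf.c1 q.1).comp q contDiffAt_fst
  have cw : ∀ i, ContDiffAt ℝ 1 (fun q : Zp n => q.2.1 i) q := fun i => by fun_prop
  have cs : ContDiffAt ℝ 1 (fun q : Zp n => sq X.g q.1 q.2.1) q :=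
    ContDiffAt.sum fun i _ => ContDiffAt.sum fun j _ =>
      ((c ((mg h).sm_up i j)).mul (cw i)).mul (cw j)
  have cr : ∀ i, ContDiffAt ℝ 1 (fun q : Zp n => rs X.g q.1 q.2.1 i) q := fun i =>
    ContDiffAt.sum fun j _ => (c ((mg h).sm_up i j)).mul (cw j)
  have cv : ContDiffAt ℝ 1 (fun q : Zp n => q.2.2.1 ^ 2) q := by fun_prop
  have cA : ∀ i j, ContDiffAt ℝ 1 (fun q : Zp n => Aw X P.L q.1 q.2.1 q.2.2.1 i j) q := fun i j =>
    (c ((mg h).sm_up i j)).sub ((((c (sm_rc _)).mul (contDiffAt_const.div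
      (cv.add (contDiffAt_const.mul cs)) (by positivity))).mul (cr i)).mul (cr j))
  have cm := c (h.smU.rpow (U0 h) (2 * bb n))
  have cσ : ContDiffAt ℝ 1 (fun q : Zp n => q.2.2.2.1 * rc (X.R + 7) q.1) q :=
    ContDiffAt.mul (by fun_prop) (c (sm_rc _))
  rcases o with _ | ij
  · refine ((cσ.mul cm).mul (ContDiffAt.add (ContDiffAt.mul (((cv.div_const 4).add cs).sqrt
      (by positivity)) (ContDiffAt.add ?_ (ContDiffAt.add (by fun_prop) (ContDiffAt.mul ?_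
        (by fun_prop))))) ?_)).add ((contDiffAt_const.sub cσ).mul (by fun_prop))
    · exact ContDiffAt.sum fun i _ => ContDiffAt.sum fun j _ => (cA i j).mul (c (h.smK i j))
    · exact ((c (sm_rc _)).mul (c h.smp)).add
        ((contDiffAt_const.sub (c (sm_rc _))).mul contDiffAt_const)
    · exact ContDiffAt.sum fun i _ => ContDiffAt.sum fun j _ => (cA i j).mul
        (ContDiffAt.sum fun k _ => (c ((mg h).sm_chr k i j)).mul (cw k))
  · exact cm.mul (cA _ _)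

variable {X : Dat n} {P : Pa} {ψ : E n → ℝ} {y : E n} {N : ℝ} {w : Vc n}

theorem ag_w (h : X.Ok) (hL : 0 < P.L) (hN : 0 < N)
    (e : P.Gs (ψ y) (sq X.g y (N • w)) = 4 * P.L / (1 + 4 * P.L * sq X.g y (N • w))) :
    ag X P ψ y (N • w) = Aw X P.L y w (1 / N) := by
  funext i j
  have s0 : 0 ≤ sq X.g y w := (mg h).up_nonneg y w
  simp only [ag, Aw, e]
  rw [sq_smul, rs_smul, rs_smul]
  field_simp

theorem b_w (hN : 0 < N) (ea : ag X P ψ y (N • w) = Aw X P.L y w (1 / N))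
    (e : P.om (ψ y) (sq X.g y (N • w)) = √(1 / 4 + sq X.g y (N • w))) (s l σ z : ℝ) :
    bJ X P s l σ ψ y z (N • w) =
      N * Fw X P none (y, w, 1 / N, σ, P.T₁ z, Real.arctan (z / s), l * z / N) := by
  have e1 : √(1 / 4 + sq X.g y (N • w)) = N * √((1 / N) ^ 2 / 4 + sq X.g y w) := by
    rw [sq_smul, show 1 / 4 + N ^ 2 * sq X.g y w = N ^ 2 * ((1 / N) ^ 2 / 4 + sq X.g y w) by
      field_simp, Real.sqrt_mul (sq_nonneg N), Real.sqrt_sq hN.le]
  have e2 : (pr2 (Aw X P.L y w (1 / N)) fun i j => ∑ k, chr X.g k i j y * (N • w) k) =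
      N * pr2 (Aw X P.L y w (1 / N)) fun i j => ∑ k, chr X.g k i j y * w k := by
    simp only [pr2, Pi.smul_apply, smul_eq_mul, Finset.mul_sum]
    exact Finset.sum_congr rfl fun i _ => Finset.sum_congr rfl fun j _ =>
      Finset.sum_congr rfl fun k _ => by ring
  simp only [bJ, Fw, cap, ea, e, e1, e2]
  field_simp

/-- the derivative in `z` -/
theorem dz (h : X.Ok) (hP : P.Ok) {s l σ C : ℝ} (hs : 0 < s) (hσ : σ ∈ Icc (0 : ℝ) 1) (z : ℝ)
    (p : Vc n) (o0 : 0 ≤ P.om (ψ y) (sq X.g y p)) (hl : C ≤ l)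
    (hC : C ≤ X.U y ^ (2 * bb n) * (P.om (ψ y) (sq X.g y p) * P.τ)) :
    C ≤ deriv (fun z => bJ X P s l σ ψ y z p) z := by
  have d1 : HasDerivAt P.T₁ (deriv P.T₁ z) z := (hP.smT.differentiable (by simp) z).hasDerivAt
  have d2 : HasDerivAt (fun z => Real.arctan (z / s)) (1 / (1 + (z / s) ^ 2) * (1 / s)) z :=
    ((hasDerivAt_id z).div_const s).arctan
  have d := ((((d1.add (d2.const_mul (rc (X.R + 3) y * X.p y + (1 - rc (X.R + 3) y) * P.p₁))
    ).const_add (pr2 (ag X P ψ y p) (X.K y))).const_mul (P.om (ψ y) (sq X.g y p))).add_const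
      (pr2 (ag X P ψ y p) fun i j => ∑ k, chr X.g k i j y * p k)).const_mul
      (σ * rc (X.R + 7) y * X.U y ^ (2 * bb n)) |>.add
      ((hasDerivAt_id z).const_mul ((1 - σ * rc (X.R + 7) y) * l))
  refine le_trans ?_ (d.deriv.symm.le)
  have r3 := rc_mem (X.R + 3) y
  have r7 := rc_mem (X.R + 7) y
  have u := (Real.rpow_pos_of_pos (U0 h y) (2 * bb n)).le
  have p1 := hP.pos.2.2.2.2.2.2.1
  have w0 : 0 ≤ rc (X.R + 3) y * X.p y + (1 - rc (X.R + 3) y) * P.p₁ :=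
    add_nonneg (mul_nonneg r3.1 (h.pb y).1) (mul_nonneg (sub_nonneg.2 r3.2) p1.le)
  have w1 : P.τ ≤ deriv P.T₁ z + (rc (X.R + 3) y * X.p y + (1 - rc (X.R + 3) y) * P.p₁) *
      (1 / (1 + (z / s) ^ 2) * (1 / s)) := le_add_of_le_of_nonneg (hP.Td z) (by positivity)
  have k0 : 0 ≤ σ * rc (X.R + 7) y := mul_nonneg hσ.1 r7.1
  have k1 : σ * rc (X.R + 7) y ≤ 1 := mul_le_one₀ hσ.2 r7.1 r7.2
  have w2 := hC.trans (mul_le_mul_of_nonneg_left (mul_le_mul_of_nonneg_left w1 o0) u)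
  have w3 := mul_le_mul_of_nonneg_left w2 k0
  have w4 := mul_le_mul_of_nonneg_left hl (sub_nonneg.2 k1)
  linarith

end GradH

open GradH in
theorem jgrad_of : GA → COEF → ALG → JSUP → INTP → GB → JGRAD := by
  intro hGA hCO _ hJS _ hGB n X h
  obtain ⟨C₁, -, hG⟩ := hGA
  obtain ⟨C₂, hC⟩ := hCO
  refine ⟨max C₁ C₂, fun P c => ?_⟩
  replace hG := hG P c.hP (c.mono (le_max_left _ _)).big
  obtain ⟨Λ₀, hA, hE⟩ := hC n X P (c.mono (le_max_right _ _))
  obtain ⟨p1, p2, p3, p4, p5, p6, p7, p8, p9⟩ := c.hP.pos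
  have L0 : 0 < P.L := by linarith
  obtain ⟨Λ, Λ1, hΛ⟩ := ell h
  obtain ⟨K, K0, hK⟩ := cb (((isCompact_closedBall (0 : E n) X.ρ).prod
    ((isCompact_sphere (0 : Vc n) 1).prod
      (isCompact_closedBall (0 : ℝ × ℝ × ℝ × ℝ × ℝ) (2 * P.CK))))) (F := Fw X P)
    fun o q hq => fw_c1 h L0 o fun e => by simpa [e] using hq.2.1
  obtain ⟨C', hB⟩ := hGB n (Λ + K)
  refine ⟨max C' 1, fun l hl => ?_⟩
  have l1 : 1 ≤ l := (le_max_right _ _).trans hl
  have n1 : (1 : ℝ) ≤ n := by exact_mod_cast (by linarith [h.dim] : 1 ≤ n)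
  obtain ⟨Q, hQ⟩ : ∃ Q : ℝ, Q = P.M₀ + 4 * |C'| / P.τ := ⟨_, rfl⟩
  have Q0 : 0 ≤ 4 * |C'| / P.τ := by positivity
  obtain ⟨M', hM'⟩ : ∃ M' : ℝ, M' = 1 + l * (8 * P.F₀) := ⟨_, rfl⟩
  have M0 : 0 ≤ l * (8 * P.F₀) := by positivity
  have M1 : 1 ≤ n * M' := one_le_mul_of_one_le_of_one_le n1 (by linarith)
  have M2 : 0 ≤ 2 * Λ * Q := by rw [hQ]; positivity
  refine ⟨n * M' + 2 * Λ * Q, by linarith, fun s hs σ hσ A ψ f hψ hf x => ?_⟩
  obtain ⟨α, hα, A₁, h2⟩ := hf.c2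
  obtain ⟨-, aρ, sa, sb⟩ := hA A ψ hψ
  have key := hB (n * M' + 2 * Λ * Q) f (fun q => aJ X P ψ q.1 q.2)
    (fun q => bJ X P s l σ ψ q.1 q.2.1 q.2.2) (by linarith) hf.sm (sa.of_le (by norm_cast))
    ((sb s l σ).of_le (by norm_cast)) (d1_lim hf.sm hf.lim hα.1 h2.2.2.1) hf.eqn (fun x hx => ?_) x
  · exact abs_le_of_sq_le_sq' (by rw [norm_fderiv_sq (hf.sm.diff x)]; exact key) (by linarith)
      |>.2
  have hz := hJS n X P s l σ A ψ f h c.hP c.fo hs (by linarith) hσ hψ hf x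
  simp only [J1]
  generalize D1 f x = p at hx ⊢
  generalize f x = z at hz ⊢
  have s0 : ∀ y ξ, 0 ≤ sq X.g y ξ := fun y ξ => (mg h).up_nonneg y ξ
  have t1 : ∀ y, 2 * Q ^ 2 ≤ sq X.g y p := fun y => by
    have a1 := (hΛ y).2.2 p
    have a2 := mul_le_mul_of_nonneg_left
      (mul_le_mul_of_nonneg_right (hΛ y).2.1 (s0 y p)) (zero_le_one.trans Λ1)
    have a3 : (2 * Λ * Q) ^ 2 ≤ (n * M' + 2 * Λ * Q) ^ 2 := by gcongr; linarith
    have a4 : 2 * Λ * (2 * Q ^ 2) ≤ (2 * Λ * Q) ^ 2 := by nlinarith [sq_nonneg Q]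
    exact le_of_mul_le_mul_left (a := 2 * Λ) (by linarith) (by linarith)
  have t2 : ∀ y, P.Gs (ψ y) (sq X.g y p) = 4 * P.L / (1 + 4 * P.L * sq X.g y p) ∧
      P.om (ψ y) (sq X.g y p) = √(1 / 4 + sq X.g y p) := fun y =>
    (hG (ψ y) (hψ.bd y) _ (s0 y p)).cut (le_trans (by gcongr; linarith) (t1 y))
  have N1 : M' ≤ ‖p‖ := by
    refine abs_le_of_sq_le_sq' (le_of_mul_le_mul_left (a := (n : ℝ)) ?_ (by linarith))
      (norm_nonneg _) |>.2
    have a3 : (n * M') ^ 2 ≤ (n * M' + 2 * Λ * Q) ^ 2 := by gcongr; linarith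
    have a4 : n * M' ^ 2 ≤ (n * M') ^ 2 := by nlinarith [sq_nonneg M']
    linarith [e2_le p]
  refine ⟨?_, fun ξ hξ => ?_, ?_⟩
  · obtain ⟨Λ', -, hE⟩ := hE s l ‖p‖
    exact ⟨Λ', (hE σ hσ A A ψ ψ hψ hψ x x 0 0 p p (by simp) (by simp) le_rfl le_rfl).1⟩
  · have r7 := rc_mem (X.R + 7) x
    have := s0 x p
    obtain ⟨k, hk⟩ := tang (mg h) x (c := rc (X.R + 7) x * P.Gs (ψ x) (sq X.g x p)) (p := p)
      (by rw [(t2 x).1]; have := r7.1; positivity) (by
        rw [(t2 x).1, mul_assoc]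
        refine mul_le_one₀ r7.2 (by positivity) ?_
        rw [div_mul_eq_mul_div, div_le_one (by positivity)]
        linarith) ξ
    have u := (Real.rpow_pos_of_pos (U0 h x) (2 * bb n)).le
    have e : ∑ i, ∑ j, aJ X P ψ x p i j * ξ i * ξ j = X.U x ^ (2 * bb n) * ∑ i, ∑ j,
        am X.g x (rc (X.R + 7) x * P.Gs (ψ x) (sq X.g x p)) p i j * ξ i * ξ j := by
      simp only [aJ, ag_eq, Finset.mul_sum, mul_assoc]
    have a1 := mul_le_mul_of_nonneg_left hk u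
    have a2 := mul_nonneg u (s0 x (ξ - k • p))
    rw [e]
    refine ((e2_sub hξ k).trans ((hΛ x).2.2 _)).trans ?_
    gcongr
    linarith
  have hd : C' ≤ deriv (fun z => bJ X P s l σ ψ x z p) z := by
    refine dz h c.hP hs hσ z p (Real.sqrt_nonneg _) ((le_max_left _ _).trans hl) ?_
    have a1 : 4 * |C'| / P.τ ≤ P.om (ψ x) (sq X.g x p) := by
      rw [(t2 x).2]
      refine Real.le_sqrt_of_sq_le ?_
      have : (4 * |C'| / P.τ) ^ 2 ≤ Q ^ 2 := by gcongr; linarith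
      linarith [t1 x, sq_nonneg Q]
    rw [div_le_iff₀ p3] at a1
    have a2 := mul_le_mul (hΛ x).1 a1 (by positivity)
      (Real.rpow_pos_of_pos (U0 h x) (2 * bb n)).le
    linarith [le_abs_self C']
  obtain ⟨N, hN⟩ : ∃ N, N = ‖p‖ := ⟨_, rfl⟩
  rw [← hN] at N1 ⊢
  have N0 : 0 < N := by linarith
  obtain ⟨w, rfl⟩ : ∃ w, p = N • w := ⟨N⁻¹ • p, (smul_inv_smul₀ N0.ne' p).symm⟩
  have w1 : ‖w‖ = 1 := by
    rw [norm_smul, Real.norm_of_nonneg N0.le] at hN
    exact (mul_left_cancel₀ N0.ne' (hN.symm.trans (mul_one N).symm))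
  have ea := fun y => ag_w h L0 N0 (t2 y).1
  by_cases hx : X.ρ < ‖x‖
  · have ev := (isOpen_lt continuous_const continuous_norm).mem_nhds hx
    refine ⟨fun i j k => ?_, fun k => ?_, hd⟩
    · rw [pd_congr (h := fun _ => eu n 0 i j) (mem_of_superset ev fun y hy => by
        show aJ X P ψ y (N • w) i j = _
        rw [aρ y _ (le_of_lt hy)]; rfl), pd_const, abs_zero]
      linarith
    · rw [pd_congr (h := fun _ => l * z) (mem_of_superset ev fun y hy => by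
        show bJ X P s l σ ψ y z (N • w) = _
        have hy : X.ρ < ‖y‖ := hy
        rw [bJ, rc_zero (by linarith [h.R1]) (by linarith [h.Rρ])]; ring), pd_const, abs_zero]
      positivity
  have hq : ((x, w, 1 / N, σ, P.T₁ z, Real.arctan (z / s), l * z / N) : Zp n) ∈
      closedBall (0 : E n) X.ρ ×ˢ sphere (0 : Vc n) 1 ×ˢ
        closedBall (0 : ℝ × ℝ × ℝ × ℝ × ℝ) (2 * P.CK) := by
    refine ⟨mem_closedBall_zero_iff.2 (not_lt.1 hx), mem_sphere_zero_iff_norm.2 w1,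
      mem_closedBall_zero_iff.2 ?_⟩
    simp only [norm_prod_le_iff, Real.norm_eq_abs]
    refine ⟨?_, ?_, c.hP.Tb z hz, ?_, ?_⟩
    · rw [abs_of_pos (by positivity)]
      exact ((div_le_one N0).2 (by linarith)).trans (by linarith)
    · rw [abs_of_nonneg hσ.1]; linarith [hσ.2]
    · rw [abs_le]
      constructor <;> linarith [Real.arctan_lt_pi_div_two (z / s),
        Real.neg_pi_div_two_lt_arctan (z / s), Real.pi_le_four]
    · rw [abs_div, abs_of_pos N0, abs_mul, abs_of_pos (by linarith : 0 < l)]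
      refine ((div_le_one N0).2 ?_).trans (by linarith)
      have := mul_le_mul_of_nonneg_left hz (zero_le_one.trans l1)
      linarith
  refine ⟨fun i j k => ?_, fun k => ?_, hd⟩
  · simp only [aJ, ea]
    exact (hK (some (i, j)) _ hq k).trans (by linarith)
  · simp only [fun y => b_w N0 (ea y) (t2 y).2 s l σ z]
    rw [pd_const_mul, abs_mul, abs_of_pos N0, mul_comm]
    exact mul_le_mul_of_nonneg_right ((hK none _ hq k).trans (by linarith)) N0.le

end Vale.Agent.P366Y.J
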