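import Vale.Agent.P366Y.J.HolA

/-!
# P366Y, block E: the Hölder estimate of the gradient
-/

open MeasureTheory Metric Filter Topology Set
open scoped ContDiff ENNReal
open Vale.Agent.P366.Stmt Vale.Agent.P366Z

noncomputable section

namespace Vale.Agent.P366Y.J

namespace Hol

variable {n : ℕ} {X : Dat n} {P : Pa} {C : ℝ}

/-- the exponent of the integrating factor -/
def GG (X : Dat n) (P : Pa) (q : E n × ℝ × Vc n) : ℝ :=
  -(rc (X.R + 7) q.1 * P.G q.2.1 (sq X.g q.1 q.2.2)) / 2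

/-- the flux -/
def AA (X : Dat n) (P : Pa) (i : Fin n) (q : E n × ℝ × Vc n) : ℝ :=
  Real.exp (GG X P q) * (X.U q.1 ^ (2 * bb n) * rs X.g q.1 q.2.2 i)

/-- the coefficient of the arctangent -/
def BB (X : Dat n) (P : Pa) (q : E n × ℝ × Vc n) : ℝ :=
  rc (X.R + 7) q.1 * X.U q.1 ^ (2 * bb n) * P.om q.2.1 (sq X.g q.1 q.2.2) *
    (rc (X.R + 3) q.1 * X.p q.1 + (1 - rc (X.R + 3) q.1) * P.p₁)

theorem sm_co (j : Fin n) : ContDiff ℝ ∞ fun q : E n × ℝ × Vc n => q.2.2 j :=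
  (contDiff_apply ℝ ℝ j).comp (contDiff_snd.comp contDiff_snd)

theorem sm_fst {u : E n → ℝ} (hu : Smooth u) : ContDiff ℝ ∞ fun q : E n × ℝ × Vc n => u q.1 :=
  ContDiff.comp hu contDiff_fst

theorem sm_arg (hX : X.Ok) :
    ContDiff ℝ ∞ fun q : E n × ℝ × Vc n => (q.2.1, sq X.g q.1 q.2.2) :=
  (contDiff_fst.comp contDiff_snd).prodMk (ContDiff.sum fun i _ => ContDiff.sum fun j _ =>
    ((sm_fst ((mg hX).sm_up i j)).mul (sm_co i)).mul (sm_co j))

theorem sm_GG (hX : X.Ok) {q : E n × ℝ × Vc n} (h : Ga P C q.2.1 (sq X.g q.1 q.2.2)) :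
    ContDiffAt ℝ ∞ (GG X P) q :=
  ((sm_fst (sm_rc _)).contDiffAt.mul
    (ContDiffAt.comp (g := fun q : ℝ × ℝ => P.G q.1 q.2) q h.sG (sm_arg hX).contDiffAt)).neg.div_const 2

theorem sm_AA (hX : X.Ok) {q : E n × ℝ × Vc n} (h : Ga P C q.2.1 (sq X.g q.1 q.2.2)) (i : Fin n) :
    ContDiffAt ℝ ∞ (AA X P i) q :=
  (sm_GG hX h).exp.mul ((sm_fst (hX.smU.rpow (U0 hX) _)).mul
    (ContDiff.sum fun j _ => (sm_fst ((mg hX).sm_up i j)).mul (sm_co j))).contDiffAt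

theorem sm_BB (hX : X.Ok) {q : E n × ℝ × Vc n} (h : Ga P C q.2.1 (sq X.g q.1 q.2.2)) :
    ContDiffAt ℝ ∞ (BB X P) q :=
  (((sm_fst (sm_rc _)).mul (sm_fst (hX.smU.rpow (U0 hX) _))).contDiffAt.mul
    (ContDiffAt.comp (g := fun q : ℝ × ℝ => P.om q.1 q.2) q h.som (sm_arg hX).contDiffAt)).mul
    (((sm_fst (sm_rc _)).mul (sm_fst hX.smp)).add
      ((contDiff_const.sub (sm_fst (sm_rc _))).mul contDiff_const)).contDiffAt

theorem d_AA (hX : X.Ok) {ψ : E n → ℝ} {x : E n} {p : Vc n} (h : Ga P C (ψ x) (sq X.g x p))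
    (i : Fin n) (η : Vc n) : fderiv ℝ (AA X P i) (x, ψ x, p) (0, 0, η) =
      Real.exp (GG X P (x, ψ x, p)) * ∑ j, aJ X P ψ x p i j * η j := by
  have h1 := ((sm_AA (q := (x, ψ x, p)) hX h i).differentiableAt (by simp)).hasFDerivAt.hasLineDerivAt
    (0, 0, η)
  have hp : ∀ j, HasDerivAt (fun τ : ℝ => p j + τ * η j) (η j) 0 := fun j => by
    simpa using ((hasDerivAt_id (0 : ℝ)).mul_const (η j)).const_add (p j)
  have hS : HasDerivAt (fun τ : ℝ => sq X.g x (p + τ • η)) (2 * ∑ j, rs X.g x p j * η j) 0 := by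
    have := HasDerivAt.fun_sum (u := Finset.univ) fun a _ => HasDerivAt.fun_sum (u := Finset.univ)
      fun b _ => ((hp a).const_mul (up X.g a b x)).fun_mul (hp b)
    refine HasDerivAt.congr_deriv this ?_
    simp only [zero_mul, add_zero, Finset.sum_add_distrib, rs, Finset.sum_mul, two_mul]
    congr 1
    · exact Finset.sum_congr rfl fun a _ => Finset.sum_congr rfl fun b _ => by ring
    · rw [Finset.sum_comm]
      exact Finset.sum_congr rfl fun a _ => Finset.sum_congr rfl fun b _ => by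
        rw [(mg hX).up_sy]
  have hR : HasDerivAt (fun τ : ℝ => rs X.g x (p + τ • η) i) (∑ j, up X.g i j x * η j) 0 :=
    HasDerivAt.fun_sum (u := Finset.univ) fun j _ => (hp j).const_mul (up X.g i j x)
  have hG : HasDerivAt (fun τ : ℝ => P.G (ψ x) (sq X.g x (p + τ • η)))
      (P.Gs (ψ x) (sq X.g x p) * (2 * ∑ j, rs X.g x p j * η j)) 0 :=
    HasDerivAt.comp_of_eq (h₂ := P.G (ψ x)) 0 h.dG hS (by simp)
  have h2 := (((hG.const_mul (rc (X.R + 7) x)).fun_neg.div_const 2).exp).fun_mul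
    (hR.const_mul (X.U x ^ (2 * bb n)))
  have e : (fun τ : ℝ => AA X P i ((x, ψ x, p) + τ • (0, 0, η))) = fun τ : ℝ =>
      Real.exp (-(rc (X.R + 7) x * P.G (ψ x) (sq X.g x (p + τ • η))) / 2) *
        (X.U x ^ (2 * bb n) * rs X.g x (p + τ • η) i) := by
    funext τ
    simp [AA, GG]
  unfold HasLineDerivAt at h1
  rw [e] at h1
  rw [h1.unique h2]
  have e2 : ∑ j, aJ X P ψ x p i j * η j = X.U x ^ (2 * bb n) * (∑ j, up X.g i j x * η j -
      rc (X.R + 7) x * P.Gs (ψ x) (sq X.g x p) * rs X.g x p i * ∑ j, rs X.g x p j * η j) := by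
    simp only [aJ, ag, Finset.mul_sum, ← Finset.sum_sub_distrib]
    exact Finset.sum_congr rfl fun j _ => by ring
  rw [e2]
  simp only [GG, zero_smul, add_zero]
  ring

theorem pd_V (hX : X.Ok) {ψ f : E n → ℝ} (hψ : Smooth ψ) (hf : Smooth f) {x : E n}
    (h : Ga P C (ψ x) (sq X.g x (D1 f x))) (i k : Fin n) :
    pd k (fun z => AA X P i (z, ψ z, D1 f z)) x - Real.exp (GG X P (x, ψ x, D1 f x)) *
      ∑ j, aJ X P ψ x (D1 f x) i j * pd k (pd j f) x =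
      fderiv ℝ (AA X P i) (x, ψ x, D1 f x) (EuclideanSpace.single k 1, pd k ψ x, 0) := by
  have hQ : HasFDerivAt (fun z => (z, ψ z, D1 f z)) ((ContinuousLinearMap.id ℝ _).prod
      ((fderiv ℝ ψ x).prod (ContinuousLinearMap.pi fun j => fderiv ℝ (pd j f) x))) x :=
    (hasFDerivAt_id x).prodMk ((hψ.diff x).hasFDerivAt.prodMk
      (hasFDerivAt_pi.2 fun j => ((hf.pd j).diff x).hasFDerivAt))
  have hA := ((sm_AA (q := (x, ψ x, D1 f x)) hX h i).differentiableAt (by simp)).hasFDerivAt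
  have h1 := pd_of_hasFDerivAt (HasFDerivAt.comp (f := fun z => (z, ψ z, D1 f z)) x hA hQ) k
  rw [show pd k (fun z => AA X P i (z, ψ z, D1 f z)) x = _ from h1, ← d_AA hX h i fun j => pd k (pd j f) x, ContinuousLinearMap.comp_apply, ← map_sub]
  congr 1
  ext j <;> simp [pd_eq (hψ.diff x), pd_eq ((hf.pd _).diff x)]

end Hol

open Hol Cac

theorem jhol_of (h1 : GA) (_ : ALG) (h2 : COEF) (h3 : H.HOL) : JHOL := by
  obtain ⟨C₁, -, ga⟩ := h1
  obtain ⟨C₂, co⟩ := h2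
  refine ⟨max C₁ C₂, fun n X P l M cx => ?_⟩
  have hX := cx.hX
  obtain ⟨Λ₀, c1, c2⟩ := co n X P (cx.mono (le_max_right _ _))
  have g : ∀ (x : E n) (p : Vc n), ∀ y ∈ Icc P.φ₀ 2, Ga P C₁ y (sq X.g x p) := fun x p y hy =>
    ga P cx.hP (cx.mono (le_max_left _ _)).big y hy _ ((mg hX).up_nonneg x p)
  obtain ⟨M', M1, M2⟩ : ∃ M', M ≤ M' ∧ 8 * P.F₀ ≤ M' := ⟨_, le_max_left _ _, le_max_right _ _⟩
  obtain ⟨Λ, Λ0, c3⟩ := c2 1 l M'
  have cK : IsCompact (closedBall (0 : E n) X.ρ ×ˢ Icc P.φ₀ 2 ×ˢ closedBall (0 : Vc n) M') :=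
    (isCompact_closedBall _ _).prod (isCompact_Icc.prod (isCompact_closedBall _ _))
  obtain ⟨B₁, b1⟩ := cK.exists_bound_of_continuousOn (f := fun q i => fderiv ℝ (AA X P i) q)
    (continuousOn_pi.2 fun i q hq => ((sm_AA hX (g _ _ _ hq.2.1) i).fderiv_right (m := 0)
      (by simp)).continuousAt.continuousWithinAt)
  obtain ⟨B₂, b2⟩ := cK.exists_bound_of_continuousOn (f := GG X P)
    fun q hq => (sm_GG hX (g _ _ _ hq.2.1)).continuousAt.continuousWithinAt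
  obtain ⟨B₃, b3⟩ := cK.exists_bound_of_continuousOn (f := BB X P)
    fun q hq => (sm_BB hX (g _ _ _ hq.2.1)).continuousAt.continuousWithinAt
  obtain ⟨θ, θm, K, K0, hc⟩ := core h3 (show 2 ≤ n by linarith [hX.dim]) Λ0
    (Real.exp_pos (-|B₂|)) (D := |B₁| + Real.exp |B₂| + |M'| + (Λ + |B₃| * 4)) (by positivity)
  refine ⟨θ, θm, K, K0, fun s _ σ hσ A A1 ψ f hψ hf hb => ?_⟩
  have pos : 0 ≤ |B₁| ∧ 0 ≤ Real.exp |B₂| ∧ 0 ≤ |M'| ∧ 0 ≤ |B₃| := by
    refine ⟨?_, ?_, ?_, ?_⟩ <;> positivity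
  obtain ⟨p1, p2, p3, p4⟩ := pos
  have sQ : ContDiff ℝ ∞ fun z => (z, ψ z, D1 f z) :=
    contDiff_id.prodMk (ContDiff.prodMk hψ.sm (contDiff_pi.2 fun j => hf.sm.pd j))
  have M0 : 0 ≤ M' := by linarith [cx.hP.pos.2.2.2.2.1]
  have fj : ∀ x j, |pd j f x| ≤ M' := fun x j =>
    (abs_pd_le (hf.sm.diff x) j).trans ((hb x).2.trans M1)
  have fn : ∀ x, ‖D1 f x‖ ≤ M' := fun x => (pi_norm_le_iff_of_nonneg M0).2 (fj x)
  have mem : ∀ x : E n, ‖x‖ ≤ X.ρ → (x, ψ x, D1 f x) ∈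
      closedBall (0 : E n) X.ρ ×ˢ Icc P.φ₀ 2 ×ˢ closedBall (0 : Vc n) M' := fun x hx =>
    ⟨mem_closedBall_zero_iff.2 hx, hψ.bd x, mem_closedBall_zero_iff.2 (fn x)⟩
  have r0 : ∀ x : E n, X.ρ ≤ ‖x‖ → rc (X.R + 7) x = 0 := fun x hx =>
    rc_zero (by linarith [hX.R1]) (by linarith [hX.Rρ])
  refine hc A A1 f (fun i z => AA X P i (z, ψ z, D1 f z)) (fun z => aJ X P ψ z (D1 f z))
    (fun z => Real.exp (GG X P (z, ψ z, D1 f z))) hf.sm (fun i => contDiff_iff_contDiffAt.2 fun z =>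
      ContDiffAt.comp (g := AA X P i) z (sm_AA (q := (z, ψ z, D1 f z)) hX (g _ _ _ (hψ.bd z)) i)
        sQ.contDiffAt) fun x => ?_
  have fz : |f x| ≤ M' := (hb x).1.trans M2
  obtain ⟨el, bj, -, -⟩ := c3 σ hσ A A ψ ψ hψ hψ x x (f x) (f x) (D1 f x) (D1 f x) fz fz (fn x) (fn x)
  have gb : |GG X P (x, ψ x, D1 f x)| ≤ |B₂| := by
    rcases le_total ‖x‖ X.ρ with hx | hx
    · exact (b2 _ (mem x hx)).trans (le_abs_self _)
    · simp [GG, r0 x hx]
  have bb' : |BB X P (x, ψ x, D1 f x)| ≤ |B₃| := by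
    rcases le_total ‖x‖ X.ρ with hx | hx
    · exact (b3 _ (mem x hx)).trans (le_abs_self _)
    · simp [BB, r0 x hx]
  refine ⟨el, Real.exp_le_exp.2 (abs_le.1 gb).1, ?_, fun j => ?_, ?_, fun i k => ?_⟩
  · linarith [Real.exp_le_exp.2 (abs_le.1 gb).2]
  · linarith [fj x j, le_abs_self M']
  · have e : bJ X P s l σ ψ x (f x) (D1 f x) = bJ X P 1 l σ ψ x (f x) (D1 f x) +
        σ * (BB X P (x, ψ x, D1 f x) * (Real.arctan (f x / s) - Real.arctan (f x / 1))) := by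
      simp only [bJ, cap, BB]
      ring
    have a1 : |Real.arctan (f x / s) - Real.arctan (f x / 1)| ≤ 4 := by
      have := Real.pi_le_four
      rw [abs_le]
      constructor <;> linarith [Real.arctan_lt_pi_div_two (f x / s),
        Real.arctan_lt_pi_div_two (f x / 1), Real.neg_pi_div_two_lt_arctan (f x / s),
        Real.neg_pi_div_two_lt_arctan (f x / 1)]
    have a2 : |σ * (BB X P (x, ψ x, D1 f x) * (Real.arctan (f x / s) - Real.arctan (f x / 1)))| ≤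
        1 * (|B₃| * 4) := by
      rw [abs_mul, abs_mul, abs_of_nonneg hσ.1]
      exact mul_le_mul hσ.2 (mul_le_mul bb' a1 (abs_nonneg _) p4) (by positivity) zero_le_one
    rw [hf.eqn x, e]
    refine (abs_add_le _ _).trans ?_
    linarith
  · have A0 : 0 ≤ A := by linarith
    rcases le_or_gt ‖x‖ X.ρ with hx | hx
    · rw [pd_V hX hψ.sm hf.sm (g _ _ _ (hψ.bd x))]
      refine ((fderiv ℝ (AA X P i) (x, ψ x, D1 f x)).le_opNorm _).trans
        (mul_le_mul ?_ ?_ (norm_nonneg _) (by positivity))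
      · linarith [(norm_le_pi_norm (fun i => fderiv ℝ (AA X P i) (x, ψ x, D1 f x)) i).trans
          (b1 _ (mem x hx)), le_abs_self B₁]
      · refine norm_prod_le_iff.2 ⟨by simpa using A1, norm_prod_le_iff.2 ⟨?_, by simpa using A0⟩⟩
        exact (abs_pd_le (hψ.sm.diff x) k).trans (hψ.lip x)
    · have e : (fun z => AA X P i (z, ψ z, D1 f z)) =ᶠ[𝓝 x] pd i f := by
        filter_upwards [(isOpen_lt continuous_const continuous_norm).mem_nhds hx] with z hz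
        have hz : X.ρ ≤ ‖z‖ := le_of_lt hz
        have t : ∀ j, X.U z ^ (2 * bb n) * up X.g i j z = if i = j then 1 else 0 := fun j => by
          simpa [aJ, ag, r0 z hz, eu] using congrFun (congrFun ((c1 A ψ hψ).2.1 z 0 hz) i) j
        simp [AA, GG, r0 z hz, rs, Finset.mul_sum, ← mul_assoc, t, D1]
      rw [pd_congr e, (c1 A ψ hψ).2.1 x _ hx.le]
      simp only [GG, r0 x hx.le, eu, zero_mul, neg_zero, zero_div, Real.exp_zero, one_mul, ite_mul,
        Finset.sum_ite_eq, Finset.mem_univ, if_true, sub_self, abs_zero]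
      positivity

end Vale.Agent.P366Y.J
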