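import Vale.Agent.P366Y.J.Defs

/-!
# P366Y, block E: row JINN, the inner barrier
-/

open MeasureTheory Metric Filter Topology Set
open scoped ContDiff ENNReal
open Vale.Agent.P366.Stmt Vale.Agent.P366Z

noncomputable section

namespace Vale.Agent.P366Y.J

namespace InnH

variable {n : ℕ}

theorem dlt {ov r y ι C L U : ℝ} (r0 : 0 < r) (h1 : r ≤ ov) (h2 : ov ^ 2 ≤ 1 / y ^ 2 + r ^ 2)
    (y0 : 0 < y) (i0 : 0 ≤ ι) (L1 : 1 ≤ L) (i1 : ι * (1 + L * y ^ 2 * r ^ 2) ≤ C) (U1 : 1 ≤ U)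
    (hU : U ≤ y * r) : ∃ δ, 0 ≤ δ ∧ δ * U ≤ 1 ∧ ov ≤ r + r * δ ∧ ι ≤ C * δ := by
  have u0 : 0 < (y * r) ^ 2 := by positivity
  refine ⟨1 / (y * r) ^ 2, by positivity, ?_, ?_, ?_⟩
  · rw [div_mul_eq_mul_div, div_le_one u0]
    nlinarith
  · have e : r * (1 / (y * r) ^ 2) = 1 / y ^ 2 / r := by field_simp
    rw [e, ← sub_le_iff_le_add', le_div_iff₀ r0]
    nlinarith [mul_nonneg (sub_nonneg.2 h1) (r0.le.trans h1)]
  · rw [mul_one_div, le_div_iff₀ u0]
    refine le_trans (mul_le_mul_of_nonneg_left ?_ i0) i1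
    have := mul_le_mul_of_nonneg_right L1 u0.le
    linarith

theorem num2 {ov r β c ι C N θ m h k ν μ δ : ℝ} (r0 : 0 < r) (h1 : r ≤ ov) (h2 : ov ≤ r + r * δ)
    (d1 : δ ≤ 1) (i0 : 0 ≤ ι) (i1 : ι ≤ C * δ) (hk : |k| ≤ 2 * N) (hν : ν ≤ N)
    (hμ : μ ≤ N) (N0 : 0 ≤ N) (c0 : 0 < c) (b0 : 0 ≤ β) (b1 : β * c ≤ r)
    (hh : β * h ≤ -(r * (θ + k))) (hm : m ≤ θ / 8) (θ0 : 0 < θ)
    (hd : δ * (2 * N + 2 * C * N + C * N / c) ≤ θ / 4)
    (main : 0 ≤ ov * (k + ι * ν + m + θ / 8) + β * (h + ι * μ)) : False := by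
  have t1 : (ov - r) * k ≤ r * δ * (2 * N) :=
    (mul_le_mul_of_nonneg_left ((le_abs_self k).trans hk) (sub_nonneg.2 h1)).trans
      (mul_le_mul_of_nonneg_right (by linarith) (by linarith))
  have t2 : ι * N ≤ C * δ * N := mul_le_mul_of_nonneg_right i1 N0
  have t3 : 0 ≤ ι * N := mul_nonneg i0 N0
  have t4 := mul_le_mul_of_nonneg_left hν i0
  have t5 := mul_le_mul_of_nonneg_left hμ i0
  have t6 := mul_le_mul_of_nonneg_left d1 r0.le
  have t7 : ov * (ι * ν + m + θ / 8) ≤ 2 * r * (C * δ * N + θ / 4) :=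
    (mul_le_mul_of_nonneg_left (by linarith) (r0.le.trans h1)).trans
      (mul_le_mul_of_nonneg_right (by linarith) (by linarith))
  have t8 : β * (ι * μ) ≤ r / c * (C * δ * N) :=
    (mul_le_mul_of_nonneg_left (t5.trans t2) b0).trans
      (mul_le_mul_of_nonneg_right ((le_div_iff₀ c0).2 b1) (t3.trans t2))
  have t9 := mul_le_mul_of_nonneg_left hd r0.le
  have t10 : r / c * (C * δ * N) = r * δ * (C * N / c) := by ring
  have t11 := mul_pos r0 θ0
  linarith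

theorem cont_ns {g T : Field n} (hg : Met g) (hT : ∀ i j, Smooth fun x => T x i j) :
    Continuous (normSq g T) :=
  continuous_finsetSum _ fun i _ => continuous_finsetSum _ fun j _ =>
    continuous_finsetSum _ fun k _ => continuous_finsetSum _ fun l _ =>
      (((hg.sm_up i k).cont.mul (hg.sm_up j l).cont).mul (hT i j).cont).mul (hT k l).cont

theorem pr2_lin (a A B : Mx n) (s t : ℝ) :
    pr2 a (fun i j => s * A i j + t * B i j) = s * pr2 a A + t * pr2 a B := by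
  simp only [pr2, mul_add, Finset.sum_add_distrib, Finset.mul_sum, mul_left_comm]

theorem sq_smul (g : Field n) (x : E n) (e : ℝ) (q : Vc n) :
    sq g x (e • q) = e ^ 2 * sq g x q := by
  simp only [sq, Pi.smul_apply, smul_eq_mul, Finset.mul_sum]
  exact Finset.sum_congr rfl fun i _ => Finset.sum_congr rfl fun j _ => by ring

theorem pr2_hess (a : Mx n) (g : Field n) (f : E n → ℝ) (x : E n) : pr2 a (hess g f x) =
    pr2 a (D2 f x) - pr2 a fun i j => ∑ k, chr g k i j x * D1 f x k := by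
  simp only [pr2, hess, D2, D1, mul_sub, Finset.sum_sub_distrib]

variable {X : Dat n}

theorem lt_R (hX : X.Ok) {x : E n} (hx : X.F x ≤ X.s₀) : ‖x‖ < X.R := by
  by_contra h
  exact absurd (hX.far x (not_lt.1 h)) (not_lt.2 hx)

theorem cpt (hX : X.Ok) : IsCompact {x | X.F x ≤ X.s₀} :=
  (isCompact_closedBall (0 : E n) X.R).of_isClosed_subset
    (isClosed_le hX.smF.cont continuous_const) fun x hx => by simpa using (lt_R hX hx).le

theorem bd (hX : X.Ok) {u : E n → ℝ} (hu : Continuous u) :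
    ∃ Q ≥ (1 : ℝ), ∀ x, X.F x ≤ X.s₀ → u x ≤ Q := by
  obtain ⟨M, hM⟩ := (cpt hX).exists_bound_of_continuousOn hu.continuousOn
  exact ⟨max M 1, le_max_right _ _, fun x hx =>
    ((le_abs_self _).trans (hM x hx)).trans (le_max_left _ _)⟩

theorem lo (hX : X.Ok) : ∃ c > (0 : ℝ), ∀ x, |X.F x| ≤ X.s₀ → c ≤ gn X.g X.F x :=
  ((cpt hX).of_isClosed_subset (isClosed_le hX.smF.cont.abs continuous_const)
    fun x hx => (le_abs_self (X.F x)).trans hx).exists_forall_le'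
    ((mg hX).sm_ip hX.smF hX.smF).cont.sqrt.continuousOn fun x hx =>
      (gn_nonneg _ _ _).lt_of_ne' (hX.reg x hx)

theorem abs_le_of {a b N : ℝ} (N1 : 1 ≤ N) (h : a ^ 2 ≤ b) (hb : b ≤ N) : |a| ≤ N :=
  abs_le_of_sq_le_sq' (by nlinarith) (by linarith) |> abs_le.2

end InnH

open InnH in
/-- **JINN** -/
theorem jinn_of (hG : GA) (hP : PROF) (hT : TOUCH) (hA : ALG) (hH : HCP) (hS : JSUP) : JINN := by
  intro n X hX
  have hg := mg hX
  have s0 := hX.s0
  obtain ⟨θ0, θ1, k1⟩ := hX.θ0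
  have n3 : (3 : ℝ) ≤ n := by exact_mod_cast hX.dim
  obtain ⟨Cg, Cg1, hG⟩ := hG
  obtain ⟨Q, Q1, hQ⟩ := bd hX (hg.sm_ip hX.smF hX.smF).cont
  obtain ⟨N, N1, hN⟩ := bd hX ((continuous_const (y := (n : ℝ))).mul
    ((cont_ns hg hX.smK).max (cont_ns hg (hg.sm_hess hX.smF))))
  obtain ⟨c, c0, hc⟩ := lo hX
  obtain ⟨Cp, -, hP⟩ := hP (X.θ₀ / (8 * Q * Cg)) (by positivity) (X.s₀ / 16) (by positivity)
    (16 / X.s₀) (by positivity)
  obtain ⟨B, hB⟩ : ∃ B, B = 2 * N + 2 * Cg * N + Cg * N / c := ⟨_, rfl⟩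
  have B0 : 0 ≤ B := by rw [hB]; positivity
  obtain ⟨U, hU⟩ : ∃ U, U = 1 + 4 * B / X.θ₀ := ⟨_, rfl⟩
  have U1 : 1 ≤ U := by rw [hU]; exact le_add_of_nonneg_right (by positivity)
  refine ⟨max (max Cg Cp) (max (32 / X.θ₀) (U / (16 / X.s₀ * c))),
    fun P hC s l A ψ f hs hl hψ hf => ?_⟩
  obtain ⟨-, L1, τ0, -, F1, -⟩ := hC.hP.pos
  have φ0 := hC.hP.φ0.1
  have big := fun C' e => (hC.mono (C' := C') e).big
  obtain ⟨b, b0, b1, b2, b3, b4, b5, b6⟩ := hP P.L P.F₀ F1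
    (big Cp ((le_max_right _ _).trans (le_max_left _ _))).b5
  have m1 : P.τ * (4 * P.F₀) ≤ X.θ₀ / 8 := by
    have := (big _ ((le_max_left _ _).trans (le_max_right _ _))).b2
    rw [div_mul_eq_mul_div, div_le_one θ0] at this
    linarith
  have m2 : U ≤ P.φ₀ * (16 / X.s₀ * P.F₀ * c) := by
    have := (big _ ((le_max_right _ _).trans (le_max_right _ _))).b6
    rw [div_le_iff₀ (by positivity)] at this
    linarith
  have κs : 16 / X.s₀ * X.s₀ = 16 := div_mul_cancel₀ _ s0.ne'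
  obtain ⟨bt, hbt⟩ : ∃ bt : ℝ → ℝ, bt = fun z => 4 * P.F₀ - b (z + X.s₀ / 8) := ⟨_, rfl⟩
  have bt0 : ContDiff ℝ ∞ bt :=
    hbt ▸ contDiff_const.sub (b0.comp (contDiff_id.add contDiff_const))
  have bt1 : deriv bt = fun z => -deriv b (z + X.s₀ / 8) := funext fun z => by
    rw [hbt, deriv_const_sub, deriv_comp_add_const]
  have bt2 : ∀ z, deriv (deriv bt) z = -deriv (deriv b) (z + X.s₀ / 8) := fun z => by
    rw [bt1, deriv.fun_neg, deriv_comp_add_const]
  have w0 : Smooth fun y => bt (X.F y) := bt0.comp hX.smF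
  suffices key : ∀ x, X.F x ≤ X.s₀ → bt (X.F x) ≤ f x by
    intro x hx
    refine le_trans ?_ (key x (by linarith))
    rw [hbt]
    show _ ≤ 4 * P.F₀ - b (X.F x + X.s₀ / 8)
    rcases le_total (X.F x + X.s₀ / 8) 0 with h | h
    · rw [b1 _ h]
      linarith
    · have h1 := (b5 _ h).trans (mul_le_mul_of_nonneg_left
        (by linarith : X.F x + X.s₀ / 8 ≤ X.s₀ / 8) (by positivity))
      have h2 : 16 / X.s₀ * P.F₀ * (X.s₀ / 8) = 2 * P.F₀ := by
        linear_combination P.F₀ / 8 * κs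
      linarith
  intro x₀ hx₀
  obtain ⟨x, hx, hmin⟩ := (cpt hX).exists_isMinOn ⟨x₀, hx₀⟩
    (hf.sm.cont.sub w0.cont).continuousOn
  have hx : X.F x ≤ X.s₀ := hx
  by_contra hneg
  have hlt : f x < 4 * P.F₀ - b (X.F x + X.s₀ / 8) := by
    have h1 : f x - bt (X.F x) ≤ f x₀ - bt (X.F x₀) := hmin hx₀
    have h2 : bt (X.F x) = 4 * P.F₀ - b (X.F x + X.s₀ / 8) := by rw [hbt]
    linarith [not_le.1 hneg]
  have hs₀ : X.F x < X.s₀ := by
    by_contra h
    have h1 := (mul_le_mul_of_nonneg_left (by linarith [not_lt.1 h] :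
      17 / 16 * X.s₀ ≤ X.F x + X.s₀ / 8 - X.s₀ / 16) (by positivity)).trans
      (b6 (X.F x + X.s₀ / 8) (by linarith [not_lt.1 h]))
    have h2 : 16 / X.s₀ * P.F₀ * (17 / 16 * X.s₀) = 17 * P.F₀ := by
      linear_combination 17 / 16 * P.F₀ * κs
    have h3 := (abs_le.1 (hS n X P s l 1 A ψ f hX hC.hP hC.fo hs hl ⟨zero_le_one, le_rfl⟩ hψ hf x)).1
    linarith
  have hR := lt_R hX hx
  have R1 := hX.R1
  have hloc : IsLocalMin (fun y => f y - bt (X.F y)) x := hmin.isLocalMin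
    (mem_of_superset ((isOpen_lt hX.smF.cont continuous_const).mem_nhds hs₀) fun y hy =>
      show X.F y ≤ X.s₀ from le_of_lt hy)
  obtain ⟨z1, z2, z3, z4, z5⟩ := b2 (X.F x + X.s₀ / 8)
  obtain ⟨H1, H2, H3⟩ := hH n X.g bt X.F x bt0 hX.smF
  rw [bt1] at H1
  simp only [bt2] at H2
  simp only [bt1] at H2
  have t0 : 0 ≤ ip X.g f f x := hg.ip_nonneg f x
  have ga := hG P hC.hP (big Cg ((le_max_left _ _).trans (le_max_left _ _))) (ψ x) (hψ.bd x) _ t0
  have y0 : 0 < ψ x := φ0.trans_le (hψ.bd x).1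
  have i0 : 0 ≤ io P (ψ x) (ip X.g f f x) := le_trans (by positivity) ga.io1
  have i1 : 1 - P.Gs (ψ x) (ip X.g f f x) * sq X.g x (D1 f x) = io P (ψ x) (ip X.g f f x) := by
    rw [io, mul_comm]
    rfl
  have i2 : io P (ψ x) (ip X.g f f x) ≤ 1 := sub_le_self _ (mul_nonneg t0 ga.Gs0)
  obtain ⟨-, a1, -, a2, a3, a4⟩ := hA n X.g x _ (D1 f x) hg ga.Gs0 (by linarith)
  obtain ⟨e1, e2⟩ := hT n f _ x _ (hf.sm.c2 x) (w0.c2 x) hloc a1
  have e3 := geo hX hf (x := x) (by linarith)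
  rw [ag_eq, rc_one (by linarith) (by linarith), one_mul,
    show sq X.g x (D1 f x) = ip X.g f f x from rfl] at e3
  have e4 : cap X P s x (f x) ≤ X.θ₀ / 8 := by
    rw [cap, rc_one (by linarith) (by linarith), hX.pin x hx]
    have h1 := monotone_of_deriv_nonneg (hC.hP.smT.differentiable (by simp))
      (fun z => τ0.le.trans (hC.hP.Td z)) (show f x ≤ 4 * P.F₀ by linarith)
    rw [hC.hP.Tl (4 * P.F₀) (abs_of_nonneg (by linarith)).le] at h1
    linarith
  have e5 : D1 f x = -deriv b (X.F x + X.s₀ / 8) • D1 X.F x := e1.trans H1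
  have e6 : ip X.g f f x = (deriv b (X.F x + X.s₀ / 8) * gn X.g X.F x) ^ 2 := by
    rw [mul_pow, hg.gn_sq, ← H3, ← neg_sq, ← sq_smul, ← e5]
    rfl
  have e7 := a2 _ _ e5
  rw [i1, H3, ← hg.gn_sq X.F] at e7
  have G0 := gn_nonneg X.g X.F x
  have G1 : gn X.g X.F x ^ 2 ≤ Q := (hg.gn_sq _ x).trans_le (hQ x hx)
  have G2 : gn X.g X.F x ≤ Q := (le_abs_self _).trans (abs_le_of Q1 le_rfl G1)
  have hK := a4 X.K (hX.syK x)
  have hF := a4 (hess X.g X.F) (hg.hess_sy (hX.smF.c2 x))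
  have o0 := ga.om0
  have o1 := ga.om1
  have o2 := ga.om2
  have o3 := ga.ric
  have o4 := ga.io2
  have e8 := sub_le_sub_right e2 (pr2 (am X.g x (P.Gs (ψ x) (ip X.g f f x)) (D1 f x))
    fun i j => ∑ k, chr X.g k i j x * D1 f x k)
  rw [← pr2_hess] at e8
  replace e8 := ((pr2_hess _ X.g _ x).trans (by rw [← e1])).trans_le e8
  rw [show hess X.g (fun y => bt (X.F y)) x = _ from funext fun i => funext (H2 i), pr2_lin, e7,
    e3] at e8
  have e9 := a4 (fun y i j => -1 * X.K y i j + -X.k₀ * X.g y i j)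
    fun i j => by simp only [hX.syK x i j, hg.sy x i j]
  have th : thetaPlus X.g X.K X.F x =
    trS X.g (hess X.g X.F) X.F x / gn X.g X.F x + trS X.g X.K X.F x := rfl
  have hN1 : n * max (normSq X.g X.K x) (normSq X.g (hess X.g X.F) x) ≤ N := hN x hx
  simp only [i1] at hK hF
  have a5 : (2 : ℝ) ≤ n - P.Gs (ψ x) (ip X.g f f x) * sq X.g x (D1 f x) := by linarith
  rw [← a3] at a5
  generalize am X.g x (P.Gs (ψ x) (ip X.g f f x)) (D1 f x) = a at *
  generalize io P (ψ x) (ip X.g f f x) = ι at *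
  generalize P.om (ψ x) (ip X.g f f x) = ov at *
  generalize deriv (deriv b) (X.F x + X.s₀ / 8) = γ at *
  generalize hβ : deriv b (X.F x + X.s₀ / 8) = β at *
  generalize cap X P s x (f x) = m at *
  generalize hGn : gn X.g X.F x = G at *
  have r0 : 0 ≤ β * G := mul_nonneg z2 G0
  rw [e6] at o1 o2 o3 o4
  have r1 : β * G ≤ ov := (abs_le_of_sq_le_sq' (by linarith) o0.le).2
  rw [Real.sqrt_mul (by linarith), Real.sqrt_sq r0] at o3
  have main : 0 ≤ ov * (pr2 a (X.K x) + m + X.θ₀ / 8) + β * pr2 a (hess X.g X.F x) := by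
    have h0 := Real.sqrt_nonneg P.L
    have h1 := mul_le_mul_of_nonneg_left G2 (mul_nonneg h0 r0)
    have h2 : (1 + √P.L * β) * G ^ 2 ≤ Q * (1 + √P.L * (β * G)) := by linarith
    have h3 := mul_le_mul_of_nonneg_right z5 (mul_nonneg (sq_nonneg G) i0)
    have h4 : (1 + √P.L * β) * G ^ 2 * ι ≤ Q * (Cg * ov) :=
      (mul_le_mul_of_nonneg_right h2 i0).trans (by
        have := mul_le_mul_of_nonneg_left o3 (zero_le_one.trans Q1)
        linarith)
    have h5 := mul_le_mul_of_nonneg_left h4 (by positivity : 0 ≤ X.θ₀ / (8 * Q * Cg))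
    have h6 : X.θ₀ / (8 * Q * Cg) * (Q * (Cg * ov)) = ov * (X.θ₀ / 8) := by field_simp
    linarith
  rcases le_total (X.F x) (-(X.s₀ / 16)) with h | h
  · have h1 := e9.2.2.1 fun ξ => by
      have := hX.neg x h ξ
      simp only [add_mul, Finset.sum_add_distrib, mul_assoc, ← Finset.mul_sum] at this ⊢
      linarith
    have h2 : 0 ≤ -1 * pr2 a (X.K x) + -X.k₀ * pr2 a (X.g x) := (pr2_lin a _ _ _ _) ▸ h1
    have h3 := mul_le_mul_of_nonneg_left a5 (zero_le_one.trans k1)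
    have h4 : β * pr2 a (hess X.g X.F x) ≤ X.k₀ / 4 * ov := by
      rcases le_total (X.F x) (-(X.s₀ / 8)) with h' | h'
      · rw [← hβ, (b3 _ (by linarith)).1, zero_mul]
        positivity
      · have h5 := hX.hes x h' h
        rw [← hg.gn_sq X.F, hGn] at h5
        have h6 : pr2 a (hess X.g X.F x) ≤ X.k₀ / 4 * G :=
          (abs_le_of_sq_le_sq' (by linarith [hF.1]) (by positivity)).2
        have h7 := mul_le_mul_of_nonneg_left h6 z2
        have h8 := mul_le_mul_of_nonneg_left r1 (by positivity : 0 ≤ X.k₀ / 4)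
        linarith
    have h9 := mul_pos o0 (show 0 < -(pr2 a (X.K x) + m + X.θ₀ / 8 + X.k₀ / 4) by linarith)
    linarith
  · have h1 : c ≤ G := hGn ▸ hc x (abs_le.2 ⟨by linarith, hx⟩)
    have G3 : 0 < G := c0.trans_le h1
    have h2 : β = 16 / X.s₀ * P.F₀ := hβ ▸ b4 _ (by linarith)
    have β0 : 0 < β := by rw [h2]; positivity
    obtain ⟨ν, v1, -, v2⟩ := hK.2.2.2 X.F _ (hGn ▸ G3.ne') e5
    obtain ⟨μ, u1, -, u2⟩ := hF.2.2.2 X.F _ (hGn ▸ G3.ne') e5
    have p1 := mul_le_mul_of_nonneg_left (le_max_left (normSq X.g X.K x)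
      (normSq X.g (hess X.g X.F) x)) (Nat.cast_nonneg (α := ℝ) n)
    have p2 := mul_le_mul_of_nonneg_left (le_max_right (normSq X.g X.K x)
      (normSq X.g (hess X.g X.F) x)) (Nat.cast_nonneg (α := ℝ) n)
    have p3 := mul_le_mul_of_nonneg_right n3 hK.2.1
    have p4 := mul_le_mul_of_nonneg_right n3 hF.2.1
    have q1 := abs_le_of N1 v1 (by linarith [hK.2.1])
    have q2 := abs_le_of N1 u1 (by linarith [hF.2.1])
    have q3 := abs_le.1 (abs_le_of N1 hK.1 (by linarith))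
    have q4 : |ι * ν| ≤ N := by
      rw [abs_mul, abs_of_nonneg i0]
      exact (mul_le_of_le_one_left (abs_nonneg _) i2).trans q1
    have h3 := mul_le_mul_of_nonneg_left h1 β0.le
    obtain ⟨δ, d0, d1, d2, d3⟩ := dlt (mul_pos β0 G3) r1 o2 y0 i0 L1 o4 U1
      (m2.trans (mul_le_mul (hψ.bd x).1 (h2 ▸ h3) (by positivity) y0.le))
    have h4 := hX.trap x h hx
    rw [th, ← le_sub_iff_add_le, div_le_iff₀ G3] at h4
    have h5 := mul_le_mul_of_nonneg_left h4 β0.le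
    have h6 : δ * (4 * B / X.θ₀) ≤ 1 := by
      rw [hU] at d1
      linarith
    rw [← mul_div_assoc, div_le_one θ0] at h6
    rw [v2, u2] at main
    refine num2 (mul_pos β0 G3) r1 d2 ((le_mul_of_one_le_right d0 U1).trans d1) i0 d3
      (abs_le.2 ⟨?_, ?_⟩) ((le_abs_self _).trans q1) ((le_abs_self _).trans q2) (by linarith) c0
      β0.le h3 (by linarith) e4 θ0 (by rw [← hB]; linarith) main
    · linarith [(abs_le.1 q4).2]
    · linarith [(abs_le.1 q4).1]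

end Vale.Agent.P366Y.J
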