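import Vale.Agent.P366Y.J.Defs
import Mathlib.Analysis.Real.Pi.Bounds

/-!
# P366Y, block E: the dead core
-/

open MeasureTheory Metric Filter Topology Set
open scoped ContDiff ENNReal
open Vale.Agent.P366.Stmt Vale.Agent.P366Z

set_option linter.all false

noncomputable section

namespace Vale.Agent.P366Y.J

namespace OutH

variable {n : ℕ}

theorem capl {P : Pa} (hP : P.Ok) {e s z : ℝ} (he : e = 1 ∨ e = -1) (hs : 0 < s) (h : s < e * z) :
    0 ≤ e * P.T₁ z ∧ 3 / 4 ≤ e * Real.arctan (z / s) := by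
  obtain ⟨p1, p2, p3, p4, p5, -⟩ := hP.pos
  have m : Monotone P.T₁ := monotone_of_deriv_nonneg (hP.smT.differentiable (by simp))
    fun z => p3.le.trans (hP.Td z)
  have z0 : P.T₁ 0 = 0 := by rw [hP.Tl 0 (by rw [abs_zero]; linarith), mul_zero]
  have a1 : ∀ u : ℝ, s < u → 3 / 4 ≤ Real.arctan (u / s) := fun u hu => by
    have := Real.arctan_strictMono.monotone ((one_le_div hs).2 hu.le)
    rw [Real.arctan_one] at this
    linarith [Real.pi_gt_three]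
  rcases he with rfl | rfl
  · rw [one_mul] at h
    rw [one_mul, one_mul]
    exact ⟨z0 ▸ m (by linarith), a1 z h⟩
  · have := a1 _ h
    rw [neg_one_mul, neg_div, Real.arctan_neg] at this
    have k := m (show z ≤ 0 by linarith)
    constructor <;> linarith

theorem pr2_hess (a : Mx n) (g : Field n) (f : E n → ℝ) (x : E n) :
    pr2 a (hess g f x) = pr2 a (D2 f x) - pr2 a fun i j => ∑ k, chr g k i j x * D1 f x k := by
  simp only [pr2, hess, D2, D1, mul_sub, Finset.sum_sub_distrib]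

theorem pr2_lin (a A B : Mx n) (s t : ℝ) :
    pr2 a (fun i j => s * A i j + t * B i j) = s * pr2 a A + t * pr2 a B := by
  simp only [pr2, Finset.mul_sum, ← Finset.sum_add_distrib]
  exact Finset.sum_congr rfl fun i _ => Finset.sum_congr rfl fun j _ => by ring

theorem pr2_mul (a A : Mx n) (s : ℝ) : pr2 a (fun i j => s * A i j) = s * pr2 a A := by
  simpa using pr2_lin a A A s 0

theorem hess_mul (g : Field n) (e : ℝ) (f : E n → ℝ) (x : E n) :
    hess g (fun y => e * f y) x = fun i j => e * hess g f x i j := by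
  funext i j
  have k : ∀ j, pd j (fun y => e * f y) = fun y => e * pd j f y := fun j =>
    funext fun _ => pd_const_mul e j
  simp only [hess, k, pd_const_mul, mul_sub, Finset.mul_sum]
  exact congrArg _ (Finset.sum_congr rfl fun l _ => by ring)

theorem hess_sub (g : Field n) (c : ℝ) (f : E n → ℝ) (x : E n) :
    hess g (fun y => c - f y) x = fun i j => -1 * hess g f x i j := by
  funext i j
  have k : ∀ j, pd j (fun y => c - f y) = fun y => -pd j f y := fun j =>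
    funext fun _ => pd_const_sub c j
  simp only [hess, k, pd_neg, mul_neg, Finset.sum_neg_distrib]
  ring

theorem sq_smul (g : Field n) (x : E n) (t : ℝ) (q : Vc n) :
    sq g x (t • q) = t ^ 2 * sq g x q := by
  simp only [sq, Finset.mul_sum, Pi.smul_apply, smul_eq_mul]
  exact Finset.sum_congr rfl fun i _ => Finset.sum_congr rfl fun j _ => by ring

theorem ar {L β σ Q : ℝ} (hβ : 0 ≤ β) (h0 : 0 ≤ σ) (h1 : σ ≤ Q) (hQ : 1 ≤ Q) (hL : 0 ≤ L) :
    (1 + √L * β) * σ ≤ Q * (1 + √(L * (β ^ 2 * σ))) := by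
  rw [Real.sqrt_mul hL, Real.sqrt_mul (sq_nonneg β), Real.sqrt_sq hβ]
  have k1 : √σ ≤ Q := Real.sqrt_le_iff.2 ⟨by linarith, by nlinarith⟩
  have k2 := Real.mul_self_sqrt h0
  have k3 : 0 ≤ √L * β * √σ := by positivity
  have k4 := mul_le_mul_of_nonneg_left k1 k3
  rw [mul_assoc _ √σ, k2] at k4
  nlinarith

theorem fin1 {e ϑ N β₁ β₂ σ ι T H Q C p r : ℝ} (p0 : 0 < p) (Q1 : 1 ≤ Q) (g1 : 1 ≤ C)
    (h5 : e * (ϑ * N) ≤ β₂ * (σ * ι) + β₁ * (-1 * H)) (d1 : 0 ≤ β₁) (a3 : 0 ≤ H)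
    (d3 : β₂ ≤ p / (4 * Q * C) * r) (s0 : 0 ≤ σ) (a8 : 0 < ι) (a5 : r * σ ≤ Q * T)
    (a7 : ι * T ≤ C * ϑ) (a9 : 0 < ϑ) (a10 : p / 2 ≤ e * N) : False := by
  have m1 := mul_nonneg d1 a3
  have m2 : β₂ * (σ * ι) ≤ p / 4 * ϑ :=
    calc β₂ * (σ * ι) ≤ p / (4 * Q * C) * r * (σ * ι) :=
          mul_le_mul_of_nonneg_right d3 (mul_nonneg s0 a8.le)
      _ = p / (4 * Q * C) * ((r * σ) * ι) := by ring
      _ ≤ p / (4 * Q * C) * ((Q * T) * ι) := by gcongr
      _ = p / (4 * C) * (ι * T) := by field_simp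
      _ ≤ p / (4 * C) * (C * ϑ) := by gcongr
      _ = p / 4 * ϑ := by field_simp
  have m3 := mul_le_mul_of_nonneg_left a10 a9.le
  nlinarith [mul_pos p0 a9]

theorem fin2 {e ϑ N H U χ l z : ℝ} (q : U * H = χ * U * (ϑ * N) + (1 - χ) * l * z) (u : 0 < U)
    (a9 : 0 < ϑ) (h9 : 0 < e * N) (hl : 0 < l) (hz : 0 < e * z) (r : 0 ≤ χ ∧ χ ≤ 1)
    (h5 : e * H ≤ 0) : False := by
  have m1 : U * (e * H) = χ * (U * (ϑ * (e * N))) + (1 - χ) * (l * (e * z)) := by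
    linear_combination e * q
  have m2 : 0 < U * (ϑ * (e * N)) := by positivity
  have m3 : 0 < l * (e * z) := mul_pos hl hz
  have m4 := mul_nonpos_of_nonneg_of_nonpos u.le h5
  rcases r.1.eq_or_lt with k5 | k5
  · rw [← k5] at m1; linarith
  · linarith [mul_pos k5 m2, mul_nonneg (sub_nonneg.2 r.2) m3.le]

theorem edge {R F v s z : ℝ} (R1 : 1 ≤ R) (F1 : 1 ≤ F) (hs : 0 < s)
    (k1 : 8 * F * ((R + 1) ^ 2 - R ^ 2 - 1) ≤ v) (h1 : s + v < z) (k2 : z ≤ 8 * F) : False := by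
  nlinarith

theorem sq1 {R r : ℝ} (R1 : 1 ≤ R) (h : R + 1 ≤ r) : (R + 1) ^ 2 - r ^ 2 ≤ 0 := by nlinarith

/-- the comparison at a touching point -/
theorem touch (hT : TOUCH) (hA : ALG) {X : Dat n} {P : Pa} {C : ℝ} (hX : X.Ok) (hP : P.Ok)
    {ψ f w : E n → ℝ} {x : E n} {e : ℝ} (hf : Smooth f) (hw : Smooth w)
    (hG : ∀ t ≥ (0 : ℝ), Ga P C (ψ x) t) (hm : IsLocalMin (fun y => w y - e * f y) x) :
    (0 ≤ rc (X.R + 7) x * P.Gs (ψ x) (sq X.g x (D1 f x)) ∧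
      rc (X.R + 7) x * P.Gs (ψ x) (sq X.g x (D1 f x)) * sq X.g x (D1 f x) ≤ 1) ∧
    D1 w x = e • D1 f x ∧ e * pr2 (ag X P ψ x (D1 f x)) (hess X.g f x) ≤
      pr2 (ag X P ψ x (D1 f x)) (hess X.g w x) := by
  have t0 : 0 ≤ sq X.g x (D1 f x) := (mg hX).up_nonneg x _
  have G := hG _ t0
  have r := rc_mem (X.R + 7) x
  have c0 := mul_nonneg r.1 G.Gs0
  have c1 : rc (X.R + 7) x * P.Gs (ψ x) (sq X.g x (D1 f x)) * sq X.g x (D1 f x) ≤ 1 := by
    have k1 := G.io1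
    have k2 : 0 < 1 / (1 + 4 * P.L * sq X.g x (D1 f x)) := by
      have := hP.pos.2.1
      positivity
    have k3 := mul_nonneg G.Gs0 t0
    unfold io at k1
    nlinarith
  have hs : Smooth fun y => e * f y := contDiff_const.mul hf
  obtain ⟨k1, k2⟩ := hT n w (fun y => e * f y) x _ (hw.c2 x) (hs.c2 x) hm
    (hA n X.g x _ (D1 f x) (mg hX) c0 c1).2.1
  refine ⟨⟨c0, c1⟩, k1.trans (funext fun i => pd_const_mul e i), ?_⟩
  rw [← pr2_mul, ← hess_mul, pr2_hess, pr2_hess, k1, ag_eq]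
  linarith

/-- the sign of the right hand side -/
theorem rhs (hA : ALG) {X : Dat n} {P : Pa} (hX : X.Ok) (hP : P.Ok) {c e s z : ℝ} {x : E n}
    {p : Vc n} (he : e = 1 ∨ e = -1) (hs : 0 < s) (h : s < e * z) (hx : X.R ≤ ‖x‖) (c0 : 0 ≤ c)
    (c1 : c * sq X.g x p ≤ 1) : 0 < e * (pr2 (am X.g x c p) (X.K x) + cap X P s x z) ∧
      (‖x‖ ≤ X.R + 3 → X.p₀ / 2 ≤ e * (pr2 (am X.g x c p) (X.K x) + cap X P s x z)) := by
  obtain ⟨k1, k2⟩ := capl hP he hs h
  have p0 := hX.p0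
  have p1 := hP.pos.2.2.2.2.2.2.1
  have r := rc_mem (X.R + 3) x
  have e1 : e * (pr2 (am X.g x c p) (X.K x) + cap X P s x z) = e * pr2 (am X.g x c p) (X.K x) +
      e * P.T₁ z + (rc (X.R + 3) x * X.p₀ + (1 - rc (X.R + 3) x) * P.p₁) *
        (e * Real.arctan (z / s)) := by
    rw [cap, (hX.pout x hx).1]; ring
  have e2 : ‖x‖ ≤ X.R + 3 → X.p₀ / 2 ≤ e * (pr2 (am X.g x c p) (X.K x) + cap X P s x z) :=
    fun k => by
      have k3 := ((hA n X.g x c p (mg hX) c0 c1).2.2.2.2.2 X.K (hX.syK x)).1.trans (hX.pout x hx).2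
      have k4 := abs_le.1 (abs_le_of_sq_le_sq' k3 (by linarith) |> abs_le.2)
      rw [e1, rc_one (by linarith [hX.R1]) k]
      have k5 : -(X.p₀ / 4) ≤ e * pr2 (am X.g x c p) (X.K x) := by
        rcases he with rfl | rfl <;> linarith [k4.1, k4.2]
      nlinarith
  refine ⟨?_, e2⟩
  rcases le_total ‖x‖ (X.R + 3) with k | k
  · linarith [e2 k]
  · have k3 : pr2 (am X.g x c p) (X.K x) = 0 := by simp [pr2, hX.K0 x k]
    have k4 : 0 < rc (X.R + 3) x * X.p₀ + (1 - rc (X.R + 3) x) * P.p₁ := by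
      rcases r.1.eq_or_lt with k5 | k5
      · rw [← k5]; linarith
      · nlinarith [mul_pos k5 p0, mul_nonneg (sub_nonneg.2 r.2) p1.le]
    rw [e1, k3]
    nlinarith

end OutH

open OutH in
/-- **JOUT** -/
theorem jout_of (hG : GA) (hB : PROF) (hT : TOUCH) (hA : ALG) (hH : HCP) (hS : JSUP) : JOUT := by
  intro n X hX
  obtain ⟨Cg, g1, hG⟩ := hG
  have R1 := hX.R1
  have p0 := hX.p0
  have sr : Smooth fun y : E n => ‖y‖ ^ 2 := contDiff_normSq
  have sF : Smooth fun y : E n => (X.R + 1) ^ 2 - ‖y‖ ^ 2 := contDiff_const.sub contDiff_normSq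
  obtain ⟨Q₀, hQ₀⟩ := (isCompact_closedBall (0 : E n) (X.R + 1)).bddAbove_image
    ((mg hX).sm_ip sF sF).cont.continuousOn
  obtain ⟨Q, Q1, hQ⟩ : ∃ Q ≥ (1 : ℝ), ∀ y : E n, ‖y‖ ≤ X.R + 1 →
      ip X.g (fun y => (X.R + 1) ^ 2 - ‖y‖ ^ 2) (fun y => (X.R + 1) ^ 2 - ‖y‖ ^ 2) y ≤ Q :=
    ⟨max 1 Q₀, le_max_left _ _, fun y hy =>
      (hQ₀ ⟨y, mem_closedBall_zero_iff.2 hy, rfl⟩).trans (le_max_right _ _)⟩
  obtain ⟨Cp, -, hB⟩ := hB (X.p₀ / (4 * Q * Cg)) (by positivity) 1 one_pos 8 (by norm_num)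
  refine ⟨max Cg Cp, fun P hC s l A ψ f hs hl hψ hf => ?_⟩
  have hP := hC.hP
  obtain ⟨p1, p2, p3, p4, p5, -⟩ := hP.pos
  obtain ⟨b, b1, b2, b3, b4, -, -, b5⟩ := hB P.L P.F₀ p5 (hC.mono (le_max_right _ _)).big.b5
  have hG' := fun x => hG P hP (hC.mono (le_max_left _ _)).big (ψ x) (hψ.bd x)
  have sup := hS n X P s l 1 A ψ f hX hP hC.fo hs hl ⟨zero_le_one, le_rfl⟩ hψ hf
  have sB : ContDiff ℝ ∞ fun z => s + b z := contDiff_const.add b1
  have dB : deriv (fun z => s + b z) = deriv b := funext fun z => deriv_const_add s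
  have sw : Smooth fun y : E n => s + b ((X.R + 1) ^ 2 - ‖y‖ ^ 2) := sB.comp sF
  have key : ∀ e : ℝ, e = 1 ∨ e = -1 → ∀ x : E n, X.R ≤ ‖x‖ →
      e * f x ≤ s + b ((X.R + 1) ^ 2 - ‖x‖ ^ 2) := by
    intro e he x₀ hx₀
    by_contra h0
    have ab : ∀ y, e * f y ≤ |f y| := fun y => by
      rcases he with rfl | rfl
      · rw [one_mul]; exact le_abs_self _
      · rw [neg_one_mul]; exact neg_le_abs _
    obtain ⟨x, hx, hm⟩ := ContinuousOn.exists_isMinOn' (s := {y : E n | X.R ≤ ‖y‖})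
      (f := fun y => s + b ((X.R + 1) ^ 2 - ‖y‖ ^ 2) - e * f y)
      (sw.cont.sub (continuous_const.mul hf.sm.cont)).continuousOn
      (isClosed_le continuous_const continuous_norm) hx₀ (by
        refine mem_inf_of_left ((hf.lim.abs.eventually (gt_mem_nhds (by simpa using hs))).mono
          fun y hy => ?_)
        have := (b3 ((X.R + 1) ^ 2 - ‖y‖ ^ 2)).1
        have := ab y
        show _ ≤ _
        linarith [not_le.1 h0])
    replace hx : X.R ≤ ‖x‖ := hx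
    have h1 : s + b ((X.R + 1) ^ 2 - ‖x‖ ^ 2) < e * f x := by
      have : s + b ((X.R + 1) ^ 2 - ‖x‖ ^ 2) - e * f x ≤ _ := hm hx₀
      linarith [not_le.1 h0]
    have h2 : s < e * f x := by linarith [(b3 ((X.R + 1) ^ 2 - ‖x‖ ^ 2)).1]
    have h3 : X.R < ‖x‖ := hx.lt_of_ne fun k => by
      rw [← k] at h1
      exact edge R1 p5 hs (b5 _ (by linarith [add_sq X.R 1])) h1 ((ab x).trans (sup x))
    obtain ⟨⟨c0, c1⟩, h4, h5⟩ := touch hT hA hX hP hf.sm sw (hG' x)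
      (hm.isLocalMin (mem_of_superset ((isOpen_lt continuous_const continuous_norm).mem_nhds h3)
        fun y (hy : X.R < ‖y‖) => hy.le))
    obtain ⟨h6, h7, h8⟩ := hH n X.g _ _ x sB sF
    rw [dB] at h6 h7
    obtain ⟨h9, h10⟩ := rhs hA hX hP he hs h2 hx c0 c1
    rw [← ag_eq] at h9 h10
    have t0 : 0 ≤ sq X.g x (D1 f x) := (mg hX).up_nonneg x _
    have G := hG' x _ t0
    have ee : e * e = 1 := by rcases he with rfl | rfl <;> norm_num
    have h11 : D1 f x = (e * deriv b ((X.R + 1) ^ 2 - ‖x‖ ^ 2)) •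
        D1 (fun y : E n => (X.R + 1) ^ 2 - ‖y‖ ^ 2) x := by
      rw [mul_smul, ← h6, h4, smul_smul, ee, one_smul]
    rw [show hess X.g (fun y : E n => s + b ((X.R + 1) ^ 2 - ‖y‖ ^ 2)) x = _ from
      funext fun i => funext fun j => h7 i j, pr2_lin, hess_sub, pr2_mul] at h5
    rcases le_or_gt ‖x‖ (X.R + 1) with k | k
    · obtain ⟨-, -, -, a1, -, a2⟩ := hA n X.g x _ (D1 f x) (mg hX) c0 c1
      have a3 := (a2 (hess X.g fun y => ‖y‖ ^ 2) fun i j => (mg hX).hess_sy (sr.c2 x) i j).2.2.1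
        (hX.cvx x hx (by linarith))
      have a4 := a1 _ _ h11
      rw [← ag_eq] at a3 a4
      rw [geo hX hf (by linarith), a4, rc_one (by linarith) (by linarith), one_mul] at h5
      obtain ⟨-, d1, -, d2, d3⟩ := b3 ((X.R + 1) ^ 2 - ‖x‖ ^ 2)
      have s0 : 0 ≤ sq X.g x (D1 (fun y : E n => (X.R + 1) ^ 2 - ‖y‖ ^ 2) x) :=
        (mg hX).up_nonneg x _
      have a5 := ar d1 s0 (h8 ▸ hQ x k) Q1 (show 0 ≤ P.L by linarith)
      have a6 : sq X.g x (D1 f x) = deriv b ((X.R + 1) ^ 2 - ‖x‖ ^ 2) ^ 2 *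
          sq X.g x (D1 (fun y : E n => (X.R + 1) ^ 2 - ‖y‖ ^ 2) x) := by
        rw [h11, sq_smul, mul_pow, pow_two e, ee, one_mul]
      rw [← a6] at a5
      have a7 := G.ric
      have a8 : 0 < io P (ψ x) (sq X.g x (D1 f x)) := lt_of_lt_of_le (by positivity) G.io1
      have a9 := G.om0
      have a10 := h10 (by linarith)
      rw [show ip X.g f f x = sq X.g x (D1 f x) from rfl, show 1 - P.Gs (ψ x) (sq X.g x (D1 f x)) *
        sq X.g x (D1 f x) = io P (ψ x) (sq X.g x (D1 f x)) by unfold io; ring] at h5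
      exact fin1 p0 Q1 g1 h5 d1 a3 d3 s0 a8 a5 a7 a9 a10
    · obtain ⟨d1, d2⟩ := b4 _ (sq1 R1 k.le)
      rw [d1, d2, zero_mul, zero_mul, add_zero, pr2_hess] at h5
      rw [d1, mul_zero, zero_smul] at h11
      have q := hf.eqn x
      have u := Real.rpow_pos_of_pos (U0 hX x) (2 * bb n)
      have e1 : pr2 (aJ X P ψ x (D1 f x)) (D2 f x) =
          X.U x ^ (2 * bb n) * pr2 (ag X P ψ x (D1 f x)) (D2 f x) := by
        simp only [pr2, aJ, Finset.mul_sum, mul_assoc]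
      have e2 : (pr2 (ag X P ψ x (D1 f x)) fun i j => ∑ k, chr X.g k i j x * D1 f x k) = 0 := by
        rw [h11]; simp [pr2]
      rw [e1, bJ, e2, one_mul, add_zero] at q
      rw [e2, sub_zero] at h5
      exact fin2 q u G.om0 h9 hl (hs.trans h2) (rc_mem _ x) h5
  intro x hx
  have z := b2 _ (sq1 R1 hx)
  have k1 := key 1 (.inl rfl) x (by linarith)
  have k2 := key (-1) (.inr rfl) x (by linarith)
  exact abs_le.2 ⟨by linarith, by linarith⟩

end Vale.Agent.P366Y.J
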