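import Vale.Agent.P366Y.J.Defs
import Vale.Agent.P366Z.DensB

/-!
# P366Y, block E: the profile of the barriers (row PROF)
-/

open MeasureTheory Filter Set Real
open scoped ContDiff

noncomputable section

namespace Vale.Agent.P366Y.J

namespace ProfH

theorem klog {κ T F S : ℝ} (hκ : 0 < κ) (hT : 0 < T) (hF : 1 ≤ F) (hS : 1 ≤ S) :
    log (1 + κ * F * S) ≤ (1 + κ) * T + log F + S / T := by
  have h0 : 1 ≤ F * S := one_le_mul_of_one_le_of_one_le hF hS
  have h1 : 1 + κ * F * S ≤ (1 + κ) * T * F * (S / T) := by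
    rw [show (1 + κ) * T * F * (S / T) = F * S + κ * F * S by field_simp]
    linarith
  have h2 := log_le_log (by positivity) h1
  rw [log_mul (x := (1 + κ) * T * F) (by positivity) (by positivity),
    log_mul (x := (1 + κ) * T) (by positivity) (by positivity)] at h2
  linarith [log_le_sub_one_of_pos (show 0 < (1 + κ) * T by positivity),
    log_le_sub_one_of_pos (show 0 < S / T by positivity)]

/-- the primitive -/
theorem prim {B : ℝ → ℝ} {d M : ℝ} (hd : 0 < d) (hB : ContDiff ℝ ∞ B) (h0 : ∀ z ≤ 0, B z = 0)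
    (h1 : ∀ z, 0 ≤ B z ∧ B z ≤ M) (h2 : ∀ z ≥ d, B z = M) :
    ∃ b : ℝ → ℝ, ContDiff ℝ ∞ b ∧ deriv b = B ∧ (∀ z ≤ 0, b z = 0) ∧ (∀ z, 0 ≤ b z) ∧
      (∀ z ≥ 0, b z ≤ M * z) ∧ ∀ z ≥ d, M * (z - d) ≤ b z := by
  have i1 : ∀ a b, IntervalIntegrable B volume a b := hB.continuous.intervalIntegrable
  have d1 : ∀ t, HasDerivAt (fun t => ∫ s in (0 : ℝ)..t, B s) (B t) t := fun t =>
    (hB.continuous.integral_hasStrictDerivAt 0 t).hasDerivAt
  have e1 : deriv (fun t => ∫ s in (0 : ℝ)..t, B s) = B := funext fun t => (d1 t).deriv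
  have z0 : ∀ z ≤ 0, ∫ s in (0 : ℝ)..z, B s = 0 := fun z hz => by
    rw [intervalIntegral.integral_congr (g := fun _ => 0) fun s hs => ?_,
      intervalIntegral.integral_zero]
    rw [uIcc_of_ge hz] at hs
    exact h0 s hs.2
  have p0 : ∀ z ≥ 0, 0 ≤ ∫ s in (0 : ℝ)..z, B s := fun z hz =>
    intervalIntegral.integral_nonneg hz fun s _ => (h1 s).1
  refine ⟨_, contDiff_infty_iff_deriv.2 ⟨fun t => (d1 t).differentiableAt, by rwa [e1]⟩, e1, z0,
    fun z => (le_total z 0).elim (fun h => (z0 z h).ge) (p0 z), fun z hz => ?_, fun z hz => ?_⟩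
  · have := intervalIntegral.integral_mono_on hz (i1 0 z) (intervalIntegrable_const (c := M))
      fun s _ => (h1 s).2
    rwa [intervalIntegral.integral_const, sub_zero, smul_eq_mul, mul_comm] at this
  · show _ ≤ ∫ s in (0 : ℝ)..z, B s
    rw [← intervalIntegral.integral_add_adjacent_intervals (i1 0 d) (i1 d z),
      intervalIntegral.integral_congr (a := d) (g := fun _ => M) fun s hs => ?_,
      intervalIntegral.integral_const, smul_eq_mul, mul_comm]
    · linarith [p0 d hd.le]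
    · rw [uIcc_of_le hz] at hs
      exact h2 s hs.1

end ProfH

theorem prof : PROF := by
  intro a ha d hd κ hκ
  obtain ⟨c, c0, hc⟩ := P366Z.DensH.deriv_bd
  obtain ⟨T, hT⟩ : ∃ T, T = 2 * c / (a * d) := ⟨_, rfl⟩
  have T0 : 0 < T := by rw [hT]; positivity
  obtain ⟨G, hG⟩ : ∃ G, G = (1 + κ) * T + 1 := ⟨_, rfl⟩
  have G1 : 0 < (1 + κ) * T := by positivity
  have G0 : 0 < G * T := by rw [hG]; positivity
  refine ⟨(1 + G * T) ^ 2, one_le_pow₀ (by linarith), fun L F hF hL => ?_⟩
  have l0 := log_nonneg hF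
  have s0 : (1 + G * T) * (1 + log F) ≤ √L := le_sqrt_of_sq_le (by rwa [mul_pow])
  generalize √L = S at s0 ⊢
  have s1 : 1 ≤ S := by nlinarith
  have s2 : 0 < S := by linarith
  have p0 : 0 < κ * F * S := by positivity
  obtain ⟨k, hk⟩ : ∃ k, k = log (1 + κ * F * S) := ⟨_, rfl⟩
  have k0 : 0 ≤ k := hk ▸ log_nonneg (by linarith)
  have k1 : exp k = 1 + κ * F * S := hk ▸ exp_log (by linarith)
  have k2 : k * (c / d) / S ≤ a := by
    have q1 := hk ▸ ProfH.klog hκ T0 hF s1
    have q2 : (1 + κ) * T + log F ≤ S / T := by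
      rw [le_div_iff₀ T0]
      nlinarith [mul_nonneg (mul_nonneg G1.le T0.le) l0]
    have q3 : S / T = a * S / (c / d) / 2 := by rw [hT]; field_simp
    rw [div_le_iff₀ s2, ← le_div_iff₀ (by positivity)]
    linarith
  have h1 : ∀ z, 0 ≤ (exp (k * smoothTransition (z / d)) - 1) / S ∧
      (exp (k * smoothTransition (z / d)) - 1) / S ≤ κ * F := fun z =>
    ⟨div_nonneg (sub_nonneg.2 (one_le_exp (mul_nonneg k0 (smoothTransition.nonneg _)))) s2.le, by
      rw [div_le_iff₀ s2, sub_le_iff_le_add', ← k1]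
      exact exp_le_exp.2 (mul_le_of_le_one_right k0 (smoothTransition.le_one _))⟩
  have h0 : ∀ z ≤ 0, (exp (k * smoothTransition (z / d)) - 1) / S = 0 := fun z hz => by
    rw [smoothTransition.zero_of_nonpos (div_nonpos_of_nonpos_of_nonneg hz hd.le), mul_zero,
      exp_zero, sub_self, zero_div]
  have h2 : ∀ z ≥ d, (exp (k * smoothTransition (z / d)) - 1) / S = κ * F := fun z hz => by
    rw [smoothTransition.one_of_one_le ((one_le_div hd).2 hz), mul_one, k1, add_sub_cancel_left,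
      mul_div_cancel_right₀ _ s2.ne']
  obtain ⟨b, b1, b2, b3, b4, b5, b6⟩ := ProfH.prim hd (((contDiff_const.mul
    (smoothTransition.contDiff.comp (contDiff_id.div_const d))).exp.sub
      contDiff_const).div_const S) h0 h1 h2
  have h3 : ∀ z, deriv (deriv b) z = exp (k * smoothTransition (z / d)) *
      (k * (deriv smoothTransition (z / d) * (1 / d))) / S := fun z => by
    rw [b2]
    exact ((((((smoothTransition.contDiff (n := 1)).differentiable one_ne_zero _).hasDerivAt.comp z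
      ((hasDerivAt_id z).div_const d)).const_mul k).exp.sub_const 1).div_const S).deriv
  refine ⟨b, b1, b3, fun z => ⟨b4 z, b2 ▸ (h1 z).1, b2 ▸ (h1 z).2, ?_, ?_⟩,
    fun z hz => ⟨b2 ▸ h0 z hz, ?_⟩, fun z hz => b2 ▸ h2 z hz, b5, b6⟩
  · have := smoothTransition.monotone.deriv_nonneg (x := z / d)
    rw [h3]
    positivity
  · rw [h3, b2, mul_div_assoc, mul_comm, mul_div_cancel₀ _ s2.ne', add_sub_cancel]
    refine mul_le_mul_of_nonneg_right (le_trans (div_le_div_of_nonneg_right
      (mul_le_mul_of_nonneg_left ?_ k0) s2.le) k2) (exp_pos _).le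
    rw [mul_one_div]
    exact div_le_div_of_nonneg_right ((le_abs_self _).trans (hc _)) hd.le
  · rw [b2]
    exact IsLocalMin.deriv_eq_zero (.of_forall fun w => (h0 z hz).le.trans (h1 w).1)

end Vale.Agent.P366Y.J
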