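import Vale.Agent.P366Y.J.Defs

/-!
# P366Y, block E: the bound of `f`
-/

open MeasureTheory Metric Filter Topology Set
open scoped ContDiff ENNReal
open Vale.Agent.P366.Stmt Vale.Agent.P366Z

noncomputable section

namespace Vale.Agent.P366Y.J

namespace SupH

variable {n : ℕ} {X : Dat n} {P : Pa} {s l σ A z : ℝ} {ψ : E n → ℝ} {x : E n}

theorem ag0 : ag X P ψ x 0 = am X.g x 0 0 := by
  funext i j
  simp [ag, am, rs]

theorem d1c : D1 (fun _ => (0 : ℝ)) x = 0 := funext fun i => pd_const 0 i x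

theorem d2c (a : Mx n) : pr2 a (D2 (fun _ => (0 : ℝ)) x) = 0 := by
  have : ∀ j : Fin n, pd j (fun _ : E n => (0 : ℝ)) = fun _ => 0 := fun j => funext (pd_const 0 j)
  simp [pr2, D2, this, pd_const]

theorem psd (hA : ALG) (hX : X.Ok) : Psd (aJ X P ψ x 0) := by
  obtain ⟨-, ⟨h1, h2⟩, -⟩ := hA n X.g x 0 0 (mg hX) le_rfl (by simp)
  have u := Real.rpow_pos_of_pos (U0 hX x) (2 * bb n)
  refine ⟨fun i j => by rw [aJ, aJ, ag0, h1], fun ξ => ?_⟩
  have := mul_nonneg u.le (h2 ξ)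
  simpa only [aJ, ag0, Finset.mul_sum, mul_assoc] using this

/-- the right hand side at a critical point -/
theorem b0 (hA : ALG) (hX : X.Ok) (hP : P.Ok) (hF : P.For X) (hσ : σ ∈ Icc (0 : ℝ) 1)
    (hψ : Ps X P A ψ) (x : E n) : ∃ a w k c : ℝ, 0 ≤ a ∧ a ≤ 1 ∧ 0 < w ∧ |k| ≤ P.CK ∧ 0 ≤ c ∧
      ∀ z, bJ X P s l σ ψ x z 0 =
        a * (w * (k + P.T₁ z + c * Real.arctan (z / s))) + (1 - a) * (l * z) := by
  obtain ⟨-, -, -, -, -, h⟩ := hA n X.g x 0 0 (mg hX) le_rfl (by simp)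
  have u := Real.rpow_pos_of_pos (U0 hX x) (2 * bb n)
  have r7 := rc_mem (X.R + 7) x
  have r3 := rc_mem (X.R + 3) x
  have y0 : 0 < ψ x := hP.φ0.1.trans_le (hψ.bd x).1
  have o : 0 < P.om (ψ x) (sq X.g x 0) := by
    have e : sq X.g x 0 = 0 := by simp [sq]
    rw [e, Pa.om, Pa.th, zero_div, sub_zero, Real.smoothTransition.one_of_one_le one_le_two]
    positivity
  refine ⟨σ * rc (X.R + 7) x, X.U x ^ (2 * bb n) * P.om (ψ x) (sq X.g x 0),
    pr2 (am X.g x 0 0) (X.K x), rc (X.R + 3) x * X.p x + (1 - rc (X.R + 3) x) * P.p₁,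
    mul_nonneg hσ.1 r7.1, mul_le_one₀ hσ.2 r7.1 r7.2, mul_pos u o,
    abs_le_of_sq_le_sq (((h X.K (hX.syK x)).1).trans (hF.2 x))
      (zero_le_one.trans hP.pos.2.2.2.2.2.2.2.2),
    add_nonneg (mul_nonneg r3.1 (hX.pb x).1)
      (mul_nonneg (sub_nonneg.2 r3.2) hP.pos.2.2.2.2.2.2.1.le), fun z => ?_⟩
  have e : ∀ a : Mx n, (pr2 a fun i j => ∑ k, chr X.g k i j x * (0 : Vc n) k) = 0 := fun a => by
    simp [pr2]
  rw [bJ, e, ag0, cap]
  ring

theorem cvx {a u v : ℝ} (a0 : 0 ≤ a) (a1 : a ≤ 1) (hu : 0 < u) (hv : 0 < v) :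
    0 < a * u + (1 - a) * v := by
  rcases a0.eq_or_lt with rfl | h
  · simpa using hv
  · exact add_pos_of_pos_of_nonneg (mul_pos h hu) (mul_nonneg (sub_nonneg.2 a1) hv.le)

end SupH

open SupH in
/-- **JSUP** -/
theorem jsup_of (hT : TOUCH) (hA : ALG) : JSUP := by
  intro n X P s l σ A ψ f hX hP hF hs hl hσ hψ hf x₀
  have F0 : 0 < 8 * P.F₀ := by linarith [hP.pos.2.2.2.2.1]
  have mT : StrictMono P.T₁ := strictMono_of_deriv_pos fun z => hP.pos.2.2.1.trans_le (hP.Td z)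
  refine abs_le.2 ⟨not_lt.1 fun h => ?_, not_lt.1 fun h => ?_⟩
  · obtain ⟨x, hx⟩ := hf.sm.cont.exists_forall_le' x₀
      ((hf.lim.eventually (lt_mem_nhds (show f x₀ < 0 by linarith))).mono fun _ k => k.le)
    obtain ⟨h1, h2⟩ := hT n f (fun _ => 0) x _ (hf.sm.c2 x) contDiffAt_const
      (Eventually.of_forall fun y => by simpa using hx y) (psd (P := P) (ψ := ψ) (x := x) hA hX)
    obtain ⟨a, w, k, c, a0, a1, w0, hk, c0, e⟩ := b0 (s := s) (l := l) hA hX hP hF hσ hψ x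
    have h3 := hf.eqn x
    rw [h1, d1c, e] at h3
    rw [d2c, h3] at h2
    have h4 : f x < -(8 * P.F₀) := (hx x₀).trans_lt h
    have h5 : 0 ≤ c * -Real.arctan (f x / s) := mul_nonneg c0 (neg_nonneg.2
      (Real.arctan_le_zero.2 (div_nonpos_of_nonpos_of_nonneg (by linarith) hs.le)))
    have h6 := cvx a0 a1 (mul_pos w0 (show 0 < -(k + P.T₁ (f x) + c * Real.arctan (f x / s)) by
      linarith [mT h4, hP.Tu.2, (abs_le.1 hk).2])) (mul_pos hl (show 0 < -f x by linarith))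
    linarith
  · obtain ⟨x, hx⟩ := hf.sm.cont.exists_forall_ge' x₀
      ((hf.lim.eventually (gt_mem_nhds (show 0 < f x₀ by linarith))).mono fun _ k => k.le)
    obtain ⟨h1, h2⟩ := hT n (fun _ => 0) f x _ contDiffAt_const (hf.sm.c2 x)
      (Eventually.of_forall fun y => by simpa using hx y) (psd (P := P) (ψ := ψ) (x := x) hA hX)
    obtain ⟨a, w, k, c, a0, a1, w0, hk, c0, e⟩ := b0 (s := s) (l := l) hA hX hP hF hσ hψ x
    have h3 := hf.eqn x
    rw [← h1, d1c, e] at h3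
    rw [d2c, h3] at h2
    have h4 : 8 * P.F₀ < f x := h.trans_le (hx x₀)
    have h5 : 0 ≤ c * Real.arctan (f x / s) :=
      mul_nonneg c0 (Real.arctan_nonneg.2 (div_nonneg (by linarith) hs.le))
    have h6 := cvx a0 a1 (mul_pos w0 (show 0 < k + P.T₁ (f x) + c * Real.arctan (f x / s) by
      linarith [mT h4, hP.Tu.1, (abs_le.1 hk).1])) (mul_pos hl (show 0 < f x by linarith))
    linarith

end Vale.Agent.P366Y.J
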