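import Vale.Agent.P366Y.J.Asm
import Vale.Agent.P366Y.J.Alg
import Vale.Agent.P366Y.J.C2
import Vale.Agent.P366Y.J.Coef
import Vale.Agent.P366Y.J.Coef2
import Vale.Agent.P366Y.J.Ct
import Vale.Agent.P366Y.J.D2
import Vale.Agent.P366Y.J.Ex
import Vale.Agent.P366Y.J.Exp
import Vale.Agent.P366Y.J.Ga
import Vale.Agent.P366Y.J.Grad
import Vale.Agent.P366Y.J.Hol
import Vale.Agent.P366Y.J.Inn
import Vale.Agent.P366Y.J.Out
import Vale.Agent.P366Y.J.Prof
import Vale.Agent.P366Y.J.Sup
import Vale.Agent.P366Y.J.Touch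
import Vale.Agent.P366Y.T.UschA
import Vale.Agent.P366Y.T.Qe
import Vale.Agent.P366Y.T.Sfp
import Vale.Agent.P366Y.T.Mpn
import Vale.Agent.P366Y.T.Linh
import Vale.Agent.P366Y.T.Regq
import Vale.Agent.P366Y.T.Gb
import Vale.Agent.P366Y.H.All

/-!
# P366Y, block E: the closed forms
-/

namespace Vale.Agent.P366Y.J

theorem coef : COEF := coef_of ga alg

theorem coef2 : COEF2 := coef2_of coef

theorem jsup : JSUP := jsup_of touch alg

theorem qe : QE := qe_of sfp intp usch mpn linh

theorem jall2 : JALL2 :=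
  jall2_of jsup (jgrad_of ga coef alg jsup intp gb0) (jinn_of ga prof touch alg hcp jsup)
    (jout_of ga prof touch alg hcp jsup) (jhol_of ga alg coef P366Z.H.hol)
    (jc2_of coef usch) (jex_of coef qe regq) (jct_of ga coef touch intp) (jd2_of coef coef2)
    (jexp_of ga touch alg hcp)

end Vale.Agent.P366Y.J
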