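import Vale.Agent.P366Y.J.Defs2

/-!
# P366Y, block E: the assembly
-/

open MeasureTheory Metric Filter Topology Set
open scoped ContDiff ENNReal
open Vale.Agent.P366.Stmt Vale.Agent.P366Z

noncomputable section

namespace Vale.Agent.P366Y.J

namespace AsmH

variable {n : ℕ}

theorem grad_small {f : E n → ℝ} {x : E n} {r a b : ℝ} (hf : Smooth f) (hr : 0 < r) (ha : 0 ≤ a)
    (hb : 0 ≤ b) (h1 : ∀ y, ‖y - x‖ ≤ r → |f y| ≤ a)
    (h2 : ∀ y, ‖y - x‖ ≤ r → ‖D1 f y - D1 f x‖ ≤ b) : ‖D1 f x‖ ≤ 2 * a / r + b := by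
  refine (pi_norm_le_iff_of_nonneg (by positivity)).2 fun i => ?_
  set e : E n := EuclideanSpace.single i 1 with he
  have n1 : ‖e‖ = 1 := by simp [he]
  have d : ∀ t : ℝ, HasDerivAt (fun t : ℝ => f (x + t • e)) (pd i f (x + t • e)) t := fun t => by
    rw [pd_eq (hf.diff _)]
    have h3 : HasDerivAt (fun t : ℝ => x + t • e) e t := by
      simpa using ((hasDerivAt_id t).smul_const e).const_add x
    exact (hf.diff _).hasFDerivAt.comp_hasDerivAt t h3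
  obtain ⟨t, ht, e1⟩ := exists_hasDerivAt_eq_slope (fun t : ℝ => f (x + t • e)) _ hr
    (fun t _ => (d t).continuousAt.continuousWithinAt) fun t _ => d t
  have k : ∀ u : ℝ, 0 ≤ u → u ≤ r → ‖x + u • e - x‖ ≤ r := fun u u0 u1 => by
    rw [add_sub_cancel_left, norm_smul, n1, mul_one, Real.norm_eq_abs, abs_of_nonneg u0]; exact u1
  have k1 := (norm_le_pi_norm _ i).trans (h2 _ (k t ht.1.le ht.2.le))
  have k2 : |pd i f (x + t • e)| ≤ 2 * a / r := by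
    rw [e1, sub_zero, abs_div, abs_of_pos hr]
    refine div_le_div_of_nonneg_right ((abs_sub _ _).trans ?_) hr.le
    linarith [h1 _ (k r hr.le le_rfl), h1 _ (k 0 le_rfl hr.le)]
  simp only [Pi.sub_apply, D1, Real.norm_eq_abs] at k1 ⊢
  have k3 := abs_sub (pd i f (x + t • e)) (pd i f (x + t • e) - pd i f x)
  rw [sub_sub_cancel] at k3
  linarith

theorem ev_exp {c : ℝ} (hc : 0 < c) (K : ℝ) {ε : ℝ} (hε : 0 < ε) :
    ∀ᶠ A : ℝ in atTop, K * (A ^ 3 * Real.exp (-(c * A))) ≤ ε := by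
  have h1 := ((Real.tendsto_pow_mul_exp_neg_atTop_nhds_zero 3).comp
    (tendsto_id.const_mul_atTop hc)).const_mul (K / c ^ 3)
  rw [mul_zero] at h1
  filter_upwards [h1.eventually (ge_mem_nhds hε)] with A hA
  refine le_of_eq_of_le ?_ hA
  simp only [Function.comp, id]
  field_simp

theorem tiny {f : E n → ℝ} {x : E n} {c θ K₁ A ε R : ℝ} (hf : Smooth f) (c0 : 0 < c)
    (θ0 : θ ∈ Ioo (0 : ℝ) 1) (K1 : 0 < K₁) (A1 : 1 ≤ A) (hs : Hs θ K₁ A f)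
    (q : (4 + K₁) * (A ^ 3 * Real.exp (-(c * θ / 2 * A))) ≤ ε)
    (hx : ∀ x, R + 7 / 2 ≤ ‖x‖ → ‖x‖ ≤ R + 13 / 2 → |f x| ≤ 1 / A ^ 2 * Real.exp (-(c * A)))
    (h1 : R + 4 ≤ ‖x‖) (h2 : ‖x‖ ≤ R + 6) : A ^ 2 * |f x| ≤ ε ∧ A ^ 2 * ‖D1 f x‖ ≤ ε := by
  have A0 : 0 < A := by linarith
  obtain ⟨w, hw⟩ : ∃ w, w = Real.exp (-(c * A / 2)) := ⟨_, rfl⟩
  obtain ⟨v, hv⟩ : ∃ v, v = Real.exp (-(c * θ / 2 * A)) := ⟨_, rfl⟩
  have w0 : 0 < w := by rw [hw]; positivity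
  have v0 : 0 < v := by rw [hv]; positivity
  have cA : 0 < c * A := by positivity
  have w1 : w ≤ 1 := by rw [hw]; exact Real.exp_le_one_iff.2 (by linarith)
  have w2 : Real.exp (-(c * A)) = w * w := by rw [hw, ← Real.exp_add]; ring_nf
  have w3 : w ≤ v := by
    rw [hw, hv]; exact Real.exp_le_exp.2 (by nlinarith [θ0.2])
  have w4 : w ^ θ = v := by rw [hw, hv, ← Real.exp_mul]; ring_nf
  have A3 : 1 ≤ A ^ 3 := one_le_pow₀ A1
  rw [← hv] at q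
  rw [w2] at hx
  have q1 : v ≤ A ^ 3 * v := le_mul_of_one_le_left v0.le A3
  have q2 : 0 ≤ K₁ * (A ^ 3 * v) := by positivity
  constructor
  · have k := mul_le_mul_of_nonneg_left (hx x (by linarith) (by linarith)) (sq_nonneg A)
    have e2 : A ^ 2 * (1 / A ^ 2 * (w * w)) = w * w := by field_simp
    nlinarith
  · have k := grad_small (x := x) (r := w / 2) (a := 1 / A ^ 2 * (w * w))
      (b := K₁ * (A * v)) hf (by positivity) (by positivity) (by positivity)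
      (fun y hy => hx y (by linarith [norm_sub_norm_le x y, norm_sub_rev x y])
        (by linarith [norm_sub_norm_le y x])) fun y hy => (hs y x).trans ?_
    · have k' := mul_le_mul_of_nonneg_left k (sq_nonneg A)
      have e2 : A ^ 2 * (2 * (1 / A ^ 2 * (w * w)) / (w / 2) + K₁ * (A * v)) =
          4 * w + K₁ * (A ^ 3 * v) := by field_simp; ring
      nlinarith
    · refine mul_le_mul_of_nonneg_left ?_ K1.le
      rw [Real.mul_rpow A0.le (norm_nonneg _), ← w4]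
      refine mul_le_mul ?_ (Real.rpow_le_rpow (norm_nonneg _) (by linarith) θ0.1.le)
        (by positivity) A0.le
      simpa using Real.rpow_le_rpow_of_exponent_le A1 θ0.2.le

theorem ub (s : List ℝ) : ∃ C, ∀ a ∈ s, a ≤ C := (List.finite_toSet s).bddAbove

end AsmH

open AsmH

theorem jall2_of (hS : JSUP) (hG : JGRAD) (hI : JINN) (hO : JOUT) (hH : JHOL) (h2 : JC2)
    (hE : JEX) (hT : JCT) (hD : JD2) (hX : JEXP) : JALL2 := by
  intro n X hok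
  obtain ⟨C1, hG⟩ := hG n X hok
  obtain ⟨C2, hI⟩ := hI n X hok
  obtain ⟨C3, hO⟩ := hO n X hok
  obtain ⟨C4, hH⟩ := hH
  obtain ⟨C5, h2⟩ := h2
  obtain ⟨C6, hE⟩ := hE
  obtain ⟨C7, hT⟩ := hT
  obtain ⟨C8, hD⟩ := hD
  obtain ⟨C9, hX⟩ := hX
  obtain ⟨C, hC⟩ := ub [C1, C2, C3, C4, C5, C6, C7, C8, C9]
  refine ⟨C, fun P hc => ?_⟩
  obtain ⟨l1, hG⟩ := hG P (hc.mono (hC _ (by simp)))
  obtain ⟨l2, hE⟩ := hE n X P (hc.mono (hC _ (by simp)))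
  obtain ⟨l, l0, k1, k2⟩ : ∃ l, 0 < l ∧ l1 ≤ l ∧ l2 ≤ l :=
    ⟨max 1 (max l1 l2), by positivity, by simp, by simp⟩
  obtain ⟨M, M1, hG⟩ := hG l k1
  obtain ⟨θ, θ0, K₁, K1, hH⟩ := hH n X P l M (hc.mono (hC _ (by simp)))
  obtain ⟨K₂, K2, hD⟩ := hD n X P l M θ K₁ (hc.mono (hC _ (by simp))) θ0
  obtain ⟨c, c0, hX⟩ := hX n X P (hc.mono (hC _ (by simp)))
  refine ⟨M, M1, θ, θ0, K₁ + K₂, by positivity, fun ε hε => ?_⟩
  have c1 : 0 < c * θ / 2 := by have := θ0.1; positivity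
  obtain ⟨A₀, hA₀⟩ := eventually_atTop.1 (ev_exp c1 (4 + K₁) hε)
  refine ⟨max A₀ 1, le_max_right _ _, fun A hA => ?_⟩
  have A1 : 1 ≤ A := (le_max_right _ _).trans hA
  have A0 : 0 < A := by linarith
  have s0 : 0 < 1 / A ^ 2 := by positivity
  have s1 : 1 / A ^ 2 ≤ 1 := (div_le_one (by positivity)).2 (one_le_pow₀ A1)
  obtain ⟨K, h2⟩ := h2 n X P (1 / A ^ 2) l M A θ K₁ (hc.mono (hC _ (by simp))) θ0 A1
  have ap : ∀ ψ, Ps X P A ψ → ∀ σ ∈ Icc (0 : ℝ) 1, ∀ f, Jf X P (1 / A ^ 2) l σ ψ f →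
      B1 P M f ∧ Hs θ K₁ A f := fun ψ hψ σ hσ f hf => by
    have b : B1 P M f := fun x => ⟨hS n X P _ l σ A ψ f hc.hX hc.hP hc.fo s0 l0 hσ hψ hf x,
      hG _ s0 σ hσ A ψ f hψ hf x⟩
    exact ⟨b, hH _ s0 σ hσ A A1 ψ f hψ hf b⟩
  have ex : ∀ ψ, ∃ f, Ps X P A ψ → Jf X P (1 / A ^ 2) l 1 ψ f ∧ C2H θ K f := fun ψ => by
    by_cases hψ : Ps X P A ψ
    · obtain ⟨f, hf, hf'⟩ := hE l k2 _ A M θ K₁ ψ θ0 A1 hψ (ap ψ hψ)
      have b := ap ψ hψ 1 (by simp) f hf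
      exact ⟨f, fun _ => ⟨hf, h2 ψ f hψ hf b.1 b.2 hf'⟩⟩
    · exact ⟨0, fun h => absurd h hψ⟩
  choose Φ hΦ using ex
  refine ⟨K, Φ, fun ψ hψ => ?_, fun e he => ?_⟩
  · obtain ⟨hf, hf'⟩ := hΦ ψ hψ
    obtain ⟨b, hs⟩ := ap ψ hψ 1 (by simp) _ hf
    have o := hO P (hc.mono (hC _ (by simp))) _ l A ψ _ s0 l0 hψ hf
    have hx := hX _ l A ψ _ s0 s1 hψ hf o
    have e1 : c / √(1 / A ^ 2) = c * A := by
      rw [show 1 / A ^ 2 = (1 / A) ^ 2 by ring, Real.sqrt_sq (by positivity)]; field_simp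
    rw [e1] at hx
    refine ⟨hf.sm, fun x hx => geo hc.hX hf hx, fun x => (b x).1, fun x => (b x).2,
      hI P (hc.mono (hC _ (by simp))) _ l A ψ _ s0 l0 hψ hf, o, fun x y => (hs x y).trans ?_,
      fun x => (hD A A1 _ le_rfl ψ _ hψ hf b hs x).trans ?_, hf', fun x h1 h2 => ?_⟩
    · exact mul_le_mul_of_nonneg_right (by linarith) (by positivity)
    · exact mul_le_mul_of_nonneg_right (by linarith) A0.le
    · exact tiny hf.sm c0 θ0 K1 A1 hs (hA₀ A ((le_max_left _ _).trans hA)) hx h1 h2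
  · obtain ⟨d, d0, hd⟩ := hT n X P (1 / A ^ 2) l θ K (hc.mono (hC _ (by simp))) s0 l0 θ0 e he
    exact ⟨d, d0, fun ψ ψ' h1 h2 h3 => hd A A ψ ψ' _ _ h1 h2 (hΦ ψ h1).1 (hΦ ψ' h2).1
      (hΦ ψ h1).2 (hΦ ψ' h2).2 h3⟩

end Vale.Agent.P366Y.J
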