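import Vale.Agent.P366Y.J.Defs
import Vale.Agent.P366Y.T.Cac

/-!
# P366Y, block E: the Hölder estimate of the gradient for equations in divergence form
-/

open MeasureTheory Metric Filter Topology Set
open scoped ContDiff ENNReal
open Vale.Agent.P366.Stmt Vale.Agent.P366Z

noncomputable section

namespace Vale.Agent.P366Y.J.Hol

open Cac

theorem core (h : H.HOL) {n : ℕ} (hn : 2 ≤ n) {Λ e D : ℝ} (Λ0 : 0 < Λ) (e0 : 0 < e) (D0 : 0 ≤ D) :
    ∃ θ ∈ Ioo (0 : ℝ) 1, ∃ K > (0 : ℝ), ∀ A ≥ (1 : ℝ), ∀ (f : E n → ℝ) (V : Fin n → E n → ℝ)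
      (a : E n → Mx n) (ε : E n → ℝ), ContDiff ℝ ∞ f → (∀ i, ContDiff ℝ ∞ (V i)) →
      (∀ x, El Λ (a x) ∧ e ≤ ε x ∧ ε x ≤ D ∧ (∀ j, |pd j f x| ≤ D) ∧ |pr2 (a x) (D2 f x)| ≤ D ∧
        ∀ i k, |pd k (V i) x - ε x * ∑ j, a x i j * pd k (pd j f) x| ≤ D * A) → Hs θ K A f := by
  obtain ⟨l, hl⟩ : ∃ l : ℝ, l = e / (2 * Λ) := ⟨_, rfl⟩
  obtain ⟨D', hD'⟩ : ∃ D' : ℝ, D' = D * D + n * D := ⟨_, rfl⟩
  have l0 : 0 < l := by rw [hl]; positivity
  have D1' : 0 ≤ D' := by rw [hD']; positivity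
  obtain ⟨L, hL⟩ : ∃ L : ℝ, L = (n * D + D') ^ 2 / (4 * l) + D + D * (n * Λ) + D' := ⟨_, rfl⟩
  have p1 : 0 ≤ (n * D + D') ^ 2 / (4 * l) := by positivity
  have p2 : 0 ≤ D * (n * Λ) := by positivity
  obtain ⟨α, α0, -, K, K0, hK⟩ := h n l L hn l0 (by linarith)
  refine ⟨min α (1 / 2), ⟨by positivity, (min_le_right _ _).trans_lt (by norm_num)⟩, K + 2 * D,
    by positivity, fun A A1 f V a ε hf hV hb x y => ?_⟩
  have A0 : 0 < A := by linarith
  have b0 : 0 ≤ A * ‖x - y‖ := by positivity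
  have θ0 : 0 ≤ min α (1 / 2) := by positivity
  have q0 := Real.rpow_nonneg b0 (min α (1 / 2))
  refine (pi_norm_le_iff_of_nonneg (by positivity)).2 fun k => ?_
  show |pd k f x - pd k f y| ≤ _
  rcases le_or_gt 1 (A * ‖x - y‖) with far | near
  · have := Real.one_le_rpow far θ0
    have h1 := abs_le.1 ((hb x).2.2.2.1 k)
    have h2 := abs_le.1 ((hb y).2.2.2.1 k)
    rw [abs_le]
    constructor <;> nlinarith
  have sp : ∀ {u : E n → ℝ}, ContDiff ℝ ∞ u → ∀ i, ContDiff ℝ ∞ (pd i u) := fun hu i =>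
    contDiff_pd hu (by norm_cast) i
  have df : ∀ {u : E n → ℝ}, ContDiff ℝ ∞ u → ∀ z, DifferentiableAt ℝ u z := fun hu z =>
    hu.differentiable (by simp) z
  have cm : ∀ {u : E n → ℝ}, ContDiff ℝ ∞ u → ∀ i j z, pd i (pd j u) z = pd j (pd i u) z :=
    fun hu i j z => pd_comm (hu.contDiffAt.of_le (by norm_cast)) i j
  have sd : ContDiff ℝ ∞ fun z => ∑ i, pd i (V i) z := ContDiff.sum fun i _ => sp (hV i) i
  have si : ∀ i, ContDiff ℝ ∞ fun z => if i = k then ∑ i, pd i (V i) z else 0 := fun i => by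
    split_ifs
    exacts [sd, contDiff_const]
  have key := hK (pd k f) (fun i z => pd k (V i) z - if i = k then ∑ i, pd i (V i) z else 0) y
    (1 / A) ((sp hf k).of_le (by norm_cast))
    (fun i => ((sp (hV i) k).sub (si i)).of_le (by norm_cast)) (by positivity) (fun z _ => ?_) x
    (by rw [mem_ball, dist_eq_norm, lt_div_iff₀ A0]; linarith)
  · have e1 : ‖x - y‖ / (1 / A) = A * ‖x - y‖ := by field_simp
    rw [e1] at key
    have := Real.rpow_le_rpow_of_exponent_ge' b0 near.le θ0 (min_le_left α (1 / 2))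
    nlinarith
  obtain ⟨el, ε1, ε2, g1, g2, er⟩ := hb z
  obtain ⟨P, hP⟩ : ∃ P, P = ‖fderiv ℝ (pd k f) z‖ := ⟨_, rfl⟩
  have P0 : 0 ≤ P := hP ▸ norm_nonneg _
  have P1 : ∀ i, |pd i (pd k f) z| ≤ P := fun i => hP ▸ abs_pd_le (df (sp hf k) z) i
  have P2 : P ^ 2 ≤ Λ * ∑ i, (∑ j, a z i j * pd j (pd k f) z) * pd i (pd k f) z := by
    have := quad el (D1 (pd k f) z)
    rwa [Real.sq_sqrt (e2_nonneg _), e2, show ∑ i, D1 (pd k f) z i ^ 2 = P ^ 2 from
      hP ▸ (norm_fderiv_sq (df (sp hf k) z)).symm] at this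
  have dv : |∑ i, pd i (V i) z| ≤ D' * A := by
    have e1 : ∑ i, pd i (V i) z = ε z * pr2 (a z) (D2 f z) +
        ∑ i, (pd i (V i) z - ε z * ∑ j, a z i j * pd i (pd j f) z) * 1 := by
      simp only [pr2, D2, mul_one, Finset.sum_sub_distrib, ← Finset.mul_sum]
      ring
    have e2 := sum1 (p := fun i => pd i (V i) z - ε z * ∑ j, a z i j * pd i (pd j f) z)
      (q := fun _ => 1) (B := 1) (fun i => er i i) fun _ => by simp
    have e3 : |ε z * pr2 (a z) (D2 f z)| ≤ D * D := by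
      rw [abs_mul, abs_of_nonneg (by linarith)]
      exact mul_le_mul ε2 g2 (abs_nonneg _) D0
    have e4 := mul_le_mul_of_nonneg_left A1 (mul_nonneg D0 D0)
    rw [e1, hD']
    refine (abs_add_le _ _).trans ?_
    linarith
  have er' : ∀ i, |pd k (V i) z - ε z * ∑ j, a z i j * pd j (pd k f) z| ≤ D * A := fun i => by
    simpa only [cm hf k] using er i k
  have r1 : 1 / (1 / A) = A := one_div_one_div A
  have r2 : L / (1 / A) ^ 2 = L * A ^ 2 := by field_simp
  rw [← hP, r1, r2]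
  refine ⟨by linarith [g1 k], ?_, fun i => ?_, ?_⟩
  · have e1 : ∑ i, (pd k (V i) z - if i = k then ∑ i, pd i (V i) z else 0) * pd i (pd k f) z =
        ε z * ∑ i, (∑ j, a z i j * pd j (pd k f) z) * pd i (pd k f) z +
          ∑ i, (pd k (V i) z - ε z * ∑ j, a z i j * pd j (pd k f) z) * pd i (pd k f) z -
          (∑ i, pd i (V i) z) * pd k (pd k f) z := by
      simp only [sub_mul, Finset.sum_sub_distrib, ite_mul, zero_mul, Finset.sum_ite_eq',
        Finset.mem_univ, if_true, mul_assoc, ← Finset.mul_sum]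
      ring
    have e2 := abs_le.1 (sum1 er' P1)
    have e3 : |(∑ i, pd i (V i) z) * pd k (pd k f) z| ≤ D' * A * P := by
      rw [abs_mul]
      exact mul_le_mul dv (P1 k) (abs_nonneg _) (by positivity)
    obtain ⟨S, hS⟩ : ∃ S, S = ∑ i, (∑ j, a z i j * pd j (pd k f) z) * pd i (pd k f) z := ⟨_, rfl⟩
    rw [← hS] at P2
    have S0 : 0 ≤ S := nonneg_of_mul_nonneg_right ((sq_nonneg P).trans P2) Λ0 |> fun h => h
    have e4 : 2 * l * P ^ 2 ≤ ε z * S := by
      have t1 := mul_le_mul_of_nonneg_left P2 (show 0 ≤ 2 * l by positivity)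
      have t2 : 2 * l * (Λ * S) = e * S := by rw [hl]; field_simp
      have t3 := mul_le_mul_of_nonneg_right ε1 S0
      linarith
    have e5 : (n * D + D') * A * P ≤ l * P ^ 2 + (n * D + D') ^ 2 / (4 * l) * A ^ 2 := by
      have t1 : l * P ^ 2 + (n * D + D') ^ 2 / (4 * l) * A ^ 2 - (n * D + D') * A * P =
          (2 * l * P - (n * D + D') * A) ^ 2 / (4 * l) := by field_simp; ring
      have t2 : 0 ≤ (2 * l * P - (n * D + D') * A) ^ 2 / (4 * l) := by positivity
      linarith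
    have e6 : (n * D + D') ^ 2 / (4 * l) * A ^ 2 ≤ L * A ^ 2 :=
      mul_le_mul_of_nonneg_right (by linarith) (sq_nonneg A)
    rw [e1, ← hS]
    linarith [(abs_le.1 e3).2]
  · have e1 : |ε z * ∑ j, a z i j * pd j (pd k f) z| ≤ D * (n * (Λ * P)) := by
      rw [abs_mul, abs_of_nonneg (by linarith)]
      exact mul_le_mul ε2 (sum1 (el.2.1 i) P1) (abs_nonneg _) D0
    have e2 : |if i = k then ∑ i, pd i (V i) z else 0| ≤ D' * A := by
      split_ifs
      exacts [dv, by rw [abs_zero]; positivity]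
    have e3 : D * (n * Λ) * P ≤ L * P := mul_le_mul_of_nonneg_right (by linarith) P0
    have e4 : (D + D') * A ≤ L * A := mul_le_mul_of_nonneg_right (by linarith) A0.le
    have e5 := abs_le.1 (er' i)
    rw [abs_le] at e1 e2 ⊢
    constructor <;> linarith [e1.1, e1.2, e2.1, e2.2, e5.1, e5.2]
  · have e1 : ∀ i, pd i (fun z => pd k (V i) z - if i = k then ∑ i, pd i (V i) z else 0) z =
        pd k (pd i (V i)) z - if i = k then ∑ j, pd k (pd j (V j)) z else 0 := fun i => by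
      rw [pd_sub (df (sp (hV i) k) z) (df (si i) z), cm (hV i) i k]
      congr 1
      split_ifs with e
      · rw [e, pd_sum _ fun j _ => df (sp (hV j) j) z]
      · exact pd_const 0 i z
    simp only [e1, Finset.sum_sub_distrib, Finset.sum_ite_eq', Finset.mem_univ, if_true, sub_self,
      abs_zero]
    have : 0 ≤ L := by linarith
    positivity

end Vale.Agent.P366Y.J.Hol
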